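import Crest.Agent.R269.C.Max.B

/-!
# Row 269, block C5: existence of extremal discs (statements FROZEN; recipe in Blueprint.lean, C5)
-/

set_option autoImplicit false
set_option linter.unusedSectionVars false
set_option linter.unusedVariables false

noncomputable section

namespace Crest.Agent.R269

open Set Metric Filter Topology MeasureTheory Matrix
open Crest.AlgGeometry.ProjEmb
open scoped InnerProductSpace ContDiff

namespace HA

variable (P : HA) {N n : ℕ} {X : Geo N n}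

theorem exists_max {M : ℝ} (h : X.Hyp M) (D : X.Dat) {τ : ℝ} (hτ : 0 < τ) : ∃ d G, P.IsMax D τ d G := by
  obtain ⟨C₁, hC₁⟩ := C5.upper P h D hτ
  set 𝒮 : Set ℝ := {v | ∃ d G, P.Rep d G ∧ d.G 0 ∈ D.C ∧ v = D.L d - τ * P.reg G} with h𝒮
  have hxi : ∀ s, 0 ≤ xi D.κ D.R s := xi_nonneg D.hκ.le D.hR
  have hr0 : ∀ G : Fin (N + 1) → P.A, 0 ≤ P.reg G := fun G => P.rel_nonneg G G
  have hne : 𝒮.Nonempty := by
    obtain ⟨y, hy⟩ := D.Cne
    obtain ⟨d, G, h1, h2, -⟩ := P.const_disc (D.CY hy)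
    exact ⟨_, d, G, h1, by rw [h2]; exact hy, rfl⟩
  have hbd : BddAbove 𝒮 := ⟨C₁, by
    rintro _ ⟨d, G, h1, h2, rfl⟩
    have := mul_nonneg (half_pos hτ).le (hr0 G)
    linarith [hC₁ d G h1 h2, hxi d.s0]⟩
  obtain ⟨u, hum, hu, hu𝒮⟩ := exists_seq_tendsto_sSup hne hbd
  choose d G hG hC hv using hu𝒮
  set R : ℝ := 2 * (C₁ - u 0) / τ with hR
  have hreg : ∀ k, P.reg (G k) ≤ R := fun k => by
    rw [hR, le_div_iff₀ hτ]
    linarith [hC₁ _ _ (hG k) (hC k), hxi (d k).s0, hum (Nat.zero_le k), hv k]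
  have hs0 : ∀ k, |(d k).s0| ≤ 2 * (C₁ - u 0) / D.κ + D.R := fun k => by
    refine (C5.abs_le_xi (R := D.R) D.hκ _).trans (add_le_add (div_le_div_of_nonneg_right ?_ D.hκ.le) le_rfl)
    have := mul_nonneg (half_pos hτ).le (hr0 (G k))
    linarith [hC₁ _ _ (hG k) (hC k), hum (Nat.zero_le k), hv k]
  obtain ⟨c, C, hc, hb⟩ := C5.bounds P h R (2 * (C₁ - u 0) / D.κ + D.R)
  have hb1 := fun k => (hb _ _ (hG k) (hreg k) (hs0 k)).1
  choose G₀ hG₀u hG₀w using fun i =>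
    P.cpt (hyperfilter ℕ) (fun k => G k i) C fun k => (hb _ _ (hG k) (hreg k) (hs0 k)).2 i
  have hl : (hyperfilter ℕ : Filter ℕ) ≤ atTop := Nat.hyperfilter_le_atTop
  have hU : TendstoUniformlyOn (fun k z => P.evV z (G k)) (fun z => P.evV z G₀) (hyperfilter ℕ) (closedBall 0 1) := by
    refine (PiLp.uniformContinuous_toLp 2 _).comp_tendstoUniformlyOn (f := fun z i => P.ev z (G₀ i))
      (F := fun k z i => P.ev z (G k i)) ?_
    rw [Metric.tendstoUniformlyOn_iff]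
    intro ε hε
    filter_upwards [eventually_all.2 fun i => Metric.tendstoUniformlyOn_iff.1 (hG₀u i) ε hε] with k hk z hz
    exact (dist_pi_lt_iff hε).2 fun i => hk i z hz
  have hc0 : ∀ z ∈ closedBall (0 : ℂ) 1, c ≤ ‖P.evV z G₀‖ := fun z hz =>
    ge_of_tendsto' (hU.tendsto_at hz).norm fun k => hb1 k z hz
  have hY : P.InY X G₀ := fun z hz => by
    have h1 := X.isClosed_Y0.mem_of_tendsto (hU.tendsto_at hz)
      (Eventually.of_forall fun k => mem_insert_of_mem _ ((hG k).inY z hz))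
    exact h1.resolve_left (norm_pos_iff.1 (hc.trans_le (hc0 z hz)))
  obtain ⟨d₀, hd₀⟩ := P.exists_rep hY
  have hU' : TendstoUniformlyOn (fun k => (d k).G) d₀.G (hyperfilter ℕ) (closedBall 0 1) :=
    (hU.congr (Eventually.of_forall fun k z hz => (hG k z hz).symm)).congr_right fun z hz => (hd₀ z hz).symm
  have h0 : (0 : ℂ) ∈ closedBall (0 : ℂ) 1 := mem_closedBall_self zero_le_one
  have hC₀ : d₀.G 0 ∈ D.C := C5.mem_cone D.CY D.Ccone D.Ccpt (hU'.tendsto_at h0) hC (d₀.memY 0 h0).1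
  have hL := C5.L_lim P D hG hd₀ hC hC₀ hU'
  have hm : ∀ θ, circleMap 0 1 θ ∈ closedBall (0 : ℂ) 1 := fun θ => circleMap_mem_closedBall 0 zero_le_one θ
  have hlsc : ∀ ε > 0, ∀ᶠ k in (hyperfilter ℕ : Filter ℕ), P.reg G₀ - ε ≤ Real.exp ε * P.reg (G k) := by
    intro ε hε
    filter_upwards [C5.rel_lsc P (G := G₀) (fun θ => (hY _ (hm θ)).1) hG₀w hε,
      Metric.tendstoUniformlyOn_iff.1 (C5.unif_f hU' C5.contOn_log) ε hε] with k h1 h2
    refine h1.trans (C5.rel_le P (fun θ => (hY _ (hm θ)).1) (fun θ => ((hG k).inY _ (hm θ)).1) fun θ => ?_)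
    have h3 := h2 _ (hm θ)
    rw [hG k _ (hm θ), hd₀ _ (hm θ), Real.dist_eq] at h3
    have h4 : 0 < ‖P.evV (circleMap 0 1 θ) G₀‖ ^ 2 := pow_pos (norm_pos_iff.2 (hY _ (hm θ)).1) 2
    have h5 : 0 < ‖P.evV (circleMap 0 1 θ) (G k)‖ ^ 2 := pow_pos (norm_pos_iff.2 ((hG k).inY _ (hm θ)).1) 2
    rw [HA.valV, HA.valV, ← Real.exp_log h4, ← Real.exp_log h5, ← Real.exp_add]
    exact Real.exp_le_exp.2 (by linarith [(abs_lt.1 h3).1])
  have hreg' : Tendsto (fun k => P.reg (G k)) (hyperfilter ℕ) (𝓝 ((D.L d₀ - sSup 𝒮) / τ)) := by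
    refine ((hL.sub (hu.mono_left hl)).div_const τ).congr fun k => ?_
    rw [hv k]
    field_simp
    ring
  have h1 : ∀ ε > 0, P.reg G₀ - ε ≤ Real.exp ε * ((D.L d₀ - sSup 𝒮) / τ) := fun ε hε =>
    ge_of_tendsto (hreg'.const_mul _) (hlsc ε hε)
  have h2 : P.reg G₀ - 0 ≤ Real.exp 0 * ((D.L d₀ - sSup 𝒮) / τ) := by
    refine le_of_tendsto_of_tendsto (b := 𝓝[>] (0 : ℝ)) (f := fun ε => P.reg G₀ - ε)
      (g := fun ε => Real.exp ε * ((D.L d₀ - sSup 𝒮) / τ)) ?_ ?_ (eventually_mem_nhdsWithin.mono h1)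
    · exact (Continuous.tendsto (by fun_prop) 0).mono_left nhdsWithin_le_nhds
    · exact (Continuous.tendsto (by fun_prop) 0).mono_left nhdsWithin_le_nhds
  rw [sub_zero, Real.exp_zero, one_mul, le_div_iff₀ hτ] at h2
  refine ⟨d₀, G₀, hd₀, hC₀, fun d' G' h3 h4 => ?_⟩
  have h5 := le_csSup hbd (show D.L d' - τ * P.reg G' ∈ 𝒮 from ⟨d', G', h3, h4, rfl⟩)
  linarith

end HA

end Crest.Agent.R269
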