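import Crest.Agent.R269.C.Deform

/-!
# Row 269, block C7: the second variation (statements FROZEN; recipe in Blueprint.lean, C7)
-/

set_option autoImplicit false
set_option linter.unusedSectionVars false
set_option linter.unusedVariables false

noncomputable section

namespace Crest.Agent.R269

open Set Metric Filter Topology MeasureTheory Matrix
open Crest.AlgGeometry.ProjEmb
open scoped InnerProductSpace ContDiff

namespace HA

variable (P : HA) {κ : Type} [Fintype κ] {N n : ℕ} {X : Geo N n}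

theorem var1_pt {E : Type} [NormedAddCommGroup E] [NormedSpace ℝ E] [NormedSpace ℂ E] (D1 : E →L[ℝ] ℝ)
    (D2 : E →L[ℝ] E →L[ℝ] ℝ) {M B η : ℝ} (h1 : ‖D1‖ ≤ M) (h2 : ‖D2‖ ≤ M) {v ρ ρ₀ : E} (hv : ‖v‖ ≤ B) (hρ : ‖ρ‖ ≤ B)
    (hη : ‖ρ - ρ₀‖ ≤ η) {t : ℂ} (ht : ‖t‖ ≤ 1) :
    D1 (t • v + t ^ 2 • ρ) + D2 (t • v + t ^ 2 • ρ) (t • v + t ^ 2 • ρ) / 2 ≤
      D1 (t • v) + D1 (t ^ 2 • ρ₀) + D2 (t • v) (t • v) / 2 + (M * η + 2 * M * B ^ 2 * ‖t‖) * ‖t‖ ^ 2 := by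
  have hM : 0 ≤ M := (norm_nonneg _).trans h1
  have hB : 0 ≤ B := (norm_nonneg _).trans hv
  have hr := norm_nonneg t
  have a1 : ‖t • v‖ ≤ ‖t‖ * B := by rw [norm_smul]; gcongr
  have a2 : ‖t ^ 2 • ρ‖ ≤ ‖t‖ ^ 2 * B := by rw [norm_smul, norm_pow]; gcongr
  have a2' : ‖t ^ 2 • ρ‖ ≤ ‖t‖ * B := a2.trans (by gcongr; nlinarith)
  have a3 : ‖t ^ 2 • ρ - t ^ 2 • ρ₀‖ ≤ ‖t‖ ^ 2 * η := by rw [← smul_sub, norm_smul, norm_pow]; gcongr
  have b : ∀ (x y : E) (p q : ℝ), ‖x‖ ≤ p → ‖y‖ ≤ q → D2 x y ≤ M * p * q := fun x y p q hx hy =>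
    (le_abs_self _).trans ((D2.le_opNorm₂ x y).trans (by
      have := (norm_nonneg _).trans hx
      gcongr))
  have b1 : D1 (t ^ 2 • ρ - t ^ 2 • ρ₀) ≤ M * (‖t‖ ^ 2 * η) :=
    (le_abs_self _).trans ((D1.le_opNorm _).trans (by gcongr))
  have b2 := b _ _ _ _ a1 a2
  have b3 := b _ _ _ _ a2 a1
  have b4 := b _ _ _ _ a2 a2'
  have b5 : 0 ≤ M * B ^ 2 * ‖t‖ ^ 3 := by positivity
  simp only [map_add, map_sub, _root_.add_apply] at b1 ⊢
  nlinarith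

theorem var1_exp {E : Type} [NormedAddCommGroup E] [NormedSpace ℂ E] [CompleteSpace E] {H : ℂ → E} {V : E}
    (hH : AnalyticAt ℂ H 0) (hV : HasDerivAt H V 0) :
    ∃ R : ℂ → E, ContinuousAt R 0 ∧ ∀ t, H t = H 0 + (t • V + t ^ 2 • R t) := by
  have h1 : AnalyticAt ℂ (dslope H 0) 0 := by
    obtain ⟨p, hp⟩ := hH
    exact hp.has_fpower_series_dslope_fslope.analyticAt
  refine ⟨dslope (dslope H 0) 0, continuousAt_dslope_same.2 h1.differentiableAt, fun t => ?_⟩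
  have e1 := sub_smul_dslope H 0 t
  have e2 := sub_smul_dslope (dslope H 0) 0 t
  rw [dslope_same, hV.deriv, sub_zero] at e2
  rw [sub_zero] at e1
  rw [sq, mul_smul, e2, smul_sub, e1]
  abel

theorem var1_bound : ∃ C : ℝ, 0 < C ∧ ∀ θ (W : κ → P.A), ‖P.valV θ W‖ ≤ C * ‖W‖ := by
  refine ⟨‖((EuclideanSpace.equiv κ ℂ).symm : (κ → ℂ) →L[ℂ] EuclideanSpace ℂ κ)‖ + 1, by positivity, fun θ W => ?_⟩
  have h1 := ((EuclideanSpace.equiv κ ℂ).symm : (κ → ℂ) →L[ℂ] EuclideanSpace ℂ κ).le_opNorm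
    fun i => P.ev (circleMap 0 1 θ) (W i)
  have h2 : ‖fun i => P.ev (circleMap 0 1 θ) (W i)‖ ≤ ‖W‖ := (pi_norm_le_iff_of_nonneg (norm_nonneg _)).2 fun i =>
    (P.norm_ev _ (circleMap_mem_closedBall 0 zero_le_one θ)).trans (norm_le_pi_norm W i)
  refine le_trans h1 ?_
  gcongr
  linarith

theorem var1_av {E : Type} [NormedAddCommGroup E] [NormedSpace ℝ E] [NormedSpace ℂ E] [IsScalarTower ℝ ℂ E]
    (D1 : E →L[ℝ] ℝ) (D2 : E →L[ℝ] E →L[ℝ] ℝ) (v ρ : E) (r : ℝ) (q : ℂ → ℝ)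
    (hq : ∀ t, q t = D1 (t • v) + D1 (t ^ 2 • ρ) + D2 (t • v) (t • v) / 2) :
    q r + q (Complex.I * r) + q (-r) + q (-(Complex.I * r)) =
      (D2 v v + D2 (Complex.I • v) (Complex.I • v)) * r ^ 2 := by
  have c : ∀ (s : ℝ) (w : E), (s : ℂ) • w = s • w := fun s w => by
    rw [← Complex.coe_algebraMap, algebraMap_smul]
  have e1 : ((r : ℂ)) ^ 2 = ((r ^ 2 : ℝ) : ℂ) := by push_cast; ring
  have e2 : (Complex.I * r) ^ 2 = -((r ^ 2 : ℝ) : ℂ) := by rw [mul_pow, Complex.I_sq]; push_cast; ring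
  simp only [hq, neg_sq, e2]
  simp only [e1, mul_comm Complex.I, mul_smul, neg_smul, c, map_neg, map_smul, _root_.neg_apply, _root_.smul_apply,
    smul_eq_mul]
  ring

theorem var1_int {a b c d e l : ℝ → ℝ} (ha : Integrable a mu) (hb : Integrable b mu) (hc : Integrable c mu)
    (hd : Integrable d mu) (he : Integrable e mu) (hl : Integrable l mu) {ε r : ℝ}
    (h : ∀ θ, (a θ + b θ + c θ + d θ) / 4 - e θ ≤ (l θ + ε) * r) :
    (∫ θ, a θ ∂mu + ∫ θ, b θ ∂mu + ∫ θ, c θ ∂mu + ∫ θ, d θ ∂mu) / 4 - ∫ θ, e θ ∂mu ≤ (∫ θ, l θ ∂mu + ε) * r := by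
  have h1 : Integrable (fun θ => a θ + b θ) mu := ha.add hb
  have h2 : Integrable (fun θ => a θ + b θ + c θ) mu := h1.add hc
  have h3 : Integrable (fun θ => (a θ + b θ + c θ + d θ) / 4) mu := (h2.add hd).div_const 4
  have hm := integral_mono (f := fun θ => (a θ + b θ + c θ + d θ) / 4 - e θ) (g := fun θ => (l θ + ε) * r)
    (h3.sub he) ((hl.add (integrable_const ε)).mul_const r) h
  rw [integral_sub h3 he, integral_div, integral_add h2 hd, integral_add h1 hc, integral_add ha hb,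
    integral_mul_const, integral_add hl (integrable_const ε)] at hm
  simpa using hm

/-- `H t = G + t V + t² R + O(t³)` in norm, hence uniformly on the circle; `taylor_unif` on the compact set `range (valV · G)`. -/
theorem avg_var {f : EuclideanSpace ℂ κ → ℝ} {H : ℂ → κ → P.A} {V : κ → P.A} (hH : AnalyticAt ℂ H 0)
    (hV : HasDerivAt H V 0) (hf : ∀ θ, ContDiffAt ℝ 2 f (P.valV θ (H 0))) :
    Up (fun t => ∫ θ, f (P.valV θ (H t)) ∂mu) (∫ θ, levi f (P.valV θ (H 0)) (P.valV θ V) ∂mu) := by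
  intro ε hε
  obtain ⟨R, hRc, hR⟩ := var1_exp hH hV
  obtain ⟨C, hC, hCb⟩ := P.var1_bound (κ := κ)
  choose L hL using fun θ => P.exists_evL (κ := κ) (circleMap_mem_closedBall 0 zero_le_one θ)
  have hL' : ∀ θ W, P.valV θ W = L θ W := fun θ W => (hL θ W).symm
  set K := range fun θ => P.valV θ (H 0) with hK
  have hKc : IsCompact K := Function.Periodic.compact_of_continuous (c := 2 * Real.pi)
    (fun θ => by simp only [valV, periodic_circleMap 0 1 θ]) (by positivity) (P.continuous_valV _)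
  have hfK : ∀ x ∈ K, ContDiffAt ℝ 2 f x := by rintro _ ⟨θ, rfl⟩; exact hf θ
  obtain ⟨M1, hM1⟩ := hKc.exists_bound_of_continuousOn (f := fderiv ℝ f) fun x hx =>
    (lv1_d (hfK x hx)).continuousAt.continuousWithinAt
  obtain ⟨M2, hM2⟩ := hKc.exists_bound_of_continuousOn (f := fderiv ℝ (fderiv ℝ f)) fun x hx =>
    ((lv1_d (hfK x hx)).fderiv_right (m := 0) (by norm_num)).continuousAt.continuousWithinAt
  obtain ⟨δ₁, hδ₁, hU⟩ := hKc.exists_cthickening_subset_open (t := {x | ContDiffAt ℝ 2 f x})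
    (isOpen_iff_mem_nhds.2 fun x hx => ContDiffAt.eventually hx (by simp)) hfK
  set M := max M1 M2
  set B := C * (‖V‖ + ‖R 0‖ + 1) with hB
  have hB0 : 0 < B := by positivity
  obtain ⟨δ₂, hδ₂, hT⟩ := taylor_unif hKc hfK (ε := ε / 2 / (4 * B ^ 2)) (by positivity)
  have c1 : ContinuousAt (fun t : ℂ => ‖R t - R 0‖) 0 := (hRc.sub continuousAt_const).norm
  have key : ∀ᶠ t : ℂ in 𝓝 0, Integrable (fun θ => f (P.valV θ (H t))) mu ∧ ∀ θ,
      f (P.valV θ (H t)) ≤ f (P.valV θ (H 0)) + (fderiv ℝ f (P.valV θ (H 0)) (t • P.valV θ V) +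
        fderiv ℝ f (P.valV θ (H 0)) (t ^ 2 • P.valV θ (R 0)) +
        fderiv ℝ (fderiv ℝ f) (P.valV θ (H 0)) (t • P.valV θ V) (t • P.valV θ V) / 2) + ε * ‖t‖ ^ 2 := by
    have c2 : ContinuousAt (fun t : ℂ => M * (C * ‖R t - R 0‖) + 2 * M * B ^ 2 * ‖t‖) 0 := by fun_prop
    have c3 : ContinuousAt (fun t : ℂ => 2 * B * ‖t‖) 0 := by fun_prop
    filter_upwards [c1.eventually_lt continuousAt_const (show ‖R 0 - R 0‖ < 1 by simp),
      c2.eventually_lt continuousAt_const (show _ < ε / 2 by simpa using hε),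
      c3.eventually_lt continuousAt_const (show _ < min δ₁ δ₂ by simpa using ⟨hδ₁, hδ₂⟩),
      closedBall_mem_nhds (0 : ℂ) one_pos] with t t1 t2 t3 t4
    rw [mem_closedBall_zero_iff] at t4
    have hv : ∀ θ, ‖P.valV θ V‖ ≤ B := fun θ => (hCb θ V).trans (by
      rw [hB]; gcongr; linarith [norm_nonneg (R 0)])
    have hρ : ∀ θ, ‖P.valV θ (R t)‖ ≤ B := fun θ => (hCb θ _).trans (by
      rw [hB]; gcongr; linarith [norm_nonneg V, norm_le_insert' (R t) (R 0)])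
    have hη : ∀ θ, ‖P.valV θ (R t) - P.valV θ (R 0)‖ ≤ C * ‖R t - R 0‖ := fun θ => by
      rw [hL', hL', ← map_sub, ← hL']; exact hCb _ _
    have he : ∀ θ, P.valV θ (H t) = P.valV θ (H 0) + (t • P.valV θ V + t ^ 2 • P.valV θ (R t)) := fun θ => by
      simp only [hL']
      rw [hR t, map_add, map_add, map_smul, map_smul]
    have hn : ∀ θ, ‖t • P.valV θ V + t ^ 2 • P.valV θ (R t)‖ ≤ 2 * B * ‖t‖ := fun θ => by
      refine (norm_add_le _ _).trans ?_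
      rw [norm_smul, norm_smul, norm_pow]
      have h1 := mul_le_mul_of_nonneg_left (hv θ) (norm_nonneg t)
      have h2 : ‖t‖ ^ 2 * ‖P.valV θ (R t)‖ ≤ ‖t‖ * B := by
        gcongr
        · nlinarith [norm_nonneg t]
        · exact hρ θ
      linarith
    refine ⟨integrable_mu (continuous_iff_continuousAt.2 fun θ => ContinuousAt.comp (g := f)
      (ContDiffAt.continuousAt (𝕜 := ℝ) (n := 2) (hU (mem_cthickening_of_dist_le _ (P.valV θ (H 0)) _ _ ⟨θ, rfl⟩ ?_)))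
      (P.continuous_valV _).continuousAt), fun θ => ?_⟩
    · rw [dist_eq_norm, he, add_sub_cancel_left]
      exact (hn θ).trans (t3.le.trans (min_le_left _ _))
    · have h1 := (le_abs_self _).trans (hT _ ⟨θ, rfl⟩ _ ((hn θ).trans (t3.le.trans (min_le_right _ _))))
      have h2 := var1_pt _ _ ((hM1 _ ⟨θ, rfl⟩).trans (le_max_left M1 M2)) ((hM2 _ ⟨θ, rfl⟩).trans (le_max_right M1 M2))
        (hv θ) (hρ θ) (hη θ) t4
      have h3 : ε / 2 / (4 * B ^ 2) * ‖t • P.valV θ V + t ^ 2 • P.valV θ (R t)‖ ^ 2 ≤ ε / 2 * ‖t‖ ^ 2 :=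
        calc _ ≤ ε / 2 / (4 * B ^ 2) * (2 * B * ‖t‖) ^ 2 := by gcongr; exact hn θ
          _ = _ := by field_simp; ring
      have h4 := mul_le_mul_of_nonneg_right t2.le (sq_nonneg ‖t‖)
      rw [he]
      linarith
  have hI0 := key.self_of_nhds.1
  have hIl : Integrable (fun θ => levi f (P.valV θ (H 0)) (P.valV θ V)) mu :=
    integrable_mu (continuous_iff_continuousAt.2 fun θ => (continuousAt_levi (hf θ) (P.valV θ V)).comp
      (f := fun θ => (P.valV θ (H 0), P.valV θ V))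
      ((P.continuous_valV _).prodMk (P.continuous_valV _)).continuousAt)
  have tt : ∀ g : ℝ → ℂ, Continuous g → g 0 = 0 → Tendsto g (𝓝[>] 0) (𝓝 0) := fun g hg h0 =>
    (hg.tendsto' 0 0 h0).mono_left nhdsWithin_le_nhds
  filter_upwards [(tt (fun r => r) (by fun_prop) (by simp)).eventually key,
    (tt (fun r => Complex.I * r) (by fun_prop) (by simp)).eventually key,
    (tt (fun r => -r) (by fun_prop) (by simp)).eventually key,
    (tt (fun r => -(Complex.I * r)) (by fun_prop) (by simp)).eventually key] with r k1 k2 k3 k4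
  refine var1_int k1.1 k2.1 k3.1 k4.1 hI0 hIl fun θ => ?_
  have j1 := k1.2 θ
  have j2 := k2.2 θ
  have j3 := k3.2 θ
  have j4 := k4.2 θ
  have j := var1_av (fderiv ℝ f (P.valV θ (H 0))) (fderiv ℝ (fderiv ℝ f) (P.valV θ (H 0))) (P.valV θ V)
    (P.valV θ (R 0)) r _ fun _ => rfl
  simp only [norm_neg, norm_mul, Complex.norm_I, Complex.norm_real, Real.norm_eq_abs, one_mul, sq_abs] at j1 j2 j3 j4
  rw [levi]
  linarith

theorem rv_up {W : Type} [NormedAddCommGroup W] [InnerProductSpace ℝ W] [NormedSpace ℂ W] [IsScalarTower ℝ ℂ W]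
    [CompleteSpace W] {k : ℂ → W} {k₁ : W} (hk : AnalyticAt ℂ k 0) (h1 : HasDerivAt k k₁ 0) :
    Up (fun t => ‖k t‖ ^ 2) (‖k₁‖ ^ 2) := by
  have hc : ContDiffAt ℝ 2 (fun x : W => ‖x‖ ^ 2) (k 0) := (contDiff_norm_sq ℝ).contDiffAt
  have h2 := (up_lo_of_contDiffAt (hc.comp 0 ((hk.contDiffAt (n := 2)).restrict_scalars ℝ))).1
  have h3 : fderiv ℝ (fderiv ℝ fun x : W => ‖x‖ ^ 2) (k 0) = 2 • innerSL ℝ := by
    rw [fderiv_norm_sq]
    exact (2 • innerSL ℝ : W →L[ℝ] W →L[ℝ] ℝ).fderiv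
  refine h2.mono (le_of_eq ((levi_comp_hol hc hk 1).trans ?_))
  rw [fderiv_apply_one_eq_deriv, h1.deriv, levi, h3]
  change (2 • ⟪k₁, k₁⟫_ℝ + 2 • ⟪Complex.I • k₁, Complex.I • k₁⟫_ℝ) / 4 = _
  simp only [real_inner_self_eq_norm_sq, norm_smul, Complex.norm_I, one_mul, nsmul_eq_mul]
  ring

theorem rv_sum (s : Finset κ) {ψ : κ → ℂ → ℝ} {a : κ → ℝ} (h : ∀ i, Up (ψ i) (a i)) :
    Up (fun t => ∑ i ∈ s, ψ i t) (∑ i ∈ s, a i) := by
  classical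
  induction s using Finset.induction_on with
  | empty => exact up_of_isLocalMax isLocalMax_const
  | insert i s hi ih =>
    simp only [Finset.sum_insert hi]
    exact (h i).add ih

theorem rv_int (g : Lp ℂ 2 mu) : Integrable (fun θ => ‖g θ‖ ^ 2) mu :=
  (memLp_two_iff_integrable_sq_norm (Lp.aestronglyMeasurable g)).1 (Lp.memLp g)

theorem rv_sq (k : κ → Lp ℂ 2 mu) : ∑ i, ‖k i‖ ^ 2 = ∫ θ, ∑ i, ‖k i θ‖ ^ 2 ∂mu := by
  rw [integral_finsetSum _ fun i _ => rv_int (k i)]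
  refine Finset.sum_congr rfl fun i _ => ?_
  rw [← real_inner_self_eq_norm_sq, L2.inner_def]
  simp only [real_inner_self_eq_norm_sq]

theorem rv_val (G U : κ → P.A) (θ : ℝ) :
    P.val θ (∑ i, star (P.ι (G i)) * P.ι (U i)) = ⟪P.valV θ G, P.valV θ U⟫_ℂ := by
  simp only [map_sum, map_mul, P.val_star, PiLp.inner_apply, P.valV_apply, RCLike.inner_apply, mul_comm]
  rfl

/-- Holomorphic majorant.  With `G = H 0`, `x = ∑ star (G i) * G i`, `l t = x⁻¹ ∑ star (G i) * H t i ∈ P.H` (analytic, `l 0 = 1`),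
Cauchy–Schwarz gives `‖H t‖ ≥ ‖G‖ |l t|`, so `reg (H t) ≤ ∑ᵢ ‖k t i‖²`, `k t i = mulL (o' (l t)⁻¹) (der (H t i)) ∈ L²` analytic in `t`
(`|o'| = 1/‖G‖`, `outerV`), with equality at `t = 0`; `‖k t‖² = ‖k 0‖² + 2 Re ⟪k 0, t k₁ + t² k₂⟫ + |t|² ‖k₁‖² + O(t³)`,
`k₁ = o' (V_θ - l'(0) G_θ)`, `|l'(0)| ≤ s`. -/
theorem reg_var {H : ℂ → κ → P.A} {V : κ → P.A} (hH : AnalyticAt ℂ H 0) (hV : HasDerivAt H V 0)
    (h0 : ∀ θ, P.valV θ (H 0) ≠ 0) {s : ℝ} (hs : ∀ θ, ‖P.valV θ V‖ ≤ s * ‖P.valV θ (H 0)‖) :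
    Up (fun t => P.reg (H t)) (2 * P.rel (H 0) V + 2 * s ^ 2 * P.reg (H 0)) := by
  obtain ⟨B, hB⟩ := P.exists_mulL
  obtain ⟨o, o', hoo, ho, -⟩ := P.outerV h0
  have hG : ∀ θ, 0 < ‖P.valV θ (H 0)‖ := fun θ => norm_pos_iff.2 (h0 θ)
  have ho' : ∀ θ, ‖P.val θ (P.ι o')‖ = ‖P.valV θ (H 0)‖⁻¹ := fun θ => by
    refine eq_inv_of_mul_eq_one_right ?_
    rw [← ho, ← norm_mul, ← map_mul, ← map_mul, hoo, map_one, map_one, norm_one]
  obtain ⟨x', hx'⟩ := (P.unitH (∑ i, star (P.ι (H 0 i)) * P.ι (H 0 i)) fun θ => by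
    rw [P.rv_val]; exact inner_self_ne_zero.2 (h0 θ)).exists_left_inv
  let ιL : P.A →L[ℂ] P.H := P.ι.toLinearMap.mkContinuous 1 fun a => by simp [P.norm_ι]
  let L : (κ → P.A) →L[ℂ] P.H := ContinuousLinearMap.mul ℂ P.H x' ∘L ∑ i,
    ContinuousLinearMap.mul ℂ P.H (star (P.ι (H 0 i))) ∘L ιL ∘L ContinuousLinearMap.proj i
  have hLe : ∀ U, L U = x' * ∑ i, star (P.ι (H 0 i)) * P.ι (U i) := fun U => by
    simp [L, ιL, Finset.mul_sum]
  have hL1 : L (H 0) = 1 := by rw [hLe, hx']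
  have hL : ∀ U θ, ‖P.val θ (L U)‖ * ‖P.valV θ (H 0)‖ ≤ ‖P.valV θ U‖ := fun U θ => by
    have h1 : ‖P.val θ x'‖ * ‖P.valV θ (H 0)‖ ^ 2 = 1 := by
      have := congrArg (fun y => ‖P.val θ y‖) hx'
      simpa only [map_mul, P.rv_val, norm_mul, map_one, norm_one, inner_self_eq_norm_sq_to_K, norm_pow,
        RCLike.norm_ofReal, abs_norm] using this
    rw [hLe, map_mul, P.rv_val, norm_mul]
    calc _ ≤ ‖P.val θ x'‖ * (‖P.valV θ (H 0)‖ * ‖P.valV θ U‖) * ‖P.valV θ (H 0)‖ := by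
          gcongr
          exact norm_inner_le_norm _ _
      _ = ‖P.val θ x'‖ * ‖P.valV θ (H 0)‖ ^ 2 * ‖P.valV θ U‖ := by ring
      _ = _ := by rw [h1, one_mul]
  let Dr : κ → (κ → P.A) →L[ℂ] Lp ℂ 2 mu := fun i => P.der ∘L ιL ∘L ContinuousLinearMap.proj i
  have hDr : ∀ i U, Dr i U = P.der (P.ι (U i)) := fun _ _ => rfl
  have hla : AnalyticAt ℂ (fun t => L (H t)) 0 := (L.analyticAt _).comp hH
  have hma : AnalyticAt ℂ (fun t => Ring.inverse (L (H t))) 0 :=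
    (analyticAt_inverse (𝕜 := ℂ) (1 : P.Hˣ)).comp_of_eq hla hL1
  have hmd : HasDerivAt (fun t => Ring.inverse (L (H t))) (-L V) 0 := by
    have h1 := hasFDerivAt_ringInverse (𝕜 := ℂ) (1 : P.Hˣ)
    rw [Units.val_one, ← hL1] at h1
    have h2 := h1.comp_hasDerivAt 0 (L.hasFDerivAt.comp_hasDerivAt 0 hV)
    exact h2.congr_deriv (by simp)
  set k : ℂ → κ → Lp ℂ 2 mu := fun t i => B (P.ι o' * Ring.inverse (L (H t))) (Dr i (H t)) with hk
  set k₁ : κ → Lp ℂ 2 mu := fun i => B (P.ι o' * -L V) (Dr i (H 0)) + B (P.ι o') (Dr i V) with hk₁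
  have hka : ∀ i, AnalyticAt ℂ (fun t => k t i) 0 := fun i =>
    (B.analyticAt_bilinear _).comp₂ (analyticAt_const.mul hma) (((Dr i).analyticAt _).comp hH)
  have hkd : ∀ i, HasDerivAt (fun t => k t i) (k₁ i) 0 := fun i => by
    have h1 := (B.hasFDerivAt.comp_hasDerivAt 0 (hmd.const_mul (P.ι o'))).clm_apply
      ((Dr i).hasFDerivAt.comp_hasDerivAt 0 hV)
    simpa only [Function.comp, hL1, Ring.inverse_one, mul_one] using h1
  have hkv : ∀ t, ∀ᵐ θ ∂mu, ∑ i, ‖k t i θ‖ ^ 2 =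
      P.dsq (H t) θ * (‖P.valV θ (H 0)‖⁻¹ * ‖P.val θ (Ring.inverse (L (H t)))‖) ^ 2 := fun t => by
    filter_upwards [ae_all_iff.2 fun i => hB (P.ι o' * Ring.inverse (L (H t))) (Dr i (H t))] with θ hθ
    rw [dsq, Finset.sum_mul]
    refine Finset.sum_congr rfl fun i _ => ?_
    rw [hk]
    beta_reduce
    rw [hθ i, map_mul, norm_mul, norm_mul, ho', hDr]
    ring
  have hd0 : ∀ (U : κ → P.A) θ, 0 ≤ P.dsq U θ := fun U θ => Finset.sum_nonneg fun _ _ => sq_nonneg _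
  refine ((rv_sum Finset.univ fun i => rv_up (hka i) (hkd i)).of_le ?_ ?_).mono ?_
  · have hu : ∀ᶠ t in 𝓝 (0 : ℂ), IsUnit (L (H t)) :=
      hla.continuousAt.eventually (Units.isOpen.mem_nhds (show IsUnit (L (H 0)) from hL1 ▸ isUnit_one))
    filter_upwards [hu] with t ht
    rw [rv_sq]
    refine integral_mono_of_nonneg (Eventually.of_forall fun θ => div_nonneg (hd0 _ _) (sq_nonneg _))
      (integrable_finsetSum _ fun i _ => rv_int _) ?_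
    filter_upwards [hkv t] with θ hθ
    rw [hθ, div_eq_mul_inv, ← inv_pow]
    refine mul_le_mul_of_nonneg_left (pow_le_pow_left₀ (by positivity) ?_ 2) (hd0 _ _)
    have h1 : ‖P.val θ (L (H t))‖ * ‖P.val θ (Ring.inverse (L (H t)))‖ = 1 := by
      rw [← norm_mul, ← map_mul, Ring.mul_inverse_cancel _ ht, map_one, norm_one]
    rw [eq_inv_of_mul_eq_one_right h1, ← mul_inv, mul_comm]
    exact inv_anti₀ (mul_pos (lt_of_le_of_ne (norm_nonneg _) (left_ne_zero_of_mul_eq_one h1).symm)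
      (hG θ)) (hL _ θ)
  · rw [rv_sq]
    refine integral_congr_ae ?_
    filter_upwards [hkv 0] with θ hθ
    rw [hθ, hL1, Ring.inverse_one, map_one, norm_one, mul_one, inv_pow, div_eq_mul_inv]
  · rw [rv_sq, reg, rel, rel, ← integral_const_mul, ← integral_const_mul, ← integral_add
      ((P.integrable_rel h0 V).const_mul _) ((P.integrable_rel h0 (H 0)).const_mul _)]
    refine integral_mono_of_nonneg (Eventually.of_forall fun θ => Finset.sum_nonneg fun _ _ => sq_nonneg _)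
      (((P.integrable_rel h0 V).const_mul _).add ((P.integrable_rel h0 (H 0)).const_mul _)) ?_
    filter_upwards [ae_all_iff.2 fun i => hB (P.ι o' * -L V) (Dr i (H 0)),
      ae_all_iff.2 fun i => hB (P.ι o') (Dr i V),
      ae_all_iff.2 fun i => Lp.coeFn_add (B (P.ι o' * -L V) (Dr i (H 0))) (B (P.ι o') (Dr i V))]
      with θ a1 a2 a3
    have h1 : ‖P.val θ (L V)‖ ^ 2 ≤ s ^ 2 := pow_le_pow_left₀ (norm_nonneg _)
      (le_of_mul_le_mul_right ((hL V θ).trans (hs θ)) (hG θ)) 2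
    simp only [dsq, Finset.sum_div, Finset.mul_sum, ← Finset.sum_add_distrib]
    refine Finset.sum_le_sum fun i _ => ?_
    rw [hk₁]
    beta_reduce
    rw [a3 i, Pi.add_apply, a1 i, a2 i]
    refine (pow_le_pow_left₀ (norm_nonneg _) (norm_add_le _ _) 2).trans (add_sq_le.trans ?_)
    simp only [map_mul, map_neg, norm_mul, norm_neg, ho', hDr, mul_pow, inv_pow, div_eq_mul_inv]
    have h2 := mul_le_mul_of_nonneg_right h1 (show 0 ≤ (‖P.valV θ (H 0)‖ ^ 2)⁻¹ *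
      ‖P.der (P.ι (H 0 i)) θ‖ ^ 2 by positivity)
    linarith

/-- The right hand side of the second variation inequality. -/
def rhs (Γ : Cn (N + 1) → Matrix (Fin (N + 1)) (Fin (N + 1)) ℂ) (τ s : ℝ) (G V : Fin (N + 1) → P.A) : ℝ :=
  ∫ θ, qf (Γ (P.valV θ G)) (P.valV θ V) / ‖P.valV θ G‖ ^ 2 ∂mu + τ * (2 * P.rel G V + 2 * s ^ 2 * P.reg G)

theorem two_le_infty : (2 : WithTop ℕ∞) ≤ ∞ := WithTop.coe_le_coe.2 le_top

theorem analyticAt_aeval {σ A : Type} [NormedCommRing A] [NormedAlgebra ℂ A] {H : ℂ → σ → A} [Fintype σ]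
    (hH : AnalyticAt ℂ H 0) (F : MvPolynomial σ ℂ) : AnalyticAt ℂ (fun t => MvPolynomial.aeval (H t) F) 0 := by
  induction F using MvPolynomial.induction_on with
  | C c => simpa using analyticAt_const
  | add p q hp hq => simpa using hp.fun_add hq
  | mul_X p i hp => simpa using hp.fun_mul ((analyticAt_pi_iff.1 hH) i)

theorem eventually_evV_ne {p : ℂ → κ → P.A} (hp : ContinuousAt p 0) (h : ∀ z ∈ closedBall (0 : ℂ) 1, P.evV z (p 0) ≠ 0) :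
    ∀ᶠ t in 𝓝 0, ∀ z ∈ closedBall (0 : ℂ) 1, P.evV z (p t) ≠ 0 := by
  have hc : ContinuousOn (fun z => ‖P.evV z (p 0)‖ ^ 2) (closedBall 0 1) := by
    have := (P.diffContOnCl_evV (p 0)).continuousOn
    rw [closure_ball _ one_ne_zero] at this
    exact this.norm.pow 2
  obtain ⟨z₀, hz₀, hm⟩ := (isCompact_closedBall (0 : ℂ) 1).exists_isMinOn ⟨0, by simp⟩ hc
  have h0 : 0 < ‖P.evV z₀ (p 0)‖ ^ 2 := pow_pos (norm_pos_iff.2 (h z₀ hz₀)) 2
  have ht : Tendsto (fun t => (Fintype.card κ : ℝ) * ‖p 0 - p t‖ ^ 2) (𝓝 0) (𝓝 0) := by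
    have : ContinuousAt (fun t => (Fintype.card κ : ℝ) * ‖p 0 - p t‖ ^ 2) 0 :=
      continuousAt_const.mul ((continuousAt_const.sub hp).norm.pow 2)
    simpa using this.tendsto
  filter_upwards [ht.eventually (gt_mem_nhds h0)] with t ht z hz hz0
  have h1 : ‖P.evV z₀ (p 0)‖ ^ 2 ≤ ‖P.evV z (p 0)‖ ^ 2 := hm hz
  have h2 : ‖P.evV z (p 0)‖ ^ 2 ≤ (Fintype.card κ : ℝ) * ‖p 0 - p t‖ ^ 2 := by
    rw [EuclideanSpace.norm_sq_eq]
    calc _ ≤ ∑ _i : κ, ‖p 0 - p t‖ ^ 2 := Finset.sum_le_sum fun i _ => ?_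
      _ = _ := by simp
    have e : P.ev z (p t i) = 0 := by simpa [evV] using congrArg (fun v => v i) hz0
    have : P.evV z (p 0) i = P.ev z ((p 0 - p t) i) := by simp [evV, e]
    rw [this]
    exact pow_le_pow_left₀ (norm_nonneg _) ((P.norm_ev _ hz).trans (norm_le_pi_norm _ i)) 2
  linarith

theorem levi_xi_log {m : ℕ} (κ : ℝ) {R : ℝ} (hR : 0 < R) {y : Cn m} (hy : y ≠ 0) (v : Cn m) :
    levi (fun x : Cn m => xi κ R (Real.log (‖x‖ ^ 2))) y v = deriv (xi κ R) (Real.log (‖y‖ ^ 2)) * om y v +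
      deriv (deriv (xi κ R)) (Real.log (‖y‖ ^ 2)) * (‖⟪y, v⟫_ℂ‖ ^ 2 / ‖y‖ ^ 4) := by
  rw [levi_comp_real (h := xi κ R) (f := fun x : Cn m => Real.log (‖x‖ ^ 2))
    ((contDiff_xi κ hR).contDiffAt.of_le two_le_infty)
    ((contDiffAt_log_norm_sq hy).of_le two_le_infty), levi_log_norm_sq hy, fderiv_log_norm_sq hy,
    fderiv_log_norm_sq hy, inner_smul_right, Complex.sq_norm, Complex.normSq_apply]
  have := norm_pos_iff.2 hy
  congr 2
  simp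
  field_simp
  ring

/-- The functional in terms of elements of `A`. -/
theorem L_eq (D : X.Dat) {d : X.Disc} {G} (h : P.Rep d G) {p : (Fin (n + 1) → Fin (N + 1)) → P.A}
    (hp : ∀ z ∈ closedBall (0 : ℂ) 1, P.evV z p ∈ X.pl (P.evV z G) ∧ P.evV z p ≠ 0) :
    D.L d = (‖deriv (fun z => (D.ℓ (P.evV z G))⁻¹ • P.evV z G) 0‖ ^ 2 + D.χ (P.evV 0 G)) +
      (D.a * Real.log (‖P.evV 0 p‖ ^ 2) + (D.b * Real.log (‖P.evV 0 G‖ ^ 2) + D.u (P.evV 0 G) +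
        1 / 2 * xi D.κ D.R (Real.log (‖P.evV 0 G‖ ^ 2)))) +
      -(D.a * ∫ θ, Real.log (‖P.valV θ p‖ ^ 2) ∂mu) +
      -∫ θ, (D.b * Real.log (‖P.valV θ G‖ ^ 2) + D.u (P.valV θ G) + xi D.κ D.R (Real.log (‖P.valV θ G‖ ^ 2))) ∂mu := by
  let d' : X.Disc := ⟨fun z => P.evV z G, fun z => P.evV z p, P.diffContOnCl_evV G, P.diffContOnCl_evV p, h.inY,
    fun z hz => (hp z hz).1, fun z hz => (hp z hz).2⟩
  have h00 : (0 : ℂ) ∈ closedBall (0 : ℂ) 1 := by simp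
  have e1 : d.TB = ∫ θ, Real.log (‖P.valV θ p‖ ^ 2) ∂mu - Real.log (‖P.evV 0 p‖ ^ 2) := by
    rw [d.TB_congr d' fun z hz => by rw [h z hz]]
    simp only [Geo.Disc.TB, circleAverage_eq_mu]
    rfl
  have e2 : d.Phi D.ℓ = ‖deriv (fun z => (D.ℓ (P.evV z G))⁻¹ • P.evV z G) 0‖ ^ 2 := by
    have : (fun z => (D.ℓ (d.G z))⁻¹ • d.G z) =ᶠ[𝓝 0] fun z => (D.ℓ (P.evV z G))⁻¹ • P.evV z G := by
      filter_upwards [closedBall_mem_nhds (0 : ℂ) one_pos] with z hz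
      rw [h z hz]
    rw [Geo.Disc.Phi, this.deriv_eq]
  have hne : ∀ θ, P.valV θ G ≠ 0 := fun θ => (h.inY _ (by simp)).1
  have hc := P.continuous_valV G
  have c1 : Continuous fun θ => Real.log (‖P.valV θ G‖ ^ 2) :=
    (hc.norm.pow 2).log fun θ => pow_ne_zero 2 (norm_ne_zero_iff.2 (hne θ))
  have c2 : Continuous fun θ => D.u (P.valV θ G) :=
    continuous_iff_continuousAt.2 fun θ => (D.hu.1 _ (hne θ)).continuousAt.comp_of_eq hc.continuousAt rfl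
  have c3 : Continuous fun θ => xi D.κ D.R (Real.log (‖P.valV θ G‖ ^ 2)) := (contDiff_xi D.κ D.hR).continuous.comp c1
  have c4 : Continuous fun θ => D.b * Real.log (‖P.valV θ G‖ ^ 2) + D.u (P.valV θ G) := (continuous_const.mul c1).add c2
  rw [integral_add (integrable_mu c4) (integrable_mu c3),
    integral_add ((integrable_mu c1).const_mul _) (integrable_mu c2), integral_const_mul]
  simp only [Geo.Dat.L, Geo.NN, Geo.Disc.TH, Geo.Disc.s0, e1, e2, h.avg, h 0 h00]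
  ring

set_option maxHeartbeats 1000000 in
/-- Master inequality.  `H` from `deform`, `b` from `exists_lift`, discs `d_t` from `exists_disc` (the lift stays nonzero for
small `t`; `p t = (∑_f b f * aeval (H t) δ_{fβ})_β` is an analytic curve in `A^β`).  `ψ` is any lower bound for
`Phi + χ(centre)`; the centre terms `a log ‖p_t 0‖² + b log ‖y_t‖² + u y_t + ξ(log ‖y_t‖²)/2` are `C²` in `t` (`levi_comp_hol`,
`thB_eq`, `levi_comp_real`); the averages by `avg_var`, `Majd`, `deriv_xi ≤ κ`, `deriv2_xi ≤ κ / R`. -/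
theorem master {D : X.Dat} {τ : ℝ} (hτ : 0 ≤ τ) {d : X.Disc} {G} (h : P.IsMax D τ d G) {Γ} (hΓ : D.Majd Γ)
    (hc : ContinuousOn Γ X.Y) {H : ℂ → Fin (N + 1) → P.A} {V} (hH : AnalyticAt ℂ H 0) (h0 : H 0 = G)
    (hV : HasDerivAt H V 0) (hY : ∀ᶠ t in 𝓝 0, P.InY X (H t)) (hC : ∀ᶠ t in 𝓝 0, P.evV 0 (H t) ∈ D.C) {s : ℝ}
    (hs : ∀ θ, ‖P.valV θ V‖ ≤ s * ‖P.valV θ G‖) {α : ℝ}
    (hα : Lo (fun t => ‖deriv (fun z => (D.ℓ (P.evV z (H t)))⁻¹ • P.evV z (H t)) 0‖ ^ 2 + D.χ (P.evV 0 (H t))) α) :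
    α + X.eta D.a D.b D.u (d.G 0) (P.evV 0 V) + deriv (xi D.κ D.R) d.s0 / 2 * om (d.G 0) (P.evV 0 V) +
      deriv (deriv (xi D.κ D.R)) d.s0 / 2 * (‖⟪d.G 0, P.evV 0 V⟫_ℂ‖ ^ 2 / ‖d.G 0‖ ^ 4) ≤ P.rhs Γ τ s G V := by
  subst h0
  have hG : P.InY X (H 0) := h.rep.inY
  have h00 : (0 : ℂ) ∈ closedBall (0 : ℂ) 1 := by simp
  have hcm : ∀ θ, circleMap 0 1 θ ∈ closedBall (0 : ℂ) 1 := fun θ => by simp
  obtain ⟨b, hb⟩ := P.exists_lift hG
  choose δ _ hδ using fun (f : X.Fi) (β : Fin (n + 1) → Fin (N + 1)) => X.exists_dl_poly f (sel β)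
  let p : ℂ → (Fin (n + 1) → Fin (N + 1)) → P.A := fun t β => ∑ f, b f * MvPolynomial.aeval (H t) (δ f β)
  let Q : ℂ → Cn (N + 1) → PE N n := fun z y => ∑ f, P.ev z (b f) • X.dv f y
  have hpe : ∀ t z, P.evV z (p t) = Q z (P.evV z (H t)) := fun t z => by
    ext β
    simp [p, Q, evV, map_sum, ev_aeval, hδ, Geo.dv]
  have hQa : ∀ z y, AnalyticAt ℂ (Q z) y := fun z y =>
    Finset.analyticAt_fun_sum _ fun f _ => (X.analyticAt_dv f y).fun_const_smul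
  have hQp : ∀ z y, Q z y ∈ X.pl y := fun z y =>
    Submodule.sum_mem _ fun f _ => Submodule.smul_mem _ _ (Submodule.subset_span ⟨f, rfl⟩)
  have hpa : AnalyticAt ℂ p 0 := analyticAt_pi_iff.2 fun β =>
    Finset.analyticAt_fun_sum _ fun f _ => analyticAt_const.mul (analyticAt_aeval hH _)
  have hp1 : HasDerivAt p (deriv p 0) 0 := hpa.differentiableAt.hasDerivAt
  set p₁ := deriv p 0
  have hp0 : ∀ z ∈ closedBall (0 : ℂ) 1, P.evV z (p 0) ≠ 0 := fun z hz => by rw [hpe]; exact hb z hz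
  have dH : ∀ z ∈ closedBall (0 : ℂ) 1, AnalyticAt ℂ (fun t => P.evV z (H t)) 0 ∧
      HasDerivAt (fun t => P.evV z (H t)) (P.evV z V) 0 := fun z hz => by
    obtain ⟨L, hL⟩ := P.exists_evL (κ := Fin (N + 1)) hz
    simp only [← hL]
    exact ⟨(L.analyticAt _).comp hH, L.hasFDerivAt.comp_hasDerivAt 0 hV⟩
  have dp : ∀ z ∈ closedBall (0 : ℂ) 1, AnalyticAt ℂ (fun t => P.evV z (p t)) 0 ∧
      HasDerivAt (fun t => P.evV z (p t)) (P.evV z p₁) 0 := fun z hz => by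
    obtain ⟨L, hL⟩ := P.exists_evL (κ := Fin (n + 1) → Fin (N + 1)) hz
    simp only [← hL]
    exact ⟨(L.analyticAt _).comp hpa, L.hasFDerivAt.comp_hasDerivAt 0 hp1⟩
  have hVT : ∀ z ∈ closedBall (0 : ℂ) 1, P.evV z V ∈ X.T (P.evV z (H 0)) := fun z hz => by
    have := X.fderiv_mem_T (dH z hz).2.differentiableAt (hY.mono fun t ht => ht z hz) 1
    rwa [fderiv_apply_one_eq_deriv, (dH z hz).2.deriv] at this
  have hth : ∀ z ∈ closedBall (0 : ℂ) 1, om (P.evV z (p 0)) (P.evV z p₁) = X.thB (P.evV z (H 0)) (P.evV z V) := fun z hz => by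
    have e : HasDerivAt (fun t => P.evV z (p t)) (fderiv ℂ (Q z) (P.evV z (H 0)) (P.evV z V)) 0 := by
      simp only [hpe]
      exact (hQa z _).differentiableAt.hasFDerivAt.comp_hasDerivAt 0 (dH z hz).2
    rw [X.thB_eq (hG z hz) (hQa z _) (by rw [← hpe]; exact hp0 z hz) (Eventually.of_forall (hQp z)) (hVT z hz),
      (dp z hz).2.unique e, hpe]
  have two : (2 : WithTop ℕ∞) ≤ ∞ := two_le_infty
  have cl : ∀ {y : Cn (N + 1)}, y ≠ 0 → ContDiffAt ℝ 2 (fun x : Cn (N + 1) => Real.log (‖x‖ ^ 2)) y :=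
    fun hy => (contDiffAt_log_norm_sq hy).of_le two
  have cx : ∀ {y : Cn (N + 1)}, y ≠ 0 → ContDiffAt ℝ 2 (fun x : Cn (N + 1) => xi D.κ D.R (Real.log (‖x‖ ^ 2))) y :=
    fun hy => ((contDiff_xi D.κ D.hR).contDiffAt.of_le two).comp _ (cl hy)
  -- the Levi form of `b log + u + c ξ`
  have lf : ∀ (c : ℝ) {y : Cn (N + 1)}, y ≠ 0 → ContDiffAt ℝ 2 (fun x : Cn (N + 1) => D.b * Real.log (‖x‖ ^ 2) + D.u x +
      c * xi D.κ D.R (Real.log (‖x‖ ^ 2))) y ∧ ∀ v, levi (fun x : Cn (N + 1) => D.b * Real.log (‖x‖ ^ 2) + D.u x +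
      c * xi D.κ D.R (Real.log (‖x‖ ^ 2))) y v = D.b * om y v + levi D.u y v +
        c * (deriv (xi D.κ D.R) (Real.log (‖y‖ ^ 2)) * om y v +
          deriv (deriv (xi D.κ D.R)) (Real.log (‖y‖ ^ 2)) * (‖⟪y, v⟫_ℂ‖ ^ 2 / ‖y‖ ^ 4)) := fun c y hy => by
    have a1 := (contDiffAt_const (c := D.b)).mul (cl hy)
    have a2 := D.hu.1 y hy
    have a3 := (contDiffAt_const (c := c)).mul (cx hy)
    refine ⟨(a1.add a2).add a3, fun v => ?_⟩
    rw [levi_add (a1.add a2) a3, levi_add a1 a2, levi_const_mul (cl hy), levi_const_mul (cx hy), levi_log_norm_sq hy,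
      levi_xi_log _ D.hR hy]
  have hy0 : P.evV 0 (H 0) ≠ 0 := (hG 0 h00).1
  have hne : ∀ θ, P.valV θ (H 0) ≠ 0 := fun θ => (hG _ (hcm θ)).1
  -- centre terms
  have an2 : ∀ {F : Type} [NormedAddCommGroup F] [NormedSpace ℂ F] [NormedSpace ℝ F] [IsScalarTower ℝ ℂ F] [CompleteSpace F]
      {φ : ℂ → F}, AnalyticAt ℂ φ 0 → ContDiffAt ℝ 2 φ 0 := fun hφ => hφ.contDiffAt.restrict_scalars ℝ
  have c1 : ContDiffAt ℝ 2 (fun t => Real.log (‖P.evV 0 (p t)‖ ^ 2)) 0 :=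
    ContDiffAt.comp (g := fun x : PE N n => Real.log (‖x‖ ^ 2)) (f := fun t => P.evV 0 (p t)) 0
      ((contDiffAt_log_norm_sq (hp0 0 h00)).of_le two) (an2 (dp 0 h00).1)
  have l1 : levi (fun t => Real.log (‖P.evV 0 (p t)‖ ^ 2)) 0 1 = X.thB (P.evV 0 (H 0)) (P.evV 0 V) := by
    rw [levi_comp_hol (f := fun x : PE N n => Real.log (‖x‖ ^ 2)) (φ := fun t => P.evV 0 (p t))
      ((contDiffAt_log_norm_sq (hp0 0 h00)).of_le two) (dp 0 h00).1, levi_log_norm_sq (hp0 0 h00),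
      fderiv_apply_one_eq_deriv, (dp 0 h00).2.deriv, hth 0 h00]
  have c2 := ContDiffAt.comp (f := fun t => P.evV 0 (H t)) (0 : ℂ) (lf (1 / 2) hy0).1 (an2 (dH 0 h00).1)
  have l2 := levi_comp_hol (φ := fun t => P.evV 0 (H t)) (lf (1 / 2) hy0).1 (dH 0 h00).1 1
  rw [(lf (1 / 2) hy0).2, fderiv_apply_one_eq_deriv, (dH 0 h00).2.deriv] at l2
  have L1 := (up_lo_of_contDiffAt c1).2.const_mul D.ha
  have L2 := (up_lo_of_contDiffAt c2).2
  rw [l1] at L1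
  simp only [Function.comp_def] at L2
  rw [l2] at L2
  have U3 := ((P.avg_var (f := fun x : PE N n => Real.log (‖x‖ ^ 2)) hpa hp1
    fun θ => (contDiffAt_log_norm_sq (hp0 _ (hcm θ))).of_le two).const_mul D.ha).neg
  have U4 := (P.avg_var hH hV fun θ => (lf 1 (hne θ)).1).neg
  have U5 := ((P.reg_var hH hV hne hs).const_mul hτ).neg
  have Lo := (((hα.add (L1.add L2)).add U3).add U4).add U5
  have hF : ∀ t, (∀ z ∈ closedBall (0 : ℂ) 1, P.evV z (p t) ≠ 0) → ∀ z ∈ closedBall (0 : ℂ) 1,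
      P.evV z (p t) ∈ X.pl (P.evV z (H t)) ∧ P.evV z (p t) ≠ 0 := fun t ht z hz => ⟨by rw [hpe]; exact hQp _ _, ht z hz⟩
  have key := Lo.le_up (up_of_isLocalMax (by
    filter_upwards [hY, hC, P.eventually_evV_ne hpa.continuousAt hp0] with t h1 h2 h3
    obtain ⟨d', hd'⟩ := P.exists_rep h1
    have := h.max d' (H t) hd' (by rw [hd' 0 h00]; exact h2)
    rw [P.L_eq D hd' (hF t h3), P.L_eq D h.rep (hF 0 hp0)] at this
    simp only [one_mul]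
    linarith))
  -- compare the averages
  have hcG := P.continuous_valV (H 0)
  have hcV := P.continuous_valV V
  have i3 : Continuous fun θ => X.thB (P.valV θ (H 0)) (P.valV θ V) :=
    X.continuousOn_thB.comp_continuous (f := fun θ => (P.valV θ (H 0), P.valV θ V)) (hcG.prodMk hcV)
      fun θ => ⟨hG _ (hcm θ), mem_univ _⟩
  have i4 : Continuous fun θ => levi (fun x : Cn (N + 1) => D.b * Real.log (‖x‖ ^ 2) + D.u x +
      1 * xi D.κ D.R (Real.log (‖x‖ ^ 2))) (P.valV θ (H 0)) (P.valV θ V) :=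
    continuous_iff_continuousAt.2 fun θ =>
      ContinuousAt.comp (f := fun θ => (P.valV θ (H 0), P.valV θ V)) (continuousAt_levi (lf 1 (hne θ)).1 (P.valV θ V))
        (hcG.prodMk hcV).continuousAt
  have i5 : Continuous fun θ => qf (Γ (P.valV θ (H 0))) (P.valV θ V) / ‖P.valV θ (H 0)‖ ^ 2 := by
    have a1 : Continuous fun θ => Γ (P.valV θ (H 0)) := hc.comp_continuous hcG fun θ => hG _ (hcm θ)
    refine Continuous.div ?_ (hcG.norm.pow 2) fun θ => pow_ne_zero 2 (norm_ne_zero_iff.2 (hne θ))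
    unfold qf
    have a2 : Continuous fun θ => (P.valV θ V).ofLp := (PiLp.continuous_ofLp 2 _).comp hcV
    exact Complex.continuous_re.comp (a2.star.dotProduct (a1.matrix_mulVec a2))
  have e3 : ∫ θ, levi (fun x : PE N n => Real.log (‖x‖ ^ 2)) (P.valV θ (p 0)) (P.valV θ p₁) ∂mu =
      ∫ θ, X.thB (P.valV θ (H 0)) (P.valV θ V) ∂mu := by
    congr 1
    funext θ
    exact (levi_log_norm_sq (hp0 _ (hcm θ)) _).trans (hth _ (hcm θ))
  have cmp : D.a * ∫ θ, X.thB (P.valV θ (H 0)) (P.valV θ V) ∂mu + ∫ θ, levi (fun x : Cn (N + 1) => D.b * Real.log (‖x‖ ^ 2) +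
      D.u x + 1 * xi D.κ D.R (Real.log (‖x‖ ^ 2))) (P.valV θ (H 0)) (P.valV θ V) ∂mu ≤
      ∫ θ, qf (Γ (P.valV θ (H 0))) (P.valV θ V) / ‖P.valV θ (H 0)‖ ^ 2 ∂mu := by
    rw [← integral_const_mul, ← integral_add ((integrable_mu i3).const_mul _) (integrable_mu i4)]
    refine integral_mono (((integrable_mu i3).const_mul _).add (integrable_mu i4)) (integrable_mu i5) fun θ => ?_
    have hy := norm_pos_iff.2 (hne θ)
    have m := hΓ _ (hG _ (hcm θ)) _ (hVT _ (hcm θ))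
    change ‖P.valV θ (H 0)‖ ^ 2 * (X.eta D.a D.b D.u (P.valV θ (H 0)) (P.valV θ V) + D.κ * om (P.valV θ (H 0)) (P.valV θ V)) +
      D.κ / D.R * (‖⟪P.valV θ (H 0), P.valV θ V⟫_ℂ‖ ^ 2 / ‖P.valV θ (H 0)‖ ^ 2) ≤ qf (Γ (P.valV θ (H 0))) (P.valV θ V) at m
    simp only
    rw [(lf 1 (hne θ)).2, le_div_iff₀ (by positivity), deriv_xi _ D.hR, deriv2_xi _ D.hR]
    refine le_trans ?_ m
    set y := P.valV θ (H 0)
    set v := P.valV θ V
    set σ := Real.log (‖y‖ ^ 2)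
    have hκ := D.hκ
    have hR := D.hR
    have q0 : D.R ≤ √(D.R ^ 2 + σ ^ 2) := Real.le_sqrt_of_sq_le (by nlinarith [sq_nonneg σ])
    have q1 : σ ≤ √(D.R ^ 2 + σ ^ 2) := Real.le_sqrt_of_sq_le (by nlinarith [sq_nonneg D.R])
    have q2 : 0 < √(D.R ^ 2 + σ ^ 2) := hR.trans_le q0
    have r1 : D.κ * σ / √(D.R ^ 2 + σ ^ 2) ≤ D.κ := by
      rw [div_le_iff₀ q2]; exact mul_le_mul_of_nonneg_left q1 hκ.le
    have r2 : D.κ * D.R ^ 2 / √(D.R ^ 2 + σ ^ 2) ^ 3 ≤ D.κ / D.R := by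
      rw [div_le_div_iff₀ (by positivity) hR]
      have := pow_le_pow_left₀ hR.le q0 3
      nlinarith
    have s1 := mul_le_mul_of_nonneg_right r1 (om_nonneg y v)
    have s2 := mul_le_mul_of_nonneg_right r2 (show 0 ≤ ‖⟪y, v⟫_ℂ‖ ^ 2 / ‖y‖ ^ 4 by positivity)
    have e : ‖⟪y, v⟫_ℂ‖ ^ 2 / ‖y‖ ^ 2 = ‖⟪y, v⟫_ℂ‖ ^ 2 / ‖y‖ ^ 4 * ‖y‖ ^ 2 := by field_simp
    rw [e, Geo.eta]
    have hy2 : 0 ≤ ‖y‖ ^ 2 := by positivity
    nlinarith [mul_le_mul_of_nonneg_right s1 hy2, mul_le_mul_of_nonneg_right s2 hy2]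
  rw [e3] at key
  have hs0 : d.s0 = Real.log (‖P.evV 0 (H 0)‖ ^ 2) := by rw [Geo.Disc.s0, h.rep 0 h00]
  rw [h.rep 0 h00, hs0, rhs, Geo.eta]
  linarith

theorem var3_lo {W : Type} [NormedAddCommGroup W] [NormedSpace ℝ W] [NormedSpace ℂ W] [IsScalarTower ℝ ℂ W]
    [CompleteSpace W] {f : W → ℝ} {k : ℂ → W} {v : W} (hf : ContDiffAt ℝ 2 f (k 0)) (hk : AnalyticAt ℂ k 0)
    (hv : HasDerivAt k v 0) : Lo (fun t => f (k t)) (levi f (k 0) v) := by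
  have h := (up_lo_of_contDiffAt (ψ := fun t => f (k t))
    (hf.comp 0 (hk.contDiffAt.restrict_scalars ℝ))).2
  rwa [levi_comp_hol hf hk, fderiv_apply_one_eq_deriv, hv.deriv] at h

theorem var3_sq {k : ℂ → Cn (N + 1)} {v} (hk : AnalyticAt ℂ k 0) (hv : HasDerivAt k v 0) :
    Lo (fun t => ‖k t‖ ^ 2) (‖v‖ ^ 2) := by
  have h := var3_lo (f := fun x : Cn (N + 1) => ‖x‖ ^ 2) (contDiff_norm_sq ℂ).contDiffAt hk hv
  rwa [levi_norm_sq] at h

theorem var3_const (c : ℝ) : Lo (fun _ => c) 0 := by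
  have h := (up_lo_of_contDiffAt (ψ := fun _ => c) contDiffAt_const).2
  rwa [levi_const] at h

theorem var3_deriv {ℓ : Cn (N + 1) →L[ℂ] ℂ} {g : ℂ → Cn (N + 1)} {v} (hg : HasDerivAt g v 0) (h0 : ℓ (g 0) ≠ 0) :
    deriv (fun z => (ℓ (g z))⁻¹ • g z) 0 = (ℓ (g 0))⁻¹ • v + (-ℓ v / ℓ (g 0) ^ 2) • g 0 :=
  (((ℓ.hasFDerivAt.comp_hasDerivAt 0 hg).inv h0).smul hg).deriv

theorem var3_zz (W : κ → P.A) {z : ℂ} (hz : z ∈ closedBall (0 : ℂ) 1) : P.evV z (P.zz • W) = z • P.evV z W := by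
  ext i
  simp [evV, P.ev_zz z hz]

/-- `t ↦ (H t / ℓ (H t))'(0)` is analytic (`exists_d0`, `exists_evL`), so the square of its norm has `Lo` the square of the norm of the
derivative. -/
theorem phi_var {ℓ : Cn (N + 1) →L[ℂ] ℂ} {H : ℂ → Fin (N + 1) → P.A} (hH : AnalyticAt ℂ H 0) (h0 : ℓ (P.evV 0 (H 0)) ≠ 0) :
    Lo (fun t => ‖deriv (fun z => (ℓ (P.evV z (H t)))⁻¹ • P.evV z (H t)) 0‖ ^ 2) 0 := by
  obtain ⟨L0, h0'⟩ := P.exists_evL (κ := Fin (N + 1)) (z := 0) (mem_closedBall_self zero_le_one)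
  obtain ⟨L1, h1⟩ := P.exists_d0 (κ := Fin (N + 1))
  have a0 : AnalyticAt ℂ (fun t => L0 (H t)) 0 := (L0.analyticAt _).comp hH
  have a1 : AnalyticAt ℂ (fun t => L1 (H t)) 0 := (L1.analyticAt _).comp hH
  have b0 : AnalyticAt ℂ (fun t => ℓ (L0 (H t))) 0 := (ℓ.analyticAt _).comp a0
  have b1 : AnalyticAt ℂ (fun t => ℓ (L1 (H t))) 0 := (ℓ.analyticAt _).comp a1
  rw [← h0'] at h0
  have hk : AnalyticAt ℂ (fun t => (ℓ (L0 (H t)))⁻¹ • L1 (H t) +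
      (-ℓ (L1 (H t)) / ℓ (L0 (H t)) ^ 2) • L0 (H t)) 0 :=
    ((b0.inv h0).smul a1).add ((b1.neg.div (b0.pow 2) (pow_ne_zero 2 h0)).smul a0)
  have e : ∀ t, ℓ (L0 (H t)) ≠ 0 → ‖deriv (fun z => (ℓ (P.evV z (H t)))⁻¹ • P.evV z (H t)) 0‖ ^ 2 =
      ‖(ℓ (L0 (H t)))⁻¹ • L1 (H t) + (-ℓ (L1 (H t)) / ℓ (L0 (H t)) ^ 2) • L0 (H t)‖ ^ 2 := fun t ht => by
    rw [h0'] at ht ⊢
    rw [var3_deriv (h1 (H t)) ht]
  refine ((var3_sq hk hk.differentiableAt.hasDerivAt).mono (sq_nonneg _)).of_le ?_ (e 0 h0)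
  filter_upwards [b0.continuousAt.eventually_ne h0] with t ht
  exact (e t ht).ge

/-- The case of a fixed centre, `V = z W`: the derivative is `d(y / ℓ y)(W 0)`, whose component orthogonal to `y` is `W^⊥ / ℓ y`. -/
theorem phi_var_fixed {ℓ : Cn (N + 1) →L[ℂ] ℂ} (hℓ : ‖ℓ‖ ≤ 1) {H : ℂ → Fin (N + 1) → P.A} {W} (hH : AnalyticAt ℂ H 0)
    (hV : HasDerivAt H (P.zz • W) 0) (h0 : ℓ (P.evV 0 (H 0)) ≠ 0) (hc : ∀ᶠ t in 𝓝 0, P.evV 0 (H t) = P.evV 0 (H 0)) :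
    Lo (fun t => ‖deriv (fun z => (ℓ (P.evV z (H t)))⁻¹ • P.evV z (H t)) 0‖ ^ 2) (om (P.evV 0 (H 0)) (P.evV 0 W)) := by
  obtain ⟨L1, h1⟩ := P.exists_d0 (κ := Fin (N + 1))
  have a1 : AnalyticAt ℂ (fun t => L1 (H t)) 0 := (L1.analyticAt _).comp hH
  have b1 : AnalyticAt ℂ (fun t => ℓ (L1 (H t))) 0 := (ℓ.analyticAt _).comp a1
  have hw : L1 (P.zz • W) = P.evV 0 W := by
    have h2 := (hasDerivAt_id (0 : ℂ)).smul (h1 W)
    rw [id, zero_smul, zero_add, one_smul] at h2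
    refine (h1 _).unique (h2.congr_of_eventuallyEq ?_)
    filter_upwards [closedBall_mem_nhds (0 : ℂ) one_pos] with z hz
    exact P.var3_zz W hz
  have d1 : HasDerivAt (fun t => L1 (H t)) (P.evV 0 W) 0 := hw ▸ L1.hasFDerivAt.comp_hasDerivAt 0 hV
  have d2 : HasDerivAt (fun t => ℓ (L1 (H t))) (ℓ (P.evV 0 W)) 0 := ℓ.hasFDerivAt.comp_hasDerivAt 0 d1
  set y := P.evV 0 (H 0) with hy
  have hk : AnalyticAt ℂ (fun t => (ℓ y)⁻¹ • L1 (H t) + (-ℓ (L1 (H t)) / ℓ y ^ 2) • y) 0 :=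
    ((analyticAt_const (v := (ℓ y)⁻¹)).smul a1).add
      ((b1.neg.div_const (c := ℓ y ^ 2)).smul (analyticAt_const (v := y)))
  have e : ∀ t, P.evV 0 (H t) = y → ‖deriv (fun z => (ℓ (P.evV z (H t)))⁻¹ • P.evV z (H t)) 0‖ ^ 2 =
      ‖(ℓ y)⁻¹ • L1 (H t) + (-ℓ (L1 (H t)) / ℓ y ^ 2) • y‖ ^ 2 := fun t ht => by
    rw [var3_deriv (h1 (H t)) (by rwa [ht]), ht]
  refine ((var3_sq hk ((d1.const_smul (ℓ y)⁻¹).add ((d2.neg.div_const _).smul_const y))).mono ?_).of_le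
    (hc.mono fun t ht => (e t ht).ge) (e 0 rfl)
  have h2 : (ℓ y)⁻¹ • P.evV 0 W + (-ℓ (P.evV 0 W) / ℓ y ^ 2) • y =
      (ℓ y)⁻¹ • (P.evV 0 W + (-ℓ (P.evV 0 W) / ℓ y) • y) := by
    rw [smul_add, smul_smul]
    congr 2
    field_simp
  rw [h2, ← om_add_self y _ (-ℓ (P.evV 0 W) / ℓ y), norm_smul, norm_inv, mul_pow, inv_pow, ← div_eq_inv_mul]
  refine (om_le _).trans (div_le_div_of_nonneg_left (sq_nonneg _) (pow_pos (norm_pos_iff.2 h0) 2) ?_)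
  exact pow_le_pow_left₀ (norm_nonneg _) ((ℓ.le_of_opNorm_le hℓ y).trans_eq (one_mul _)) 2

theorem var3_ne {D : X.Dat} {y} (h : y ∈ D.C) : D.ℓ y ≠ 0 := fun h0 => by
  have := D.Cℓ y h
  rw [h0, norm_zero, mul_zero, norm_le_zero_iff] at this
  exact (D.CY h).1 this

theorem var_a {D : X.Dat} {τ : ℝ} (hτ : 0 ≤ τ) {d : X.Disc} {G} (h : P.IsMax D τ d G) {Γ} (hΓ : D.Majd Γ)
    (hc : ContinuousOn Γ X.Y) {W} (hW : P.JA X G *ᵥ W = 0) {s : ℝ} (hs : ∀ θ, ‖P.valV θ W‖ ≤ s * ‖P.valV θ G‖) :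
    om (d.G 0) (P.evV 0 W) ≤ P.rhs Γ τ s G (P.zz • W) := by
  obtain ⟨H, hH, rfl, hV, hY, hl⟩ := P.deform (V := P.zz • W) h.rep.inY (by rw [mulVec_smul, hW, smul_zero])
  have z0 : (0 : ℂ) ∈ closedBall (0 : ℂ) 1 := mem_closedBall_self zero_le_one
  have e0 : P.evV 0 (P.zz • W) = (0 : ℂ) • d.G 0 := by rw [P.var3_zz W z0, zero_smul, zero_smul]
  have hy := h.rep 0 z0
  have hc' : ∀ᶠ t in 𝓝 0, P.evV 0 (H t) = P.evV 0 (H 0) :=
    (hl 0 (by rw [e0, hy])).mono fun t ht => by rw [ht, mul_zero, add_zero, one_smul]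
  have h1 := P.master hτ h hΓ hc hH rfl hV hY (hc'.mono fun t ht => by rw [ht, ← hy]; exact h.mem)
    (s := s) (fun θ => by
      rw [valV, P.var3_zz W (sphere_subset_closedBall (circleMap_mem_sphere 0 zero_le_one θ)), norm_smul,
        norm_circleMap_zero, abs_one, one_mul]
      exact hs θ)
    (((P.phi_var_fixed D.hℓ hH hV (hy ▸ var3_ne h.mem) hc').add (var3_const (D.χ (P.evV 0 (H 0))))).of_le
      (hc'.mono fun t ht => by simp only [ht, le_refl]) rfl)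
  rw [e0, X.eta_smul, om_smul, inner_smul_right, ← hy] at h1
  simpa using h1

theorem var_b {D : X.Dat} {τ : ℝ} (hτ : 0 ≤ τ) {d : X.Disc} {G} (h : P.IsMax D τ d G) {Γ} (hΓ : D.Majd Γ)
    (hc : ContinuousOn Γ X.Y) {W} (hW : P.JA X G *ᵥ W = 0) {s : ℝ} (hs : ∀ θ, ‖P.valV θ W‖ ≤ s * ‖P.valV θ G‖)
    {lam : ℂ} (hl : P.evV 0 W = lam • d.G 0) :
    D.κ * D.R ^ 2 / (2 * √(D.R ^ 2 + d.s0 ^ 2) ^ 3) * ‖lam‖ ^ 2 ≤ P.rhs Γ τ s G W := by
  obtain ⟨H, hH, rfl, hV, hY, hl'⟩ := P.deform (V := W) h.rep.inY hW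
  have hy := h.rep 0 (mem_closedBall_self zero_le_one)
  have hc' := hl' lam (by rw [hl, hy])
  have hne : ∀ᶠ t in 𝓝 (0 : ℂ), 1 + t * lam ≠ 0 :=
    ContinuousAt.eventually_ne (g := fun t : ℂ => 1 + t * lam) (by fun_prop) (by simp)
  rw [← hy] at hc'
  have h1 := P.master hτ h hΓ hc hH rfl hV hY
    (by filter_upwards [hc', hne] with t ht ht'; rw [ht]; exact D.Ccone _ h.mem _ ht') hs
    (((P.phi_var hH (hy ▸ var3_ne h.mem)).add (var3_const (D.χ (d.G 0)))).of_le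
      (by filter_upwards [hc', hne] with t ht ht'; rw [ht, D.χhom _ h.mem _ ht']) (by rw [hy]))
  have hY0 := D.CY h.mem
  have e1 := X.eta_add_self D.a D.b hY0 (D.hu.1 _ hY0.1) D.hu.2 ((X.T _).smul_mem 0 (X.self_mem_T hY0)) lam
  have e2 := om_add_self (d.G 0) ((0 : ℂ) • d.G 0) lam
  rw [X.eta_smul, zero_smul, zero_add] at e1
  rw [om_smul, zero_smul, zero_add] at e2
  have e3 : ‖⟪d.G 0, lam • d.G 0⟫_ℂ‖ ^ 2 / ‖d.G 0‖ ^ 4 = ‖lam‖ ^ 2 := by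
    have := norm_ne_zero_iff.2 hY0.1
    rw [inner_smul_right, norm_mul, inner_self_eq_norm_sq_to_K, norm_pow, RCLike.norm_ofReal, abs_norm]
    field_simp
  rw [hl, e1, e2, e3, deriv2_xi _ D.hR] at h1
  refine le_trans (le_of_eq ?_) h1
  rw [norm_zero]
  ring

theorem var_c {D : X.Dat} {τ : ℝ} (hτ : 0 ≤ τ) {d : X.Disc} {G} (h : P.IsMax D τ d G) {Γ} (hΓ : D.Majd Γ)
    (hc : ContinuousOn Γ X.Y) {W} (hW : P.JA X G *ᵥ W = 0) {s : ℝ} (hs : ∀ θ, ‖P.valV θ W‖ ≤ s * ‖P.valV θ G‖)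
    (hC : D.C ∈ 𝓝[X.Y] (d.G 0)) (hχ : ContDiffAt ℝ 2 D.χ (d.G 0)) :
    levi D.χ (d.G 0) (P.evV 0 W) + X.eta D.a D.b D.u (d.G 0) (P.evV 0 W) - D.κ * om (d.G 0) (P.evV 0 W) ≤
      P.rhs Γ τ s G W := by
  obtain ⟨H, hH, rfl, hV, hY, -⟩ := P.deform (V := W) h.rep.inY hW
  have z0 : (0 : ℂ) ∈ closedBall (0 : ℂ) 1 := mem_closedBall_self zero_le_one
  have hy := h.rep 0 z0
  obtain ⟨L0, h0⟩ := P.exists_evL (κ := Fin (N + 1)) z0
  have a0 : AnalyticAt ℂ (fun t => P.evV 0 (H t)) 0 := by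
    simp only [← h0]
    exact (L0.analyticAt _).comp hH
  have d0 : HasDerivAt (fun t => P.evV 0 (H t)) (P.evV 0 W) 0 := by
    simp only [← h0]
    exact L0.hasFDerivAt.comp_hasDerivAt 0 hV
  rw [hy] at hC hχ
  have h1 := P.master hτ h hΓ hc hH rfl hV hY
    ((tendsto_nhdsWithin_iff.2 ⟨a0.continuousAt, hY.mono fun t ht => ht 0 z0⟩).eventually hC) hs
    ((P.phi_var hH (hy ▸ var3_ne h.mem)).add (var3_lo hχ a0 d0))
  rw [← hy, deriv2_xi _ D.hR, deriv_xi _ D.hR] at h1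
  have hκ := D.hκ
  have hR := D.hR
  have h2 : 0 < √(D.R ^ 2 + d.s0 ^ 2) := by positivity
  have h3 : -D.κ ≤ D.κ * d.s0 / √(D.R ^ 2 + d.s0 ^ 2) := by
    rw [le_div_iff₀ h2]
    have := (neg_le_abs d.s0).trans (Real.abs_le_sqrt (le_add_of_nonneg_left (sq_nonneg D.R)))
    nlinarith
  have h4 := om_nonneg (d.G 0) (P.evV 0 W)
  have h5 : 0 ≤ D.κ * D.R ^ 2 / √(D.R ^ 2 + d.s0 ^ 2) ^ 3 / 2 *
      (‖⟪d.G 0, P.evV 0 W⟫_ℂ‖ ^ 2 / ‖d.G 0‖ ^ 4) := by positivity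
  nlinarith [mul_le_mul_of_nonneg_right h3 h4, mul_nonneg hκ.le h4]

end HA

end Crest.Agent.R269
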