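import Crest.Agent.R269.C.Base

/-!
# Row 269, block C8: polynomial majorants and the flag lemma (statements FROZEN; recipe in Blueprint.lean, C8)
-/

set_option autoImplicit false
set_option linter.unusedSectionVars false
set_option linter.unusedVariables false

noncomputable section

namespace Crest.Agent.R269

open Set Metric Filter Topology MeasureTheory Matrix
open Crest.AlgGeometry.ProjEmb
open scoped InnerProductSpace ContDiff

open scoped MatrixOrder ComplexOrder in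
theorem mj1_fac {m : ℕ} {A : Matrix (Fin m) (Fin m) ℂ} (hA : A.PosSemidef) :
    ∃ S : Matrix (Fin m) (Fin m) ℂ, A = Sᴴ * S :=
  CStarAlgebra.nonneg_iff_eq_star_mul_self.mp hA.nonneg

theorem mj1_det {m : ℕ} (S : Matrix (Fin m) (Fin m) ℂ) : (Sᴴ * S).det = ((‖S.det‖ ^ 2 : ℝ) : ℂ) := by
  rw [det_mul, det_conjTranspose, Complex.star_def, Complex.conj_mul', Complex.ofReal_pow]

theorem mj1_had {r : ℕ} (f : Fin r → Cn r) : ‖(colM f).det‖ ≤ ∏ i, ‖f i‖ := by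
  have hd : Module.finrank ℂ (Cn r) = Fintype.card (Fin r) := by simp
  let b := InnerProductSpace.gramSchmidtOrthonormalBasis hd f
  let e := EuclideanSpace.basisFun (Fin r) ℂ
  have h1 : (colM f).det = e.toBasis.det f := by
    rw [Module.Basis.det_apply]
    congr 1
  have h2 : e.toBasis.det f = e.toBasis.det b * b.toBasis.det f := by
    have := congrArg (fun g => g f) (e.toBasis.det.eq_smul_basis_det b.toBasis)
    simpa using this
  rw [h1, h2, norm_mul, OrthonormalBasis.det_to_matrix_orthonormalBasis, one_mul,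
    InnerProductSpace.gramSchmidtOrthonormalBasis_det, norm_prod]
  refine Finset.prod_le_prod (fun i _ => norm_nonneg _) fun i _ => ?_
  refine (norm_inner_le_norm _ _).trans ?_
  rw [b.orthonormal.1 i, one_mul]

theorem mj1_diag {m r : ℕ} (f : Fin r → Cn m) (i : Fin r) :
    ((colM f)ᴴ * colM f) i i = ((‖f i‖ ^ 2 : ℝ) : ℂ) := by
  rw [EuclideanSpace.norm_sq_eq, Matrix.mul_apply, Complex.ofReal_sum]
  refine Finset.sum_congr rfl fun j _ => ?_
  rw [conjTranspose_apply, colM, Complex.star_def, Complex.conj_mul', Complex.ofReal_pow]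

open scoped ComplexOrder in
/-- Hadamard's inequality for Gram determinants -/
theorem mj1_gram_le {m r : ℕ} (f : Fin r → Cn m) : gram (colM f) ≤ ∏ i, ‖f i‖ ^ 2 := by
  obtain ⟨S, hS⟩ := mj1_fac (posSemidef_conjTranspose_mul_self (colM f))
  let g : Fin r → Cn r := fun j => WithLp.toLp 2 fun i => S i j
  have hg : S = colM g := rfl
  have h1 : ∀ i, ‖g i‖ ^ 2 = ‖f i‖ ^ 2 := fun i => by
    have := mj1_diag f i
    rw [hS, hg, mj1_diag] at this
    exact_mod_cast this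
  rw [gram, hS, mj1_det, Complex.ofReal_re, hg]
  refine (pow_le_pow_left₀ (norm_nonneg _) (mj1_had g) 2).trans_eq ?_
  rw [← Finset.prod_pow]
  exact Finset.prod_congr rfl fun i _ => h1 i

theorem mj1_tri {r : ℕ} (b : OrthonormalBasis (Fin (r + 1)) ℂ (Cn (r + 1))) (μ : Fin (r + 1) → ℂ) (h0 : μ 0 = 0) :
    ‖(colM fun j => b j + μ j • b 0).det‖ = 1 := by
  let f : Fin (r + 1) → Cn (r + 1) := fun j => b j + μ j • b 0
  let e := EuclideanSpace.basisFun (Fin (r + 1)) ℂ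
  have h1 : (colM f).det = e.toBasis.det f := by
    rw [Module.Basis.det_apply]
    congr 1
  have h2 : e.toBasis.det f = e.toBasis.det b * b.toBasis.det f := by
    have := congrArg (fun g => g f) (e.toBasis.det.eq_smul_basis_det b.toBasis)
    simpa using this
  have h3 : ∀ i j, b.toBasis.toMatrix f i j = (if i = j then 1 else 0) + μ j * if i = 0 then 1 else 0 := fun i j => by
    rw [Module.Basis.toMatrix_apply, OrthonormalBasis.coe_toBasis_repr_apply, OrthonormalBasis.repr_apply_apply,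
      inner_add_right, inner_smul_right, orthonormal_iff_ite.1 b.orthonormal, orthonormal_iff_ite.1 b.orthonormal]
  have h4 : b.toBasis.det f = 1 := by
    rw [Module.Basis.det_apply, Matrix.det_of_isUpperTriangular]
    · refine Finset.prod_eq_one fun i _ => ?_
      rw [h3]
      by_cases hi : i = 0
      · simp [hi, h0]
      · simp [hi]
    · intro i j hij
      have hij' : j < i := hij
      rw [h3, if_neg hij'.ne', if_neg (Fin.pos_iff_ne_zero.1 (lt_of_le_of_lt (Fin.zero_le j) hij'))]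
      simp
  rw [h1, h2, h4, mul_one, OrthonormalBasis.det_to_matrix_orthonormalBasis]

theorem mj1_perp {V : Type} [NormedAddCommGroup V] [InnerProductSpace ℂ V] {y : V} (hy : y ≠ 0) (v : V) :
    ∃ t : ℂ, ⟪y, v + t • y⟫_ℂ = 0 := by
  have : ⟪y, y⟫_ℂ ≠ 0 := inner_self_ne_zero.2 hy
  exact ⟨-(⟪y, v⟫_ℂ / ⟪y, y⟫_ℂ), by rw [inner_add_right, inner_smul_right]; field_simp; ring⟩

theorem mj1_basis {k : ℕ} {a₀ a₁ : Cn (k + 2)} (h₀ : a₀ ≠ 0) (h₁ : a₁ ∉ Submodule.span ℂ {a₀}) :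
    ∃ (b : OrthonormalBasis (Fin (k + 2)) ℂ (Cn (k + 2))) (s p q : ℂ), s ≠ 0 ∧ b 0 = s • a₀ ∧ b 1 = p • a₀ + q • a₁ := by
  obtain ⟨t, ht⟩ := mj1_perp h₀ a₁
  have hu : a₁ + t • a₀ ≠ 0 := fun e => h₁ (by
    rw [eq_neg_of_add_eq_zero_left e]
    exact Submodule.neg_mem _ (Submodule.smul_mem _ _ (Submodule.mem_span_singleton_self a₀)))
  set u := a₁ + t • a₀ with hu'
  let v : Fin (k + 2) → Cn (k + 2) := fun i => if i = 0 then ((‖a₀‖⁻¹ : ℝ) : ℂ) • a₀ else ((‖u‖⁻¹ : ℝ) : ℂ) • u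
  have n0 := norm_ne_zero_iff.2 h₀
  have n1 := norm_ne_zero_iff.2 hu
  have hv : Orthonormal ℂ (({0, 1} : Set (Fin (k + 2))).domRestrict v) := by
    constructor
    · rintro ⟨i, rfl | rfl⟩
      · simp [v, norm_smul, n0]
      · simp [v, norm_smul, n1]
    · rintro ⟨i, rfl | rfl⟩ ⟨j, rfl | rfl⟩ hij
      · exact (hij rfl).elim
      · simp [v, inner_smul_left, inner_smul_right, ht]
      · simp [v, inner_smul_left, inner_smul_right, inner_eq_zero_symm.1 ht]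
      · exact (hij rfl).elim
  obtain ⟨b, hb⟩ := hv.exists_orthonormalBasis_extension_of_card_eq (by simp)
  refine ⟨b, ((‖a₀‖⁻¹ : ℝ) : ℂ), ((‖u‖⁻¹ : ℝ) : ℂ) * t, ((‖u‖⁻¹ : ℝ) : ℂ), by simpa using h₀, hb 0 (by simp), ?_⟩
  rw [hb 1 (by simp)]
  simp only [v, if_neg (one_ne_zero (α := Fin (k + 2)))]
  generalize ((‖u‖⁻¹ : ℝ) : ℂ) = c
  rw [hu', smul_add, smul_smul]
  exact add_comm _ _

/-- Flag lemma.  Take an orthonormal basis `f₀ = y/‖y‖, f₁ ∥ e^⊥, …` of `range W` (Gram–Schmidt), `W aⱼ = fⱼ`, `S = (aⱼ)`; `gram W · |det S|² = 1`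
(`gram_mul`) and `|det S|² = ∏ dist(aⱼ, span_{i<j} aᵢ)²` (`gramSchmidt`, unitriangular column operations, `gramSchmidtOrthonormalBasis_det`);
for `j ≥ 1`, `w = fⱼ + ∑_{i<j} λᵢ fᵢ` has `om y w ≥ 1/‖y‖²`. -/
theorem flag {N n : ℕ} (hn : 1 ≤ n) {W : Matrix (Fin (N + 1)) (Fin (n + 1)) ℂ} (hW : Function.Injective W.mulVec)
    {y e : Cn (N + 1)} (hy : y ≠ 0) (hyW : ∃ a, y.ofLp = W *ᵥ a) (heW : ∃ a, e.ofLp = W *ᵥ a) (he : e ∉ Submodule.span ℂ {y})
    {c₀ c₁ c₂ : ℝ} (h₀ : 0 < c₀) (h₁ : 0 < c₁) (h₂ : 0 < c₂)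
    (H₀ : ∀ (a : Cn (n + 1)) (lam : ℂ), WithLp.toLp 2 (W *ᵥ a.ofLp) = lam • y → c₀ * ‖lam‖ ^ 2 ≤ ‖a‖ ^ 2)
    (H₁ : ∀ a : Cn (n + 1), WithLp.toLp 2 (W *ᵥ a.ofLp) ∈ Submodule.span ℂ {y, e} →
      c₁ * om y (WithLp.toLp 2 (W *ᵥ a.ofLp)) ≤ ‖a‖ ^ 2)
    (H₂ : ∀ a : Cn (n + 1), c₂ * om y (WithLp.toLp 2 (W *ᵥ a.ofLp)) ≤ ‖a‖ ^ 2) :
    c₀ * c₁ * c₂ ^ (n - 1) * gram W ≤ (‖y‖ ^ 2) ^ (n + 1) := by
  obtain ⟨k, rfl⟩ : ∃ k, n = k + 1 := ⟨n - 1, by omega⟩
  let L : Cn (k + 2) →ₗ[ℂ] Cn (N + 1) := Matrix.toEuclideanLin W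
  have hL : ∀ a : Cn (k + 2), WithLp.toLp 2 (W *ᵥ a.ofLp) = L a := fun a => rfl
  simp only [hL] at H₀ H₁ H₂
  obtain ⟨a₀, e₀⟩ : ∃ a, L a = y := hyW.elim fun a h => ⟨WithLp.toLp 2 a, by rw [← hL, ← h]⟩
  obtain ⟨a₁, e₁⟩ : ∃ a, L a = e := heW.elim fun a h => ⟨WithLp.toLp 2 a, by rw [← hL, ← h]⟩
  obtain ⟨b, s, p, q, hs, b0, b1⟩ := mj1_basis (a₀ := a₀) (a₁ := a₁) (fun h => hy (by rw [← e₀, h, map_zero])) fun h => he (by
    obtain ⟨c, hc⟩ := Submodule.mem_span_singleton.1 h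
    exact Submodule.mem_span_singleton.2 ⟨c, by rw [← e₀, ← e₁, ← hc, map_smul]⟩)
  have l0 : L (b 0) = s • y := by rw [b0, map_smul, e₀]
  have l1 : L (b 1) ∈ Submodule.span ℂ {y, e} :=
    Submodule.mem_span_pair.2 ⟨p, q, by rw [b1, map_add, map_smul, map_smul, e₀, e₁]⟩
  choose t ht using fun j => mj1_perp hy (L (b j))
  let μ : Fin (k + 2) → ℂ := fun j => if j = 0 then 0 else t j / s
  let f : Fin (k + 2) → Cn (k + 2) := fun j => b j + μ j • b 0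
  have ny : 0 < ‖y‖ ^ 2 := pow_pos (norm_pos_iff.2 hy) 2
  have hf : ∀ j, j ≠ 0 → ‖L (f j)‖ ^ 2 = om y (L (b j)) * ‖y‖ ^ 2 := fun j hj => by
    have : L (f j) = L (b j) + t j • y := by
      simp only [f, μ, if_neg hj, map_add, map_smul, l0, smul_smul, div_mul_cancel₀ _ hs]
    rw [this, ← om_add_self y _ (t j), om_of_orth (ht j), div_mul_cancel₀ _ ny.ne']
  have g1 : gram W ≤ ∏ j, ‖L (f j)‖ ^ 2 := by
    have a := gram_mul W (colM f)
    rw [mj1_tri b μ (if_pos rfl), one_pow, mul_one] at a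
    rw [← a]
    exact mj1_gram_le fun j => L (f j)
  have nb : ∀ j, ‖b j‖ ^ 2 = 1 := fun j => by rw [b.orthonormal.1 j, one_pow]
  have k0 : c₀ * ‖L (f 0)‖ ^ 2 ≤ ‖y‖ ^ 2 := by
    have : L (f 0) = s • y := by simp only [f, μ, if_true, zero_smul, add_zero, l0]
    rw [this, norm_smul, mul_pow, ← mul_assoc]
    exact mul_le_of_le_one_left ny.le ((H₀ _ _ l0).trans_eq (nb 0))
  have k1 : c₁ * ‖L (f 1)‖ ^ 2 ≤ ‖y‖ ^ 2 := by
    rw [hf 1 one_ne_zero, ← mul_assoc]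
    exact mul_le_of_le_one_left ny.le ((H₁ _ l1).trans_eq (nb 1))
  have k2 : ∀ j : Fin k, c₂ * ‖L (f j.succ.succ)‖ ^ 2 ≤ ‖y‖ ^ 2 := fun j => by
    rw [hf _ (Fin.succ_ne_zero _), ← mul_assoc]
    exact mul_le_of_le_one_left ny.le ((H₂ _).trans_eq (nb _))
  have k3 : c₂ ^ k * ∏ j : Fin k, ‖L (f j.succ.succ)‖ ^ 2 ≤ (‖y‖ ^ 2) ^ k := by
    have := Finset.prod_le_prod (s := Finset.univ) (fun j _ => mul_nonneg h₂.le (sq_nonneg _)) fun j _ => k2 j
    simpa only [Finset.prod_mul_distrib, Finset.prod_const, Finset.card_univ, Fintype.card_fin] using this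
  rw [Fin.prod_univ_succ, Fin.prod_univ_succ, Fin.succ_zero_eq_one] at g1
  have p3 : 0 ≤ ∏ j : Fin k, ‖L (f j.succ.succ)‖ ^ 2 := Finset.prod_nonneg fun j _ => sq_nonneg _
  have p0 := sq_nonneg ‖L (f 0)‖
  have p1 := sq_nonneg ‖L (f 1)‖
  generalize ∏ j : Fin k, ‖L (f j.succ.succ)‖ ^ 2 = x₂ at g1 k3 p3
  generalize ‖L (f 0)‖ ^ 2 = x₀ at g1 k0 p0
  generalize ‖L (f 1)‖ ^ 2 = x₁ at g1 k1 p1
  generalize ‖y‖ ^ 2 = r at k0 k1 k3 ny
  refine (mul_le_mul_of_nonneg_left g1 (by positivity)).trans ?_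
  have := mul_le_mul (mul_le_mul k0 k1 (by positivity) ny.le) k3 (by positivity) (by positivity)
  refine le_trans (le_of_eq ?_) (this.trans_eq ?_)
  · rw [Nat.add_sub_cancel]
    ring
  · ring

theorem mj1_qf_conj {m r : ℕ} (A : Matrix (Fin r) (Fin r) ℂ) (P : Matrix (Fin r) (Fin m) ℂ) (v : Cn m) :
    qf (Pᴴ * A * P) v = qf A (WithLp.toLp 2 (P *ᵥ v.ofLp)) := by
  simp only [qf, ← mulVec_mulVec, star_mulVec, dotProduct_mulVec, vecMul_vecMul]

/-- Monotonicity of the determinant: `0 < A ≤ t B` (as quadratic forms) gives `det A ≤ t ^ m det B`. -/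
theorem det_le_of_qf_le {m : ℕ} {A B : Matrix (Fin m) (Fin m) ℂ} (hA : A.IsHermitian) (hB : B.IsHermitian) {t : ℝ}
    (h0 : ∀ v, v ≠ 0 → 0 < qf A v) (h : ∀ v, qf A v ≤ t * qf B v) : 0 < A.det.re ∧ A.det.re ≤ t ^ m * B.det.re := by
  open scoped ComplexOrder in
  have hp : A.PosDef := PosDef.of_dotProduct_mulVec_pos hA fun x hx =>
    RCLike.pos_iff.2 ⟨h0 (WithLp.toLp 2 x) (by simpa using hx), hA.im_star_dotProduct_mulVec_self x⟩
  have hd : 0 < A.det.re := (RCLike.pos_iff.1 hp.det_pos).1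
  refine ⟨hd, ?_⟩
  obtain ⟨S, hS⟩ := mj1_fac hp.posSemidef
  have hu : IsUnit S.det := by
    refine isUnit_iff_ne_zero.2 fun e => ?_
    rw [hS, mj1_det, e] at hd
    simp at hd
  have hM : ((S⁻¹)ᴴ * B * S⁻¹).IsHermitian := isHermitian_conjTranspose_mul_mul _ hB
  have h1 : (S⁻¹)ᴴ * A * S⁻¹ = 1 := by
    rw [hS, ← Matrix.mul_assoc, ← conjTranspose_mul, Matrix.mul_assoc, mul_nonsing_inv _ hu]
    simp
  have h2 : ∀ i, 1 ≤ t * hM.eigenvalues i := fun i => by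
    have a := h (WithLp.toLp 2 (S⁻¹ *ᵥ (hM.eigenvectorBasis i).ofLp))
    rw [← mj1_qf_conj, ← mj1_qf_conj, h1] at a
    rw [hM.eigenvalues_eq]
    refine le_trans (le_of_eq ?_) a
    rw [qf, one_mulVec, dotProduct_comm, ← EuclideanSpace.inner_eq_star_dotProduct, inner_self_eq_norm_sq_to_K,
      hM.eigenvectorBasis.orthonormal.1 i]
    simp
  have h3 : B = Sᴴ * ((S⁻¹)ᴴ * B * S⁻¹) * S := by
    rw [← Matrix.mul_assoc, ← Matrix.mul_assoc, ← conjTranspose_mul, Matrix.mul_assoc, Matrix.mul_assoc,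
      nonsing_inv_mul _ hu]
    simp
  have h4 : B.det.re = A.det.re * ∏ i, hM.eigenvalues i := by
    have : B.det = A.det * ((∏ i, hM.eigenvalues i : ℝ) : ℂ) := by
      conv_lhs => rw [h3]
      rw [det_mul, det_mul, hM.det_eq_prod_eigenvalues, hS, det_mul, Complex.ofReal_prod]
      simp only [Complex.coe_algebraMap]
      ring
    rw [this, Complex.re_mul_ofReal]
  have h5 : 1 ≤ t ^ m * ∏ i, hM.eigenvalues i := by
    have := Finset.one_le_prod (s := Finset.univ) fun i _ => h2 i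
    rwa [Finset.prod_mul_distrib, Finset.prod_const, Finset.card_univ, Fintype.card_fin] at this
  rw [h4, mul_left_comm]
  exact le_mul_of_one_le_right hd.le h5

namespace HA

variable (P : HA) {N n : ℕ} {X : Geo N n}

theorem am_star_poly {σ : Type} (τ : σ → σ) (Q : MvPolynomial σ ℂ) :
    ∃ Q' : MvPolynomial σ ℂ, ∀ m : σ → ℂ, (∀ p, m (τ p) = star (m p)) →
      MvPolynomial.eval m Q' = star (MvPolynomial.eval m Q) := by
  induction Q using MvPolynomial.induction_on with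
  | C a => exact ⟨MvPolynomial.C (star a), fun m _ => by simp⟩
  | add p q hp hq =>
    obtain ⟨p', hp⟩ := hp
    obtain ⟨q', hq⟩ := hq
    exact ⟨p' + q', fun m hm => by rw [map_add, map_add, star_add, hp m hm, hq m hm]⟩
  | mul_X p i hp =>
    obtain ⟨p', hp⟩ := hp
    exact ⟨p' * MvPolynomial.X (τ i), fun m hm => by
      rw [map_mul, map_mul, star_mul', hp m hm, MvPolynomial.eval_X, MvPolynomial.eval_X, hm]⟩

/-- Stone–Weierstrass on the image of a compact space. -/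
theorem am_sw {Z : Type} [TopologicalSpace Z] [CompactSpace Z] {σ : Type} (φ : Z → σ → ℂ) (hφ : Continuous φ)
    (τ : σ → σ) (hτ : ∀ z p, φ z (τ p) = star (φ z p)) {f : Z → ℂ} (hf : Continuous f)
    (hfac : ∀ z z', φ z = φ z' → f z = f z') {ε : ℝ} (hε : 0 < ε) :
    ∃ Q : MvPolynomial σ ℂ, ∀ z, ‖MvPolynomial.eval (φ z) Q - f z‖ ≤ ε := by
  have : CompactSpace (range φ) := isCompact_iff_compactSpace.1 (isCompact_range hφ)
  let φ' : C(Z, range φ) := ⟨rangeFactorization φ, hφ.rangeFactorization⟩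
  have hq : IsQuotientMap φ' := IsQuotientMap.of_surjective_continuous rangeFactorization_surjective φ'.continuous
  have hfa : Function.FactorsThrough (⟨f, hf⟩ : C(Z, ℂ)) φ' := fun z z' h => hfac z z' (congrArg Subtype.val h)
  let g : C(range φ, ℂ) := hq.lift ⟨f, hf⟩ hfa
  have hg : ∀ z, g (φ' z) = f z := fun z => ContinuousMap.congr_fun (hq.lift_comp ⟨f, hf⟩ hfa) z
  let S : StarSubalgebra ℂ C(range φ, ℂ) :=
    { carrier := {u | ∃ Q : MvPolynomial σ ℂ, ∀ m : range φ, u m = MvPolynomial.eval m.1 Q}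
      mul_mem' := by
        rintro a b ⟨Q, hQ⟩ ⟨Q', hQ'⟩
        exact ⟨Q * Q', fun m => by rw [ContinuousMap.mul_apply, map_mul, hQ, hQ']⟩
      add_mem' := by
        rintro a b ⟨Q, hQ⟩ ⟨Q', hQ'⟩
        exact ⟨Q + Q', fun m => by rw [ContinuousMap.add_apply, map_add, hQ, hQ']⟩
      algebraMap_mem' := fun c => ⟨MvPolynomial.C c, fun m => by simp⟩
      star_mem' := by
        rintro a ⟨Q, hQ⟩
        obtain ⟨Q', hQ'⟩ := am_star_poly τ Q
        refine ⟨Q', fun m => ?_⟩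
        obtain ⟨_, z, rfl⟩ := m
        rw [ContinuousMap.star_apply, hQ, hQ' _ (hτ z)] }
  have hS : S.SeparatesPoints := by
    intro m m' hne
    obtain ⟨p, hp⟩ := Function.ne_iff.1 fun h => hne (Subtype.ext h)
    exact ⟨_, ⟨⟨fun m => m.1 p, (continuous_apply p).comp continuous_subtype_val⟩,
      ⟨MvPolynomial.X p, fun m => by simp⟩, rfl⟩, hp⟩
  have h1 : g ∈ S.topologicalClosure := by
    rw [ContinuousMap.starSubalgebra_topologicalClosure_eq_top_of_separatesPoints S hS]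
    trivial
  obtain ⟨u, ⟨Q, hQ⟩, hu⟩ := Metric.mem_closure_iff.1 h1 ε hε
  refine ⟨Q, fun z => ?_⟩
  rw [← hg z, show MvPolynomial.eval (φ z) Q = u (φ' z) from (hQ (φ' z)).symm, ← dist_eq_norm, dist_comm]
  exact (ContinuousMap.dist_apply_le_dist _).trans hu.le

/-- The entries of `y y* / ‖y‖²`. -/
def amM {m : ℕ} (y : Cn m) : Fin m × Fin m → ℂ := fun p => y p.1 * star (y p.2) / ((‖y‖ ^ 2 : ℝ) : ℂ)

theorem amM_swap {m : ℕ} (y : Cn m) (p : Fin m × Fin m) : amM y p.swap = star (amM y p) := by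
  simp only [amM, Prod.fst_swap, Prod.snd_swap, star_div₀, star_mul', Complex.star_def, Complex.conj_ofReal,
    Complex.conj_conj]
  rw [mul_comm]

theorem amM_smul {m : ℕ} (y : Cn m) {t : ℂ} (ht : t ≠ 0) : amM (t • y) = amM y := by
  funext p
  have h1 : t * star t = ((‖t‖ ^ 2 : ℝ) : ℂ) := by
    rw [Complex.star_def, Complex.mul_conj, Complex.normSq_eq_norm_sq]
  have h2 : ((‖t‖ ^ 2 : ℝ) : ℂ) ≠ 0 := by
    exact_mod_cast pow_ne_zero 2 (norm_ne_zero_iff.2 ht)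
  simp only [amM, PiLp.smul_apply, smul_eq_mul, star_mul', norm_smul, mul_pow, Complex.ofReal_mul]
  rw [show t * y p.1 * (star t * star (y p.2)) = t * star t * (y p.1 * star (y p.2)) by ring, h1,
    mul_div_mul_left _ _ h2]

theorem amM_cont {m : ℕ} : ContinuousOn (amM (m := m)) {y | y ≠ 0} := by
  refine continuousOn_pi.2 fun p => ContinuousOn.div (by fun_prop) (by fun_prop) fun y hy => ?_
  exact_mod_cast pow_ne_zero 2 (norm_ne_zero_iff.2 hy)

theorem amM_unit {m : ℕ} {y : Cn m} (hy : ‖y‖ = 1) (p : Fin m × Fin m) : amM y p = y p.1 * star (y p.2) := by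
  simp [amM, hy]

theorem amM_inj {m : ℕ} {y y' : Cn m} (hy : ‖y‖ = 1) (hy' : ‖y'‖ = 1) (h : amM y = amM y') :
    ∃ t : ℂ, t ≠ 0 ∧ y' = t • y := by
  have h0 : y ≠ 0 := by
    rintro rfl
    simp at hy
  obtain ⟨j, hj⟩ : ∃ j, y j ≠ 0 := by
    by_contra hc
    exact h0 (by ext j; exact not_not.1 fun hj => hc ⟨j, hj⟩)
  have h1 : ∀ i, y i * star (y j) = y' i * star (y' j) := fun i => by
    have := congrFun h (i, j)
    rwa [amM_unit hy, amM_unit hy'] at this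
  have h2 : star (y' j) ≠ 0 := by
    intro h2
    have := h1 j
    rw [h2, mul_zero] at this
    exact mul_ne_zero hj (star_ne_zero.2 hj) this
  refine ⟨star (y j) / star (y' j), div_ne_zero (star_ne_zero.2 hj) h2, ?_⟩
  ext i
  rw [PiLp.smul_apply, smul_eq_mul, div_mul_eq_mul_div, mul_comm, h1, mul_div_cancel_right₀ _ h2]

theorem am_norm {m : ℕ} {y : Cn m} (hy : y ≠ 0) :
    ((‖y‖⁻¹ : ℝ) : ℂ) ≠ 0 ∧ ‖((‖y‖⁻¹ : ℝ) : ℂ) • y‖ = 1 := by
  have h := norm_ne_zero_iff.2 hy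
  refine ⟨by exact_mod_cast inv_ne_zero h, ?_⟩
  rw [norm_smul, Complex.norm_real, norm_inv, norm_norm, inv_mul_cancel₀ h]

theorem am_qf_smul {m : ℕ} (A : Matrix (Fin m) (Fin m) ℂ) (t : ℂ) (v : Cn m) : qf A (t • v) = ‖t‖ ^ 2 * qf A v := by
  have : (starRingEnd ℂ) t * t = ((‖t‖ ^ 2 : ℝ) : ℂ) := by
    rw [mul_comm, Complex.mul_conj, Complex.normSq_eq_norm_sq]
  simp only [qf, WithLp.ofLp_smul, mulVec_smul, star_smul, smul_dotProduct, dotProduct_smul, smul_eq_mul]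
  rw [← mul_assoc, mul_comm t, Complex.star_def, this, Complex.re_ofReal_mul]

theorem am_qf_one {m : ℕ} (A : Matrix (Fin m) (Fin m) ℂ) (K : ℝ) (v : Cn m) :
    qf (A + (K : ℂ) • (1 : Matrix _ _ ℂ)) v = qf A v + K * ‖v‖ ^ 2 := by
  have : star v.ofLp ⬝ᵥ v.ofLp = ((‖v‖ ^ 2 : ℝ) : ℂ) := by
    rw [dotProduct_comm, ← EuclideanSpace.inner_eq_star_dotProduct, inner_self_eq_norm_sq_to_K]; simp
  rw [qf, qf, add_mulVec, dotProduct_add, Complex.add_re, smul_mulVec, one_mulVec, dotProduct_smul, this, smul_eq_mul,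
    ← Complex.ofReal_mul, Complex.ofReal_re]

theorem am_qf_conj {m r : ℕ} (A : Matrix (Fin r) (Fin r) ℂ) (U : Matrix (Fin r) (Fin m) ℂ) (v : Cn m) :
    qf (Uᴴ * A * U) v = qf A (WithLp.toLp 2 (U *ᵥ v.ofLp)) := by
  simp only [qf, ← mulVec_mulVec, star_mulVec, dotProduct_mulVec, vecMul_vecMul]

theorem am_qf_abs {m : ℕ} {A : Matrix (Fin m) (Fin m) ℂ} {η : ℝ} (hη : 0 ≤ η) (hA : ∀ i j, ‖A i j‖ ≤ η) (v : Cn m) :
    |qf A v| ≤ η * m * ‖v‖ ^ 2 := by
  have h1 : ‖star v.ofLp ⬝ᵥ A *ᵥ v.ofLp‖ ≤ η * (∑ i, ‖v i‖) ^ 2 := by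
    rw [sq, Finset.sum_mul_sum, Finset.mul_sum, dotProduct]
    refine (norm_sum_le _ _).trans (Finset.sum_le_sum fun i _ => ?_)
    rw [mulVec, dotProduct, Finset.mul_sum, Finset.mul_sum]
    refine (norm_sum_le _ _).trans (Finset.sum_le_sum fun j _ => ?_)
    rw [norm_mul, norm_mul, Pi.star_apply, _root_.norm_star]
    calc ‖v i‖ * (‖A i j‖ * ‖v j‖) ≤ ‖v i‖ * (η * ‖v j‖) := by gcongr; exact hA i j
      _ = _ := by ring
  have h2 : (∑ i, ‖v i‖) ^ 2 ≤ m * ‖v‖ ^ 2 := by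
    have := sq_sum_le_card_mul_sum_sq (s := Finset.univ) (f := fun i => ‖v i‖)
    rwa [Finset.card_univ, Fintype.card_fin, ← EuclideanSpace.norm_sq_eq] at this
  calc |qf A v| ≤ ‖star v.ofLp ⬝ᵥ A *ᵥ v.ofLp‖ := Complex.abs_re_le_norm _
    _ ≤ η * (m * ‖v‖ ^ 2) := h1.trans (mul_le_mul_of_nonneg_left h2 hη)
    _ = _ := by ring

theorem am_qf_sub {m : ℕ} (A B : Matrix (Fin m) (Fin m) ℂ) (v : Cn m) : qf (A - B) v = qf A v - qf B v := by
  simp [qf, sub_mulVec]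

theorem am_poly {f : Cn (N + 1) → ℂ} (hf : ContinuousOn f X.Y) (hom : ∀ y ∈ X.Y, ∀ t : ℂ, t ≠ 0 → f (t • y) = f y)
    {ε : ℝ} (hε : 0 < ε) :
    ∃ Q : MvPolynomial (Fin (N + 1) × Fin (N + 1)) ℂ, ∀ y ∈ X.Y, ‖MvPolynomial.eval (amM y) Q - f y‖ ≤ ε := by
  have : CompactSpace ↥(X.Y ∩ sphere 0 1) := isCompact_iff_compactSpace.1 X.isCompact_Y1
  obtain ⟨Q, hQ⟩ := am_sw (Z := ↥(X.Y ∩ sphere 0 1)) (fun z => amM z.1)
    (amM_cont.comp_continuous continuous_subtype_val fun z => z.2.1.1) Prod.swap (fun z p => amM_swap _ p)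
    (f := fun z => f z.1) (hf.comp_continuous continuous_subtype_val fun z => z.2.1)
    (fun z z' hz => by
      obtain ⟨t, ht, h1⟩ := amM_inj (mem_sphere_zero_iff_norm.1 z.2.2) (mem_sphere_zero_iff_norm.1 z'.2.2) hz
      rw [h1, hom _ z.2.1 t ht]) hε
  refine ⟨Q, fun y hy => ?_⟩
  obtain ⟨h1, h2⟩ := am_norm hy.1
  have := hQ ⟨_, X.smul_mem_Y hy h1, mem_sphere_zero_iff_norm.2 h2⟩
  rwa [amM_smul _ h1, hom _ hy _ h1] at this

theorem am_herm {Γ : Cn (N + 1) → Matrix (Fin (N + 1)) (Fin (N + 1)) ℂ} (herm : ∀ y ∈ X.Y, (Γ y).IsHermitian)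
    (cont : ContinuousOn Γ X.Y) (hom : ∀ y ∈ X.Y, ∀ t : ℂ, t ≠ 0 → Γ (t • y) = Γ y) {η : ℝ} (hη : 0 < η) :
    ∃ Q : Matrix (Fin (N + 1)) (Fin (N + 1)) (MvPolynomial (Fin (N + 1) × Fin (N + 1)) ℂ),
      (∀ y, (Q.map (MvPolynomial.eval (amM y))).IsHermitian) ∧
      ∀ y ∈ X.Y, ∀ i j, ‖(Q.map (MvPolynomial.eval (amM y)) - Γ y) i j‖ ≤ η := by
  have h1 : ∀ i j, ∃ Q : MvPolynomial (Fin (N + 1) × Fin (N + 1)) ℂ,
      ∀ y ∈ X.Y, ‖MvPolynomial.eval (amM y) Q - Γ y i j‖ ≤ η := fun i j =>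
    am_poly (f := fun y => Γ y i j) (continuousOn_pi.1 (continuousOn_pi.1 cont i) j)
      (fun y hy t ht => by rw [hom y hy t ht]) hη
  choose Q hQ using h1
  choose S hS using am_star_poly (σ := Fin (N + 1) × Fin (N + 1)) Prod.swap
  have h2 : ∀ y i j, MvPolynomial.eval (amM y) (MvPolynomial.C (1 / 2 : ℂ) * (Q i j + S (Q j i))) =
      (MvPolynomial.eval (amM y) (Q i j) + star (MvPolynomial.eval (amM y) (Q j i))) / 2 := fun y i j => by
    rw [map_mul, map_add, hS _ _ (amM_swap y), MvPolynomial.eval_C]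
    ring
  refine ⟨fun i j => MvPolynomial.C (1 / 2 : ℂ) * (Q i j + S (Q j i)), fun y => ?_, fun y hy i j => ?_⟩
  · ext i j
    rw [conjTranspose_apply, map_apply, map_apply, h2, h2, star_div₀, star_add, star_star, add_comm]
    simp
  · rw [Matrix.sub_apply, map_apply, h2]
    have h3 : (MvPolynomial.eval (amM y) (Q i j) + star (MvPolynomial.eval (amM y) (Q j i))) / 2 - Γ y i j =
        ((MvPolynomial.eval (amM y) (Q i j) - Γ y i j) + star (MvPolynomial.eval (amM y) (Q j i) - Γ y j i)) / 2 := by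
      rw [star_sub, (herm y hy).apply i j]
      ring
    rw [h3, norm_div, Complex.norm_two, div_le_iff₀ two_pos]
    refine (norm_add_le _ _).trans ?_
    rw [_root_.norm_star]
    linarith [hQ i j y hy, hQ j i y hy]

theorem am_bdd {Γ : Cn (N + 1) → Matrix (Fin (N + 1)) (Fin (N + 1)) ℂ}
    (cont : ContinuousOn Γ X.Y) (hom : ∀ y ∈ X.Y, ∀ t : ℂ, t ≠ 0 → Γ (t • y) = Γ y) :
    ∃ B : ℝ, 0 ≤ B ∧ ∀ y ∈ X.Y, ∀ i j, ‖Γ y i j‖ ≤ B := by
  obtain ⟨B, hB⟩ := X.isCompact_Y1.exists_bound_of_continuousOn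
    (f := fun y => (fun i j => Γ y i j : Fin (N + 1) → Fin (N + 1) → ℂ)) (cont.mono inter_subset_left)
  refine ⟨max B 0, le_max_right _ _, fun y hy i j => ?_⟩
  obtain ⟨h1, h2⟩ := am_norm hy.1
  have := hB _ ⟨X.smul_mem_Y hy h1, mem_sphere_zero_iff_norm.2 h2⟩
  rw [hom _ hy _ h1] at this
  exact ((norm_le_pi_norm _ j).trans ((norm_le_pi_norm (fun i j => Γ y i j) i).trans this)).trans (le_max_left _ _)

theorem am_qf_cont {m : ℕ} : Continuous fun p : Matrix (Fin m) (Fin m) ℂ × Cn m => qf p.1 p.2 := by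
  have h1 : Continuous fun p : Matrix (Fin m) (Fin m) ℂ × Cn m => p.2.ofLp :=
    (PiLp.continuous_ofLp 2 _).comp continuous_snd
  exact Complex.continuous_re.comp (h1.star.dotProduct (continuous_fst.matrix_mulVec h1))

theorem am_lower {Γ dd} (h : X.Maj Γ dd) : ∃ c : ℝ, 0 < c ∧ ∀ y ∈ X.Y, ∀ v ∈ X.T y, c * ‖v‖ ^ 2 ≤ qf (Γ y) v := by
  have hcl : IsClosed {p : Cn (N + 1) × Cn (N + 1) | X.J p.1 *ᵥ p.2.ofLp = 0} :=
    isClosed_eq ((X.continuous_J.comp continuous_fst).matrix_mulVec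
      ((PiLp.continuous_ofLp 2 _).comp continuous_snd)) continuous_const
  have hK := (X.isCompact_Y1.prod (isCompact_sphere (0 : Cn (N + 1)) 1)).inter_right hcl
  have hc1 : ContinuousOn (fun p : Cn (N + 1) × Cn (N + 1) => (Γ p.1, p.2))
      ((X.Y ∩ sphere 0 1) ×ˢ sphere 0 1 ∩ {p : Cn (N + 1) × Cn (N + 1) | X.J p.1 *ᵥ p.2.ofLp = 0}) :=
    (h.cont.comp continuousOn_fst fun p hp => hp.1.1.1).prodMk continuousOn_snd
  have hc2 := am_qf_cont.comp_continuousOn hc1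
  obtain ⟨c, hc, hle⟩ := hK.exists_forall_le' hc2 (a := 0)
    (fun p hp => h.pos _ hp.1.1.1 _ hp.2 (by
      intro h0
      have h1 : ‖p.2‖ = 1 := mem_sphere_zero_iff_norm.1 hp.1.2
      rw [show p.2 = 0 from h0, norm_zero] at h1
      exact zero_ne_one h1))
  refine ⟨c, hc, fun y hy v hv => ?_⟩
  by_cases hv0 : v = 0
  · simp [hv0, qf]
  obtain ⟨h1, h2⟩ := am_norm hy.1
  obtain ⟨h3, h4⟩ := am_norm hv0
  have h5 : c ≤ qf (Γ (((‖y‖⁻¹ : ℝ) : ℂ) • y)) (((‖v‖⁻¹ : ℝ) : ℂ) • v) :=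
    hle (((‖y‖⁻¹ : ℝ) : ℂ) • y, ((‖v‖⁻¹ : ℝ) : ℂ) • v)
      ⟨⟨⟨X.smul_mem_Y hy h1, mem_sphere_zero_iff_norm.2 h2⟩, mem_sphere_zero_iff_norm.2 h4⟩, by
        refine X.mem_T.1 ?_
        rw [X.T_smul y h1]
        exact Submodule.smul_mem _ _ hv⟩
  rw [h.hom y hy _ h1, am_qf_smul, Complex.norm_real, norm_inv, norm_norm, inv_pow, ← div_eq_inv_mul,
    le_div_iff₀ (pow_pos (norm_pos_iff.2 hv0) 2)] at h5
  exact h5

theorem am_tame (Q : Matrix (Fin (N + 1)) (Fin (N + 1)) (MvPolynomial (Fin (N + 1) × Fin (N + 1)) ℂ)) :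
    ∃ K : ℝ, 0 ≤ K ∧ ∀ G : Fin (N + 1) → P.A, (∀ θ, ‖P.valV θ G‖ = 1) →
      ∃ γ : Matrix (Fin (N + 1)) (Fin (N + 1)) P.H,
        (∀ θ, γ.map (P.val θ) = Q.map (MvPolynomial.eval (amM (P.valV θ G)))) ∧ P.nd γ ≤ K * P.nsq G := by
  choose K hK0 hK using fun i j => P.norm_der_aeval_le (Q i j) 1
  refine ⟨(∑ i, ∑ j, K i j) * (4 * (N + 1)), mul_nonneg (Finset.sum_nonneg fun i _ => Finset.sum_nonneg fun j _ => hK0 i j)
    (by positivity), fun G hG => ?_⟩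
  let x : Fin (N + 1) × Fin (N + 1) → P.H := fun p => P.ι (G p.1) * star (P.ι (G p.2))
  have hx : ∀ θ, (fun p => P.val θ (x p)) = amM (P.valV θ G) := fun θ => by
    funext p
    rw [amM_unit (hG θ), P.valV_apply, P.valV_apply, map_mul, P.val_star]
  have hb : ∀ θ i, ‖P.val θ (P.ι (G i))‖ ≤ 1 := fun θ i => by
    rw [← P.valV_apply, ← hG θ]
    exact PiLp.norm_apply_le _ i
  have hb' : ∀ θ i, ‖P.val θ (star (P.ι (G i)))‖ ≤ 1 := fun θ i => by
    rw [P.val_star, _root_.norm_star]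
    exact hb θ i
  have hxb : ∀ θ p, ‖P.val θ (x p)‖ ≤ 1 := fun θ p => by
    rw [map_mul, norm_mul]
    exact mul_le_one₀ (hb θ _) (norm_nonneg _) (hb' θ _)
  have hd : ∑ p, ‖P.der (x p)‖ ^ 2 ≤ 4 * (N + 1) * P.nsq G := by
    have h1 : ∀ p, ‖P.der (x p)‖ ^ 2 ≤ 2 * ‖P.der (P.ι (G p.1))‖ ^ 2 + 2 * ‖P.der (P.ι (G p.2))‖ ^ 2 := fun p => by
      have h2 := P.norm_der_mul_le (fun θ => hb θ p.1) (fun θ => hb' θ p.2)
      rw [P.norm_der_star, one_mul, one_mul] at h2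
      have h3 := pow_le_pow_left₀ (norm_nonneg _) h2 2
      nlinarith [sq_nonneg (‖P.der (P.ι (G p.1))‖ - ‖P.der (P.ι (G p.2))‖)]
    refine (Finset.sum_le_sum fun p _ => h1 p).trans (le_of_eq ?_)
    simp only [Fintype.sum_prod_type, Finset.sum_add_distrib, Finset.sum_const, Finset.card_univ, Fintype.card_fin,
      nsmul_eq_mul, ← Finset.mul_sum, nsq]
    push_cast
    ring
  refine ⟨Q.map (MvPolynomial.aeval x), fun θ => ?_, ?_⟩
  · ext i j
    rw [map_apply, map_apply, map_apply, ← hx, ← AlgHom.comp_apply, MvPolynomial.comp_aeval]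
    rfl
  · rw [nd, mul_assoc, Finset.sum_mul]
    refine Finset.sum_le_sum fun i _ => ?_
    rw [Finset.sum_mul]
    refine Finset.sum_le_sum fun j _ => ?_
    exact (hK i j x hxb).trans (mul_le_mul_of_nonneg_left hd (hK0 i j))

/-- A tame majorant.  The real algebra of functions `y ↦ Re Q(y y*)` on `Y ∩ sphere` separates circle orbits; apply Stone–Weierstrass
on the compact set `{y y* : y ∈ Y, ‖y‖ = 1}` (the entries of `Γ` descend continuously: a continuous surjection from a compact space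
to a Hausdorff space is a quotient map; `ContinuousMap.starSubalgebra_topologicalClosure_eq_top_of_separatesPoints`), symmetrise,
add `ε • 1`.  `norm_der_aeval_le`, `norm_der_mul_le`. -/
theorem approx_maj {Γ dd} (h : X.Maj Γ dd) :
    ∃ (Γ' : Cn (N + 1) → Matrix (Fin (N + 1)) (Fin (N + 1)) ℂ) (c C K : ℝ), 0 < c ∧ 0 ≤ K ∧ X.Maj Γ' (fun y => dd y + 1) ∧
      (∀ y ∈ X.Y, ∀ v ∈ X.T y, qf (Γ y) v ≤ qf (Γ' y) v ∧ c * ‖v‖ ^ 2 ≤ qf (Γ' y) v ∧ qf (Γ' y) v ≤ C * ‖v‖ ^ 2) ∧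
      (∀ y ∈ X.Y, ∀ i j, ‖Γ' y i j‖ ≤ C) ∧
      ∀ G : Fin (N + 1) → P.A, P.InY X G → (∀ θ, ‖P.valV θ G‖ = 1) → ∃ γ : Matrix (Fin (N + 1)) (Fin (N + 1)) P.H,
        γᴴ = γ ∧ (∀ θ, γ.map (P.val θ) = Γ' (P.valV θ G)) ∧ P.nd γ ≤ K * P.nsq G := by
  obtain ⟨c, hc, hlow⟩ := am_lower h
  set t : ℝ := Real.exp (1 / (n + 1)) with ht
  have ht1 : 1 < t := Real.one_lt_exp_iff.2 (by positivity)
  set ε : ℝ := (t - 1) * c / 2 with hε
  have hε0 : 0 < ε := by have := sub_pos.2 ht1; positivity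
  obtain ⟨Q, hQh, hQ⟩ := am_herm (X := X) (Γ := fun y => Γ y + (ε : ℂ) • 1)
    (fun y hy => (h.herm y hy).add (by
      rw [IsHermitian, conjTranspose_smul, conjTranspose_one, Complex.star_def, Complex.conj_ofReal]))
    (h.cont.add continuousOn_const) (fun y hy s hs => by rw [h.hom y hy s hs]) (η := ε / (N + 1)) (by positivity)
  set Γ' : Cn (N + 1) → Matrix (Fin (N + 1)) (Fin (N + 1)) ℂ := fun y => Q.map (MvPolynomial.eval (amM y)) with hΓ'
  have hcont : ContinuousOn Γ' X.Y := continuousOn_pi.2 fun i => continuousOn_pi.2 fun j =>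
    (MvPolynomial.continuous_eval (Q i j)).comp_continuousOn (amM_cont.mono fun y hy => hy.1)
  have hhom : ∀ y ∈ X.Y, ∀ s : ℂ, s ≠ 0 → Γ' (s • y) = Γ' y := fun y hy s hs => by
    simp only [hΓ', amM_smul y hs]
  have hcmp : ∀ y ∈ X.Y, ∀ v ∈ X.T y, qf (Γ y) v ≤ qf (Γ' y) v ∧ qf (Γ' y) v ≤ t * qf (Γ y) v := fun y hy v hv => by
    have h1 := am_qf_abs (by positivity) (hQ y hy) v
    rw [am_qf_sub, am_qf_one, Nat.cast_add_one, div_mul_cancel₀ _ (by positivity), abs_le] at h1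
    have h2 := mul_le_mul_of_nonneg_left (hlow y hy v hv) (sub_pos.2 ht1).le
    refine ⟨by linarith [h1.1], ?_⟩
    have h3 : (t - 1) * (c * ‖v‖ ^ 2) = 2 * (ε * ‖v‖ ^ 2) := by rw [hε]; ring
    linarith [h1.2]
  obtain ⟨B, hB0, hB⟩ := am_bdd hcont hhom
  obtain ⟨K, hK0, hK⟩ := P.am_tame Q
  refine ⟨Γ', c, B * (N + 1 : ℕ), K, hc, hK0,
    ⟨fun y _ => hQh y, hcont, hhom, fun y hy v hv h0 => (h.pos y hy v hv h0).trans_le (hcmp y hy v hv).1,
      h.dcont.add continuousOn_const, fun y hy U hU => ?_⟩, fun y hy v hv => ⟨(hcmp y hy v hv).1,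
      (hlow y hy v hv).trans (hcmp y hy v hv).1, (le_abs_self _).trans (am_qf_abs hB0 (hB y hy) v)⟩,
    fun y hy i j => (hB y hy i j).trans (le_mul_of_one_le_right hB0 (by exact_mod_cast Nat.le_add_left 1 N)),
    fun G hG hG1 => ?_⟩
  · have hT : ∀ a : Cn (n + 1), WithLp.toLp 2 (U *ᵥ a.ofLp) ∈ X.T y := fun a => (hU.range hy).2 ⟨a.ofLp, rfl⟩
    obtain ⟨-, h1⟩ := det_le_of_qf_le (A := Uᴴ * Γ' y * U) (B := Uᴴ * Γ y * U) (t := t)
      (isHermitian_conjTranspose_mul_mul U (hQh y)) (isHermitian_conjTranspose_mul_mul U (h.herm y hy))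
      (fun a ha => by
        rw [am_qf_conj]
        refine (h.pos y hy _ (hT a) fun h0 => ha ?_).trans_le (hcmp y hy _ (hT a)).1
        have h2 : U *ᵥ a.ofLp = U *ᵥ 0 := by
          rw [mulVec_zero]
          exact congrArg WithLp.ofLp h0
        exact (WithLp.ofLp_eq_zero 2).1 (hU.2 h2))
      (fun a => by
        rw [am_qf_conj, am_qf_conj]
        exact (hcmp y hy _ (hT a)).2)
    have h2 : t ^ (n + 1) = Real.exp 1 := by
      rw [ht, ← Real.exp_nat_mul, Nat.cast_add_one, mul_one_div_cancel (by positivity)]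
    rw [h2] at h1
    refine h1.trans ((mul_le_mul_of_nonneg_left (h.det y hy U hU) (Real.exp_pos 1).le).trans (le_of_eq ?_))
    rw [Real.exp_add]
    ring
  · obtain ⟨γ, hγ, hnd⟩ := hK G hG1
    refine ⟨γ, ?_, hγ, hnd⟩
    ext i j
    refine P.ext_H fun θ => ?_
    have h1 := (hQh (P.valV θ G)).apply i j
    rw [← hγ θ, map_apply, map_apply] at h1
    rw [conjTranspose_apply, P.val_star, h1]

end HA

end Crest.Agent.R269
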