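import Crest.Agent.R269.C.Tame
import Crest.Agent.R269.C.Maj

/-!
# Row 269, block C8: the adapted frame (statement FROZEN; recipe in Blueprint.lean, C8)
-/

set_option autoImplicit false
set_option linter.unusedSectionVars false
set_option linter.unusedVariables false

noncomputable section

namespace Crest.Agent.R269

open Set Metric Filter Topology MeasureTheory Matrix
open Crest.AlgGeometry.ProjEmb
open scoped InnerProductSpace ContDiff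

namespace HA

variable (P : HA) {N n : ℕ} {X : Geo N n}

theorem w_qf_mul {m r : ℕ} (A : Matrix (Fin m) (Fin m) ℂ) (U : Matrix (Fin m) (Fin r) ℂ) (v : Cn r) :
    qf (Uᴴ * A * U) v = qf A (WithLp.toLp 2 (U *ᵥ v.ofLp)) := by
  unfold qf
  rw [star_mulVec, ← mulVec_mulVec, ← mulVec_mulVec, dotProduct_mulVec]

theorem w_qf_smul_one {m : ℕ} (t : ℝ) (v : Cn m) : qf ((t : ℂ) • (1 : Matrix (Fin m) (Fin m) ℂ)) v = t * ‖v‖ ^ 2 := by
  unfold qf
  rw [smul_mulVec, one_mulVec, dotProduct_smul, smul_eq_mul, Complex.re_ofReal_mul, EuclideanSpace.norm_sq_eq]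
  congr 1
  simp only [dotProduct, Complex.re_sum, Pi.star_apply]
  refine Finset.sum_congr rfl fun i _ => ?_
  rw [Complex.star_def, Complex.conj_mul']
  norm_cast

theorem w_qf_one {m : ℕ} (v : Cn m) : qf (1 : Matrix (Fin m) (Fin m) ℂ) v = ‖v‖ ^ 2 := by
  simpa using w_qf_smul_one 1 v

theorem w_entry {m r : ℕ} {M : Matrix (Fin m) (Fin r) ℂ} {B : ℝ} (hB : 0 ≤ B)
    (h : ∀ v : Cn r, ‖(WithLp.toLp 2 (M *ᵥ v.ofLp) : Cn m)‖ ≤ B * ‖v‖) (i : Fin m) (j : Fin r) : ‖M i j‖ ≤ B := by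
  have h1 := h (EuclideanSpace.single j 1)
  have h2 := PiLp.norm_apply_le (WithLp.toLp 2 (M *ᵥ (EuclideanSpace.single j (1 : ℂ) : Cn r).ofLp) : Cn m) i
  have h3 : (WithLp.toLp 2 (M *ᵥ (EuclideanSpace.single j (1 : ℂ) : Cn r).ofLp) : Cn m) i = M i j := by
    simp
  rw [h3] at h2
  simpa using h2.trans h1

theorem w_map_conjT {κ κ' : Type} (M : Matrix κ κ' P.H) (θ : ℝ) : Mᴴ.map (P.val θ) = (M.map (P.val θ))ᴴ := by
  ext i j
  simp [P.val_star]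

theorem w_map_val {κ κ' : Type} (M : Matrix κ κ' P.A) (θ : ℝ) :
    (M.map P.ι).map (P.val θ) = M.map (P.ev (circleMap 0 1 θ)) := by
  ext i j
  simp [P.ev_val]

theorem w_evV_smul {κ : Type} [Fintype κ] (x : P.A) (V : κ → P.A) (z : ℂ) :
    P.evV z (x • V) = P.ev z x • P.evV z V := by
  ext i
  simp [evV]

theorem w_evV_mulVec {m r : ℕ} (M : Matrix (Fin m) (Fin r) P.A) (a : Cn r) (z : ℂ) :
    P.evV z (M *ᵥ fun i => algebraMap ℂ P.A (a i)) = WithLp.toLp 2 (M.map (P.ev z) *ᵥ a.ofLp) := by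
  ext i
  simp [evV, mulVec, dotProduct]

theorem w_dsq_smul {κ : Type} [Fintype κ] (x : P.A) (V : κ → P.A) : ∀ᵐ θ ∂mu, P.dsq (x • V) θ ≤
    2 * ‖P.val θ (P.ι x)‖ ^ 2 * P.dsq V θ + 2 * ‖P.valV θ V‖ ^ 2 * ‖P.der (P.ι x) θ‖ ^ 2 := by
  have h : ∀ᵐ θ ∂mu, ∀ i, P.der (P.ι x * P.ι (V i)) θ =
      P.val θ (P.ι x) * P.der (P.ι (V i)) θ + P.val θ (P.ι (V i)) * P.der (P.ι x) θ :=
    ae_all_iff.2 fun i => P.der_mul _ _
  filter_upwards [h] with θ hθ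
  unfold dsq
  rw [EuclideanSpace.norm_sq_eq, Finset.mul_sum, Finset.mul_sum, Finset.sum_mul, ← Finset.sum_add_distrib]
  refine Finset.sum_le_sum fun i _ => ?_
  rw [Pi.smul_apply, smul_eq_mul, map_mul, hθ i, P.valV_apply]
  have h1 := norm_add_le (P.val θ (P.ι x) * P.der (P.ι (V i)) θ) (P.val θ (P.ι (V i)) * P.der (P.ι x) θ)
  rw [norm_mul, norm_mul] at h1
  have h2 := pow_le_pow_left₀ (norm_nonneg _) h1 2
  nlinarith [sq_nonneg (‖P.val θ (P.ι x)‖ * ‖P.der (P.ι (V i)) θ‖ - ‖P.val θ (P.ι (V i))‖ * ‖P.der (P.ι x) θ‖)]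

theorem w_dsq_nonneg {κ : Type} [Fintype κ] (V : κ → P.A) (θ : ℝ) : 0 ≤ P.dsq V θ :=
  Finset.sum_nonneg fun _ _ => by positivity

theorem w_rel_outer {κ κ' : Type} [Fintype κ] [Fintype κ'] {G : κ → P.A} (hG : ∀ θ, P.valV θ G ≠ 0) {o : P.A}
    (ho : ∀ θ, ‖P.val θ (P.ι o)‖ = ‖P.valV θ G‖) (V : κ' → P.A) {β : ℝ} (hβ : ∀ θ, ‖P.valV θ V‖ ^ 2 ≤ β) :
    P.rel G (o • V) ≤ 2 * P.nsq V + 2 * β * ∫ θ, ‖P.der (P.ι o) θ‖ ^ 2 / ‖P.val θ (P.ι o)‖ ^ 2 ∂mu := by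
  have hi : Integrable (fun θ => ‖P.der (P.ι o) θ‖ ^ 2 / ‖P.val θ (P.ι o)‖ ^ 2) mu := by
    have := P.integrable_rel hG (fun _ : Unit => o)
    simpa [dsq, ho] using this
  rw [← P.integral_dsq, ← integral_const_mul, ← integral_const_mul,
    ← integral_add ((P.integrable_dsq V).const_mul _) (hi.const_mul _)]
  refine integral_mono_ae (P.integrable_rel hG _) (((P.integrable_dsq V).const_mul _).add (hi.const_mul _)) ?_
  filter_upwards [P.w_dsq_smul o V] with θ hθ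
  have hp : 0 < ‖P.valV θ G‖ ^ 2 := by have := norm_pos_iff.2 (hG θ); positivity
  have hn : ‖P.valV θ G‖ ≠ 0 := norm_ne_zero_iff.2 (hG θ)
  rw [ho θ] at hθ ⊢
  rw [div_le_iff₀ hp]
  have h1 : (2 * P.dsq V θ + 2 * β * (‖P.der (P.ι o) θ‖ ^ 2 / ‖P.valV θ G‖ ^ 2)) * ‖P.valV θ G‖ ^ 2 =
      2 * ‖P.valV θ G‖ ^ 2 * P.dsq V θ + 2 * β * ‖P.der (P.ι o) θ‖ ^ 2 := by
    field_simp
  rw [h1]
  have h2 := mul_le_mul_of_nonneg_right (hβ θ) (sq_nonneg ‖P.der (P.ι o) θ‖)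
  nlinarith

theorem w_rel_zz {κ κ' : Type} [Fintype κ] [Fintype κ'] {G : κ → P.A} (hG : ∀ θ, P.valV θ G ≠ 0)
    (V : κ' → P.A) {β : ℝ} (hβ : ∀ θ, ‖P.valV θ V‖ ^ 2 ≤ β * ‖P.valV θ G‖ ^ 2) :
    P.rel G (P.zz • V) ≤ 2 * P.rel G V + 2 * β := by
  have hc : 2 * β = ∫ θ, 2 * β ∂mu := by simp
  unfold rel
  rw [hc, ← integral_const_mul, ← integral_add ((P.integrable_rel hG V).const_mul _) (integrable_const _)]
  refine integral_mono_ae (P.integrable_rel hG _) (((P.integrable_rel hG V).const_mul _).add (integrable_const _)) ?_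
  filter_upwards [P.w_dsq_smul P.zz V, P.der_zz] with θ hθ hz
  have hp : 0 < ‖P.valV θ G‖ ^ 2 := by have := norm_pos_iff.2 (hG θ); positivity
  have hn : ‖P.valV θ G‖ ≠ 0 := norm_ne_zero_iff.2 (hG θ)
  have h0 : ‖P.val θ (P.ι P.zz)‖ = 1 := by
    rw [← P.ev_val, P.ev_zz _ (by simp)]
    simp
  have h0' : ‖P.der (P.ι P.zz) θ‖ = 1 := by
    rw [hz]
    simp
  rw [h0, h0'] at hθ
  rw [div_le_iff₀ hp]
  have h1 : (2 * (P.dsq V θ / ‖P.valV θ G‖ ^ 2) + 2 * β) * ‖P.valV θ G‖ ^ 2 =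
      2 * P.dsq V θ + 2 * (β * ‖P.valV θ G‖ ^ 2) := by
    field_simp
  rw [h1]
  have h2 := hβ θ
  nlinarith

theorem w_nsq_mulVec {m r : ℕ} (M : Matrix (Fin m) (Fin r) P.A) (a : Cn r) :
    P.nsq (M *ᵥ fun i => algebraMap ℂ P.A (a i)) ≤ P.nd (M.map P.ι) * ‖a‖ ^ 2 := by
  unfold nsq nd
  rw [Finset.sum_mul]
  refine Finset.sum_le_sum fun i _ => ?_
  have h1 : P.der (P.ι ((M *ᵥ fun i => algebraMap ℂ P.A (a i)) i)) = ∑ j, a j • P.der (P.ι (M i j)) := by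
    simp only [mulVec, dotProduct, map_sum]
    refine Finset.sum_congr rfl fun j _ => ?_
    rw [mul_comm, ← Algebra.smul_def, map_smul, map_smul]
  have h2 : ‖∑ j, a j • P.der (P.ι (M i j))‖ ≤ ∑ j, ‖P.der (P.ι (M i j))‖ * ‖a j‖ :=
    (norm_sum_le _ _).trans (Finset.sum_le_sum fun j _ => by rw [norm_smul, mul_comm])
  rw [h1, EuclideanSpace.norm_sq_eq]
  refine (pow_le_pow_left₀ (norm_nonneg _) h2 2).trans ?_
  simpa using Finset.sum_mul_sq_le_sq_mul_sq Finset.univ (fun j => ‖P.der (P.ι (M i j))‖) (fun j => ‖a j‖)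

theorem w_nd_nonneg {κ κ' : Type} [Fintype κ] [Fintype κ'] (M : Matrix κ κ' P.H) : 0 ≤ P.nd M :=
  Finset.sum_nonneg fun _ _ => Finset.sum_nonneg fun _ _ => by positivity

theorem w_cont_gram {m r : ℕ} (M : Matrix (Fin m) (Fin r) P.A) :
    Continuous fun θ => gram (M.map (P.ev (circleMap 0 1 θ))) := by
  have h : Continuous fun θ => M.map (P.ev (circleMap 0 1 θ)) := by
    refine continuous_matrix fun i j => ?_
    simp only [map_apply, P.ev_val]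
    exact P.cont_val _
  unfold gram
  exact Complex.continuous_re.comp (h.matrix_conjTranspose.matrix_mul h).matrix_det

/-- `W = o • U * E` with `o` of `outerV`, `U` of `exists_onframe` for `o' • G` (a frame along `G` as well, `T_smul`), `Uᴴ γ U = Dᴴ D`, `D E = 1`
(`approx_maj`, `fact`, `tame_frame`, `nd_mul_le`).  `log gram (W 0) = (n+1) log |o 0|² + log gram (U 0) - log |det D 0|²`; `avg_log_eq`, `TB_eq`. -/
theorem exists_W {Γ dd} (h : X.Maj Γ dd) : ∃ (Γ' : Cn (N + 1) → Matrix (Fin (N + 1)) (Fin (N + 1)) ℂ) (K : ℝ), 0 ≤ K ∧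
    ContinuousOn Γ' X.Y ∧ (∀ y ∈ X.Y, ∀ v ∈ X.T y, qf (Γ y) v ≤ qf (Γ' y) v) ∧
    ∀ (d : X.Disc) (G : Fin (N + 1) → P.A), P.Rep d G → ∃ W, P.FrameA X G W ∧
      (∀ a : Cn (n + 1), ∀ V, V = W *ᵥ (fun i => algebraMap ℂ P.A (a i)) →
        (∀ θ, qf (Γ' (P.valV θ G)) (P.valV θ V) = ‖a‖ ^ 2 * ‖P.valV θ G‖ ^ 2) ∧
        (∀ θ, ‖P.valV θ V‖ ≤ K * ‖a‖ * ‖P.valV θ G‖) ∧ P.rel G V ≤ K * (1 + P.reg G) * ‖a‖ ^ 2 ∧
        P.rel G (P.zz • V) ≤ K * (1 + P.reg G) * ‖a‖ ^ 2) ∧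
      (n + 1) * d.s0 - Real.log (gram (W.map (P.ev 0))) ≤ d.TB - (n + 1) * d.TH + d.avg dd + 1 := by
  obtain ⟨Γ', c, C, K₁, hc, hK₁, hM, hb, hent, happ⟩ := P.approx_maj h
  obtain ⟨K₂, hK₂, htame⟩ := P.tame_frame X
  obtain ⟨K₃, hK₃, hfact⟩ := P.fact (n + 1) hc C
  obtain ⟨K₄, hK₄, hm₄⟩ := P.nd_mul_le (κ := Fin (n + 1)) (κ' := Fin (N + 1)) (κ'' := Fin (N + 1)) (max 1 C)
  obtain ⟨K₅, hK₅, hm₅⟩ := P.nd_mul_le (κ := Fin (n + 1)) (κ' := Fin (N + 1)) (κ'' := Fin (n + 1))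
    (max 1 ((N + 1) * C))
  obtain ⟨K₆, hK₆, hm₆⟩ := P.nd_mul_le (κ := Fin (N + 1)) (κ' := Fin (n + 1)) (κ'' := Fin (n + 1)) (max 1 (√c)⁻¹)
  set L : ℝ := K₆ * (6 * K₂ + K₃ * (K₅ * (K₄ * (6 * K₂ + 6 * K₁) + 6 * K₂))) with hL
  have hL0 : 0 ≤ L := by positivity
  have hsc : 0 < √c := Real.sqrt_pos.2 hc
  have hci : 0 ≤ c⁻¹ := inv_nonneg.2 hc.le
  refine ⟨Γ', (√c)⁻¹ + 2 * (2 * L + 4 * c⁻¹) + 2 * c⁻¹, by positivity, hM.cont,
    fun y hy v hv => (hb y hy v hv).1, fun d G hR => ?_⟩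
  have hG := hR.inY
  have hcm : ∀ θ : ℝ, circleMap 0 1 θ ∈ closedBall (0 : ℂ) 1 := fun θ => by simp
  have hGY : ∀ θ, P.valV θ G ∈ X.Y := fun θ => hG _ (hcm θ)
  have hG0 : ∀ θ, P.valV θ G ≠ 0 := fun θ => (hGY θ).1
  obtain ⟨o, o', hoo, ho, hG1, hoZ, hnsq⟩ := P.outerV hG0
  have hoz : ∀ z, P.ev z o * P.ev z o' = 1 := fun z => by rw [← map_mul, hoo, map_one]
  have ho0 : ∀ z, P.ev z o ≠ 0 := fun z => left_ne_zero_of_mul_eq_one (hoz z)
  have ho0' : ∀ z, P.ev z o' ≠ 0 := fun z => right_ne_zero_of_mul_eq_one (hoz z)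
  set G' := o' • G with hG'
  have hGG : ∀ z, P.evV z G = P.ev z o • P.evV z G' := fun z => by
    rw [hG', P.w_evV_smul, smul_smul, hoz, one_smul]
  have hY' : P.InY X G' := fun z hz => by
    rw [hG', P.w_evV_smul]
    exact X.smul_mem_Y (hG z hz) (ho0' z)
  have hY'θ : ∀ θ, P.valV θ G' ∈ X.Y := fun θ => hY' _ (hcm θ)
  obtain ⟨U, hU, hUU⟩ := P.exists_onframe hY'
  obtain ⟨γ, hγ, hγv, hγn⟩ := happ G' hY' hG1
  have hUn := htame G' hY' hG1 U hU hUU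
  have hreg : 0 ≤ P.reg G := P.rel_nonneg G G
  -- pointwise facts on the circle
  have hUθ : ∀ θ, (U.map (P.ev (circleMap 0 1 θ)))ᴴ * U.map (P.ev (circleMap 0 1 θ)) = 1 := fun θ => by
    rw [← P.w_map_val, ← P.w_map_conjT, ← Matrix.map_mul, hUU]
    exact Matrix.map_one _ (map_zero _) (map_one _)
  have hUnorm : ∀ θ (v : Cn (n + 1)),
      ‖(WithLp.toLp 2 (U.map (P.ev (circleMap 0 1 θ)) *ᵥ v.ofLp) : Cn (N + 1))‖ = ‖v‖ := fun θ v => by
    have h1 := w_qf_mul 1 (U.map (P.ev (circleMap 0 1 θ))) v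
    rw [Matrix.mul_one, hUθ, w_qf_one, w_qf_one] at h1
    exact ((sq_eq_sq₀ (norm_nonneg _) (norm_nonneg _)).1 h1).symm
  have hUT : ∀ θ (v : Cn (n + 1)),
      (WithLp.toLp 2 (U.map (P.ev (circleMap 0 1 θ)) *ᵥ v.ofLp) : Cn (N + 1)) ∈ X.T (P.valV θ G') := fun θ v =>
    (Geo.IsFrame.range (hY'θ θ) (hU _ (hcm θ))).2 ⟨v.ofLp, rfl⟩
  set γ₀ := (U.map P.ι)ᴴ * γ * U.map P.ι with hγ₀
  have hγ₀v : ∀ θ, γ₀.map (P.val θ) =
      (U.map (P.ev (circleMap 0 1 θ)))ᴴ * Γ' (P.valV θ G') * U.map (P.ev (circleMap 0 1 θ)) := fun θ => by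
    rw [hγ₀, Matrix.map_mul, Matrix.map_mul, P.w_map_conjT, P.w_map_val, hγv]
  have hγ₀b : ∀ θ v, c * ‖v‖ ^ 2 ≤ qf (γ₀.map (P.val θ)) v ∧ qf (γ₀.map (P.val θ)) v ≤ C * ‖v‖ ^ 2 := fun θ v => by
    rw [hγ₀v, w_qf_mul, ← hUnorm θ v]
    exact (hb _ (hY'θ θ) _ (hUT θ v)).2
  obtain ⟨D, E, hDE, hDD, hEn⟩ := hfact γ₀ (by
    rw [hγ₀, conjTranspose_mul, conjTranspose_mul, conjTranspose_conjTranspose, hγ, Matrix.mul_assoc]) hγ₀b
  have hDEz : ∀ z, D.map (P.ev z) * E.map (P.ev z) = 1 := fun z => by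
    rw [← Matrix.map_mul, hDE]
    exact Matrix.map_one _ (map_zero _) (map_one _)
  have hEγ : ∀ θ, (E.map (P.ev (circleMap 0 1 θ)))ᴴ * γ₀.map (P.val θ) * E.map (P.ev (circleMap 0 1 θ)) = 1 :=
    fun θ => by
      rw [← hDD, Matrix.map_mul, P.w_map_conjT, P.w_map_val, ← Matrix.mul_assoc, ← conjTranspose_mul,
        Matrix.mul_assoc, hDEz, conjTranspose_one, Matrix.mul_one]
  have hEnorm : ∀ θ (v : Cn (n + 1)),
      ‖(WithLp.toLp 2 (E.map (P.ev (circleMap 0 1 θ)) *ᵥ v.ofLp) : Cn (n + 1))‖ ≤ (√c)⁻¹ * ‖v‖ := fun θ v => by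
    have h1 := w_qf_mul (γ₀.map (P.val θ)) (E.map (P.ev (circleMap 0 1 θ))) v
    rw [hEγ, w_qf_one] at h1
    have h2 := (hγ₀b θ (WithLp.toLp 2 (E.map (P.ev (circleMap 0 1 θ)) *ᵥ v.ofLp))).1
    rw [← h1] at h2
    rw [← div_eq_inv_mul, le_div_iff₀ hsc]
    refine (pow_le_pow_iff_left₀ (by positivity) (norm_nonneg _) two_ne_zero).1 ?_
    rw [mul_pow, Real.sq_sqrt hc.le, mul_comm]
    exact h2
  have hUe : ∀ θ i j, ‖P.val θ (U.map P.ι i j)‖ ≤ 1 := fun θ i j => by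
    have := w_entry zero_le_one (fun v => by rw [hUnorm θ v, one_mul]) i j
    simpa only [map_apply, P.ev_val] using this
  have hEe : ∀ θ i j, ‖P.val θ (E.map P.ι i j)‖ ≤ (√c)⁻¹ := fun θ i j => by
    have := w_entry (inv_nonneg.2 hsc.le) (hEnorm θ) i j
    simpa only [map_apply, P.ev_val] using this
  have hγe : ∀ θ i j, ‖P.val θ (γ i j)‖ ≤ C := fun θ i j => by
    have := hent _ (hY'θ θ) i j
    rw [← hγv] at this
    exact this
  have hUe' : ∀ θ i j, ‖P.val θ ((U.map P.ι)ᴴ i j)‖ ≤ 1 := fun θ i j => by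
    rw [conjTranspose_apply, P.val_star, _root_.norm_star]
    exact hUe θ j i
  have hUγe : ∀ θ i j, ‖P.val θ (((U.map P.ι)ᴴ * γ) i j)‖ ≤ (N + 1) * C := fun θ i j => by
    rw [Matrix.mul_apply, map_sum]
    refine (norm_sum_le _ _).trans ?_
    have : ∀ k ∈ (Finset.univ : Finset (Fin (N + 1))), ‖P.val θ ((U.map P.ι)ᴴ i k * γ k j)‖ ≤ C := fun k _ => by
      rw [map_mul, norm_mul]
      exact (mul_le_of_le_one_left (norm_nonneg _) (hUe' θ i k)).trans (hγe θ k j)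
    simpa using Finset.sum_le_card_nsmul _ _ _ this
  -- tame bound
  have hnd : P.nd ((U * E).map P.ι) ≤ L * P.reg G := by
    have h4 := hm₄ _ _ (fun θ i j => (hUe' θ i j).trans (le_max_left _ _))
      (fun θ i j => (hγe θ i j).trans (le_max_right _ _))
    have h5 := hm₅ _ _ (fun θ i j => (hUγe θ i j).trans (le_max_right _ _))
      (fun θ i j => (hUe θ i j).trans (le_max_left _ _))
    have h6 := hm₆ _ _ (fun θ i j => (hUe θ i j).trans (le_max_left _ _))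
      (fun θ i j => (hEe θ i j).trans (le_max_right _ _))
    rw [P.nd_conjTranspose] at h4
    have e1 : P.nd (U.map P.ι) ≤ 6 * K₂ * P.reg G := hUn.trans (by nlinarith)
    have e2 : P.nd γ ≤ 6 * K₁ * P.reg G := hγn.trans (by nlinarith)
    have e3 : P.nd ((U.map P.ι)ᴴ * γ) ≤ K₄ * (6 * K₂ * P.reg G + 6 * K₁ * P.reg G) :=
      h4.trans (mul_le_mul_of_nonneg_left (add_le_add e1 e2) hK₄)
    have e4 : P.nd γ₀ ≤ K₅ * (K₄ * (6 * K₂ * P.reg G + 6 * K₁ * P.reg G) + 6 * K₂ * P.reg G) :=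
      h5.trans (mul_le_mul_of_nonneg_left (add_le_add e3 e1) hK₅)
    have e5 := hEn.trans (mul_le_mul_of_nonneg_left e4 hK₃)
    have e6 := h6.trans (mul_le_mul_of_nonneg_left (add_le_add e1 e5) hK₆)
    rw [Matrix.map_mul]
    refine e6.trans (le_of_eq ?_)
    rw [hL]
    ring
  have hWz : ∀ z, (o • (U * E)).map (P.ev z) = P.ev z o • (U.map (P.ev z) * E.map (P.ev z)) := fun z => by
    ext i j
    simp [Matrix.mul_apply]
  have hW : P.FrameA X G (o • (U * E)) := fun z hz => by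
    rw [hWz, hGG]
    refine ⟨?_, ?_⟩
    · rw [X.J_smul, Matrix.smul_mul, Matrix.mul_smul, ← Matrix.mul_assoc, (hU z hz).1]
      simp
    · intro a b hab
      simp only [smul_mulVec, ← mulVec_mulVec] at hab
      have h1 := (hU z hz).2 (smul_right_injective _ (ho0 z) hab)
      have h2 := congrArg (fun v => D.map (P.ev z) *ᵥ v) h1
      simpa only [mulVec_mulVec, hDEz, one_mulVec] using h2
  have hΓθ : ∀ θ, Γ' (P.valV θ G) = Γ' (P.valV θ G') := fun θ => by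
    rw [valV, hGG]
    exact hM.hom _ (hY'θ θ) _ (ho0 _)
  have hWΓ : ∀ θ, ((o • (U * E)).map (P.ev (circleMap 0 1 θ)))ᴴ * Γ' (P.valV θ G) *
      (o • (U * E)).map (P.ev (circleMap 0 1 θ)) = ((‖P.valV θ G‖ ^ 2 : ℝ) : ℂ) • (1 : Matrix _ _ ℂ) := fun θ => by
    rw [hWz, hΓθ, conjTranspose_smul, conjTranspose_mul, Matrix.smul_mul, Matrix.smul_mul, Matrix.mul_smul, smul_smul,
      ← hEγ θ, hγ₀v, ← ho, ← P.ev_val]
    congr 1
    · rw [Complex.star_def, Complex.conj_mul']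
      norm_cast
    · simp only [Matrix.mul_assoc]
  refine ⟨o • (U * E), hW, fun a V hV => ?_, ?_⟩
  · have hVθ : ∀ θ, P.valV θ V = WithLp.toLp 2 ((o • (U * E)).map (P.ev (circleMap 0 1 θ)) *ᵥ a.ofLp) := fun θ => by
      rw [hV, valV, P.w_evV_mulVec]
    have hq : ∀ θ, qf (Γ' (P.valV θ G)) (P.valV θ V) = ‖a‖ ^ 2 * ‖P.valV θ G‖ ^ 2 := fun θ => by
      rw [hVθ, ← w_qf_mul, hWΓ, w_qf_smul_one, mul_comm]
    have hVT : ∀ θ, P.valV θ V ∈ X.T (P.valV θ G) := fun θ =>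
      (Geo.IsFrame.range (hGY θ) (hW _ (hcm θ))).2 ⟨a.ofLp, by rw [hVθ]⟩
    have hVn : ∀ θ, ‖P.valV θ V‖ ^ 2 ≤ c⁻¹ * ‖a‖ ^ 2 * ‖P.valV θ G‖ ^ 2 := fun θ => by
      have h1 := (hb _ (hGY θ) _ (hVT θ)).2.1
      rw [hq] at h1
      rw [mul_assoc, ← div_eq_inv_mul, le_div_iff₀ hc, mul_comm]
      exact h1
    have hrel : P.rel G V ≤ (2 * L + 4 * c⁻¹) * P.reg G * ‖a‖ ^ 2 := by
      have hβ : ∀ θ, ‖P.valV θ ((U * E) *ᵥ fun i => algebraMap ℂ P.A (a i))‖ ^ 2 ≤ c⁻¹ * ‖a‖ ^ 2 := fun θ => by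
        rw [valV, P.w_evV_mulVec, Matrix.map_mul, ← mulVec_mulVec]
        have h1 := hUnorm θ (WithLp.toLp 2 (E.map (P.ev (circleMap 0 1 θ)) *ᵥ a.ofLp))
        have h2 := pow_le_pow_left₀ (norm_nonneg _) (hEnorm θ a) 2
        rw [mul_pow, inv_pow, Real.sq_sqrt hc.le, ← h1] at h2
        exact h2
      have h1 := P.w_rel_outer hG0 ho ((U * E) *ᵥ fun i => algebraMap ℂ P.A (a i)) hβ
      rw [← smul_mulVec, ← hV] at h1
      have h2 := (P.w_nsq_mulVec (U * E) a).trans (mul_le_mul_of_nonneg_right hnd (sq_nonneg _))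
      have h3 := mul_le_mul_of_nonneg_left hoZ (by positivity : 0 ≤ 2 * (c⁻¹ * ‖a‖ ^ 2))
      nlinarith
    have ha2 := sq_nonneg ‖a‖
    have hsi : 0 ≤ (√c)⁻¹ := inv_nonneg.2 hsc.le
    refine ⟨hq, fun θ => ?_, hrel.trans ?_, (P.w_rel_zz hG0 V hVn).trans ?_⟩
    · have h1 : ‖P.valV θ V‖ ≤ (√c)⁻¹ * ‖a‖ * ‖P.valV θ G‖ := by
        refine (pow_le_pow_iff_left₀ (norm_nonneg _) (by positivity) two_ne_zero).1 ?_
        rw [mul_pow, mul_pow, inv_pow, Real.sq_sqrt hc.le]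
        exact hVn θ
      refine h1.trans ?_
      gcongr
      have : 0 ≤ 2 * (2 * L + 4 * c⁻¹) + 2 * c⁻¹ := by positivity
      linarith
    · refine mul_le_mul_of_nonneg_right (mul_le_mul ?_ (by linarith) hreg (by positivity)) ha2
      have : 0 ≤ (√c)⁻¹ + (2 * L + 4 * c⁻¹) + 2 * c⁻¹ := by positivity
      linarith
    · have e1 : 0 ≤ (√c)⁻¹ * (1 + P.reg G) * ‖a‖ ^ 2 := by positivity
      have e2 : 0 ≤ (2 * L + 4 * c⁻¹) * ‖a‖ ^ 2 := by positivity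
      have e3 : 0 ≤ c⁻¹ * P.reg G * ‖a‖ ^ 2 := by positivity
      nlinarith
  · have hgp : ∀ θ, 0 < gram ((o • (U * E)).map (P.ev (circleMap 0 1 θ))) := fun θ => gram_pos (hW _ (hcm θ)).2
    have hpt : ∀ θ, ((n : ℝ) + 1) * Real.log (‖P.valV θ G‖ ^ 2) ≤
        Real.log (gram ((o • (U * E)).map (P.ev (circleMap 0 1 θ)))) + dd (P.valV θ G) + 1 := fun θ => by
      have h1 := hM.det _ (hGY θ) _ (hW _ (hcm θ))
      rw [hWΓ, det_smul, det_one, mul_one, Fintype.card_fin, ← Complex.ofReal_pow, Complex.ofReal_re] at h1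
      have hp : 0 < ‖P.valV θ G‖ ^ 2 := by have := norm_pos_iff.2 (hG0 θ); positivity
      have h2 := Real.log_le_log (pow_pos hp _) h1
      rw [Real.log_pow, Real.log_mul (Real.exp_pos _).ne' (hgp θ).ne', Real.log_exp] at h2
      push_cast at h2
      linarith
    have i1 : Integrable (fun θ => Real.log (‖P.valV θ G‖ ^ 2)) mu :=
      integrable_mu (((P.continuous_valV G).norm.pow 2).log fun θ => pow_ne_zero _ (norm_ne_zero_iff.2 (hG0 θ)))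
    have i2 : Integrable (fun θ => Real.log (gram ((o • (U * E)).map (P.ev (circleMap 0 1 θ))))) mu :=
      integrable_mu ((P.w_cont_gram _).log fun θ => (hgp θ).ne')
    have i3 : Integrable (fun θ => dd (P.valV θ G)) mu :=
      integrable_mu (h.dcont.comp_continuous (P.continuous_valV G) hGY)
    have h1 := integral_mono (i1.const_mul ((n : ℝ) + 1)) ((i2.add i3).add (integrable_const 1)) hpt
    simp only [Pi.add_apply] at h1
    have i4 : Integrable (fun θ => Real.log (gram ((o • (U * E)).map (P.ev (circleMap 0 1 θ)))) +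
        dd (P.valV θ G)) mu := i2.add i3
    rw [integral_const_mul, integral_add i4 (integrable_const 1), integral_add i2 i3] at h1
    simp only [integral_const, probReal_univ, one_smul] at h1
    rw [P.TB_eq hR hW, Geo.Disc.TH, hR.avg, hR.avg]
    linarith

end HA

end Crest.Agent.R269
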