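import Crest.Agent.R269.C.Defs

/-!
# Row 269, block C: basic consequences of the package (statements FROZEN)
-/

set_option autoImplicit false
set_option linter.unusedSectionVars false
set_option linter.unusedVariables false

noncomputable section

namespace Crest.Agent.R269

open Set Metric Filter Topology MeasureTheory Matrix
open Crest.AlgGeometry.ProjEmb
open scoped InnerProductSpace ContDiff

instance : IsProbabilityMeasure mu := by
  refine ⟨?_⟩
  have := Real.pi_pos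
  rw [mu, Measure.smul_apply, Measure.restrict_apply_univ, Real.volume_Ioc, smul_eq_mul, sub_zero,
    ← ENNReal.ofReal_mul (by positivity), inv_mul_cancel₀ (by positivity), ENNReal.ofReal_one]

theorem circleAverage_eq_mu (f : ℂ → ℝ) : Real.circleAverage f 0 1 = ∫ θ, f (circleMap 0 1 θ) ∂mu := by
  have := Real.pi_pos
  rw [Real.circleAverage, mu, integral_smul_measure, intervalIntegral.integral_of_le (by positivity),
    ENNReal.toReal_ofReal (by positivity)]

theorem integrable_mu {F : Type} [NormedAddCommGroup F] {f : ℝ → F} (hf : Continuous f) : Integrable f mu := by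
  exact (hf.integrableOn_Ioc (a := 0) (b := 2 * Real.pi)).smul_measure ENNReal.ofReal_ne_top

section var

variable {ψ ψ' : ℂ → ℝ} {a a' : ℝ}

theorem Up.add (h : Up ψ a) (h' : Up ψ' a') : Up (fun t => ψ t + ψ' t) (a + a') := by
  intro ε hε
  filter_upwards [h (ε / 2) (by positivity), h' (ε / 2) (by positivity)] with r h1 h2
  simp only [av4] at *
  linarith

theorem Lo.add (h : Lo ψ a) (h' : Lo ψ' a') : Lo (fun t => ψ t + ψ' t) (a + a') := by
  intro ε hε
  filter_upwards [h (ε / 2) (by positivity), h' (ε / 2) (by positivity)] with r h1 h2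
  simp only [av4] at *
  linarith

theorem Up.const_mul (h : Up ψ a) {c : ℝ} (hc : 0 ≤ c) : Up (fun t => c * ψ t) (c * a) := by
  intro ε hε
  filter_upwards [h (ε / (c + 1)) (by positivity)] with r h1
  have h2 := mul_le_mul_of_nonneg_left h1 hc
  have h3 : c * (ε / (c + 1)) ≤ ε := by
    rw [← mul_div_assoc, div_le_iff₀ (by positivity)]; nlinarith
  have h4 := mul_le_mul_of_nonneg_right h3 (sq_nonneg r)
  simp only [av4] at *
  linarith

theorem Lo.const_mul (h : Lo ψ a) {c : ℝ} (hc : 0 ≤ c) : Lo (fun t => c * ψ t) (c * a) := by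
  intro ε hε
  filter_upwards [h (ε / (c + 1)) (by positivity)] with r h1
  have h2 := mul_le_mul_of_nonneg_left h1 hc
  have h3 : c * (ε / (c + 1)) ≤ ε := by
    rw [← mul_div_assoc, div_le_iff₀ (by positivity)]; nlinarith
  have h4 := mul_le_mul_of_nonneg_right h3 (sq_nonneg r)
  simp only [av4] at *
  linarith

theorem Up.neg (h : Up ψ a) : Lo (fun t => -ψ t) (-a) := by
  intro ε hε
  filter_upwards [h ε hε] with r h1
  simp only [av4] at *
  linarith

theorem Lo.neg (h : Lo ψ a) : Up (fun t => -ψ t) (-a) := by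
  intro ε hε
  filter_upwards [h ε hε] with r h1
  simp only [av4] at *
  linarith

theorem Up.mono (h : Up ψ a) (ha : a ≤ a') : Up ψ a' := by
  intro ε hε
  filter_upwards [h ε hε] with r h1
  exact h1.trans (by gcongr)

theorem Lo.mono (h : Lo ψ a) (ha : a' ≤ a) : Lo ψ a' := by
  intro ε hε
  filter_upwards [h ε hε] with r h1
  exact le_trans (by gcongr) h1

theorem av4_le (hle : ψ' ≤ᶠ[𝓝 0] ψ) : ∀ᶠ r in 𝓝[>] (0 : ℝ), av4 ψ' r ≤ av4 ψ r := by
  have key : ∀ g : ℝ → ℂ, Continuous g → g 0 = 0 → ∀ᶠ r in 𝓝[>] (0 : ℝ), ψ' (g r) ≤ ψ (g r) := fun g hg h0 =>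
    nhdsWithin_le_nhds ((hg.tendsto' 0 0 h0).eventually hle)
  filter_upwards [key (fun r => r) (by fun_prop) (by simp), key (fun r => Complex.I * r) (by fun_prop) (by simp),
    key (fun r => -r) (by fun_prop) (by simp), key (fun r => -(Complex.I * r)) (by fun_prop) (by simp)]
    with r h1 h2 h3 h4
  simp only [av4]
  linarith

theorem Up.of_le (h : Up ψ a) (hle : ψ' ≤ᶠ[𝓝 0] ψ) (h0 : ψ' 0 = ψ 0) : Up ψ' a := by
  intro ε hε
  filter_upwards [h ε hε, av4_le hle] with r h1 h2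
  rw [h0]; linarith

theorem Lo.of_le (h : Lo ψ a) (hle : ψ ≤ᶠ[𝓝 0] ψ') (h0 : ψ' 0 = ψ 0) : Lo ψ' a := by
  intro ε hε
  filter_upwards [h ε hε, av4_le hle] with r h1 h2
  rw [h0]; linarith

theorem Lo.le_up (h : Lo ψ a) (h' : Up ψ a') : a ≤ a' := by
  refine le_of_forall_pos_le_add fun ε hε => ?_
  obtain ⟨r, h1, h2, h3⟩ := ((h (ε / 2) (by positivity)).and ((h' (ε / 2) (by positivity)).and
    self_mem_nhdsWithin)).exists
  have := le_of_mul_le_mul_right (h1.trans h2) (pow_pos h3 2)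
  linarith

theorem up_of_isLocalMax (h : IsLocalMax ψ 0) : Up ψ 0 := by
  intro ε hε
  filter_upwards [av4_le (ψ' := ψ) (ψ := fun _ => ψ 0) h] with r h1
  have : 0 ≤ (0 + ε) * r ^ 2 := by positivity
  simp only [av4] at *
  linarith

/-- `taylor_unif` on `{0}`. -/
theorem up_lo_of_contDiffAt (h : ContDiffAt ℝ 2 ψ 0) : Up ψ (levi ψ 0 1) ∧ Lo ψ (levi ψ 0 1) := by
  have key : ∀ ε > 0, ∀ᶠ r in 𝓝[>] (0 : ℝ), |av4 ψ r - ψ 0 - levi ψ 0 1 * r ^ 2| ≤ ε * r ^ 2 := by
    intro ε hε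
    obtain ⟨δ, hδ, H⟩ := taylor_unif (f := ψ) (K := {0}) isCompact_singleton (fun x hx => by rw [hx]; exact h) hε
    filter_upwards [nhdsWithin_le_nhds (Icc_mem_nhds (neg_lt_zero.2 hδ) hδ)] with r hr
    have b : ∀ (t : ℝ) (u : ℂ), ‖u‖ = 1 → t ^ 2 = r ^ 2 → |ψ (t • u) - ψ 0 - t * fderiv ℝ ψ 0 u -
        r ^ 2 * fderiv ℝ (fderiv ℝ ψ) 0 u u / 2| ≤ ε * r ^ 2 := by
      intro t u hu ht
      have n1 : ‖t • u‖ = |r| := by rw [norm_smul, hu, mul_one, Real.norm_eq_abs, (sq_eq_sq_iff_abs_eq_abs _ _).1 ht]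
      have := H 0 rfl (t • u) (by rw [n1]; exact abs_le.2 hr)
      rw [n1, sq_abs, zero_add] at this
      simp only [map_smul, _root_.smul_apply, smul_eq_mul] at this
      rwa [← mul_assoc, ← sq, ht] at this
    have h1 := abs_le.1 (b r 1 (by simp) rfl)
    have h2 := abs_le.1 (b r Complex.I (by simp) rfl)
    have h3 := abs_le.1 (b (-r) 1 (by simp) (neg_sq r))
    have h4 := abs_le.1 (b (-r) Complex.I (by simp) (neg_sq r))
    simp only [neg_smul, Complex.real_smul, one_mul, mul_comm (r : ℂ)] at h1 h2 h3 h4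
    simp only [av4, levi, smul_eq_mul, mul_one]
    rw [abs_le]
    constructor <;> linarith [h1.1, h1.2, h2.1, h2.2, h3.1, h3.2, h4.1, h4.2]
  constructor <;> intro ε hε <;> filter_upwards [key ε hε] with r hr <;> linarith [(abs_le.1 hr).1, (abs_le.1 hr).2]

end var

namespace HA

variable (P : HA) {κ κ' : Type} [Fintype κ] [Fintype κ']

theorem ι_inj : Function.Injective P.ι := by
  exact (injective_iff_map_eq_zero P.ι).2 fun a h => norm_eq_zero.1 (by rw [← P.norm_ι, h, norm_zero])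

theorem ext_A {a b : P.A} (h : ∀ θ, P.val θ (P.ι a) = P.val θ (P.ι b)) : a = b := by
  exact P.ι_inj (sub_eq_zero.1 (P.val_inj _ fun θ => by rw [map_sub, h, sub_self]))

theorem ext_ev {a b : P.A} (h : ∀ z ∈ closedBall (0 : ℂ) 1, P.ev z a = P.ev z b) : a = b := by
  refine P.ext_A fun θ => ?_
  rw [← P.ev_val, ← P.ev_val]
  exact h _ (circleMap_mem_closedBall 0 zero_le_one θ)

theorem ext_H {x y : P.H} (h : ∀ θ, P.val θ x = P.val θ y) : x = y := by
  exact sub_eq_zero.1 (P.val_inj _ fun θ => by rw [map_sub, h, sub_self])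

instance : StarModule ℂ P.H := by
  exact ⟨fun c x => P.ext_H fun θ => by simp [P.val_star]⟩

instance : ContinuousStar P.H := by
  exact ⟨(AddMonoidHomClass.isometry_of_norm (starAddEquiv : P.H ≃+ P.H) P.norm_star).continuous⟩

theorem b2_der_one : P.der 1 = 0 := by
  have h := P.der_mul 1 1
  rw [mul_one] at h
  refine Lp.ext (EventuallyEq.trans ?_ (Lp.coeFn_zero ℂ 2 mu).symm)
  filter_upwards [h] with θ hθ
  simpa using hθ

theorem der_algebraMap (c : ℂ) : P.der (algebraMap ℂ P.H c) = 0 := by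
  rw [Algebra.algebraMap_eq_smul_one, map_smul, b2_der_one, smul_zero]

theorem der_one : P.der 1 = 0 := by
  exact P.b2_der_one

/-- Maximum principle (`Complex.norm_le_of_forall_mem_frontier_norm_le`). -/
theorem norm_ev_le (a : P.A) {B : ℝ} (h : ∀ θ, ‖P.val θ (P.ι a)‖ ≤ B) {z : ℂ} (hz : z ∈ closedBall (0 : ℂ) 1) :
    ‖P.ev z a‖ ≤ B := by
  refine Complex.norm_le_of_forall_mem_frontier_norm_le isBounded_ball (P.ev_diff a) (fun w hw => ?_)
    (by rwa [closure_ball _ one_ne_zero])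
  rw [frontier_ball _ one_ne_zero, ← abs_one, ← range_circleMap] at hw
  obtain ⟨θ, rfl⟩ := hw
  rw [P.ev_val]
  exact h θ

theorem norm_ev (a : P.A) {z : ℂ} (hz : z ∈ closedBall (0 : ℂ) 1) : ‖P.ev z a‖ ≤ ‖a‖ := by
  exact P.norm_ev_le a (fun θ => (P.norm_val _ θ).trans_eq (P.norm_ι a)) hz

theorem unitA (a : P.A) (h : ∀ z ∈ closedBall (0 : ℂ) 1, P.ev z a ≠ 0) : ∃ b, a * b = 1 := by
  obtain ⟨b, hb⟩ := P.bezout (fun _ : Unit => a) fun z hz => ⟨(), h z hz⟩
  exact ⟨b (), by simpa [mul_comm] using hb⟩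

theorem dil_one (a : P.A) : P.dil 1 a = a := by
  exact P.ext_ev fun z hz => by rw [P.ev_dil a 1 (by simp) z hz]; simp

theorem dil_zero (a : P.A) : P.dil 0 a = algebraMap ℂ P.A (P.ev 0 a) := by
  exact P.ext_ev fun z hz => by rw [P.ev_dil a 0 (by simp) z hz]; simp

/-- Evaluation is a continuous linear map. -/
theorem exists_evL {z : ℂ} (hz : z ∈ closedBall (0 : ℂ) 1) :
    ∃ L : (κ → P.A) →L[ℂ] EuclideanSpace ℂ κ, ∀ G, L G = P.evV z G := by
  let e : P.A →L[ℂ] ℂ := (P.ev z).toLinearMap.mkContinuous 1 fun a => by simpa using P.norm_ev a hz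
  exact ⟨(EuclideanSpace.equiv κ ℂ).symm.toContinuousLinearMap ∘L
    ContinuousLinearMap.pi fun i => e ∘L ContinuousLinearMap.proj i, fun G => rfl⟩

/-- The derivative at `0` is a continuous linear map (Cauchy estimate). -/
theorem exists_d0 : ∃ L : (κ → P.A) →L[ℂ] EuclideanSpace ℂ κ, ∀ G, HasDerivAt (fun z => P.evV z G) (L G) 0 := by
  have hd : ∀ a, DifferentiableAt ℂ (fun z => P.ev z a) 0 := fun a =>
    (P.ev_diff a).differentiableAt isOpen_ball (mem_ball_self one_pos)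
  let l : P.A →ₗ[ℂ] ℂ :=
    { toFun := fun a => deriv (fun z => P.ev z a) 0
      map_add' := fun a b => by simp only [map_add]; exact deriv_fun_add (hd a) (hd b)
      map_smul' := fun c a => by simp only [map_smul]; exact deriv_fun_const_smul c (hd a) }
  let e : P.A →L[ℂ] ℂ := l.mkContinuous 1 fun a => by
    exact (Complex.norm_deriv_le_of_forall_mem_sphere_norm_le one_pos (P.ev_diff a)
      fun z hz => P.norm_ev a (sphere_subset_closedBall hz)).trans_eq (by simp)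
  refine ⟨(EuclideanSpace.equiv κ ℂ).symm.toContinuousLinearMap ∘L
    ContinuousLinearMap.pi fun i => e ∘L ContinuousLinearMap.proj i, fun G => ?_⟩
  exact (EuclideanSpace.equiv κ ℂ).symm.hasFDerivAt.comp_hasDerivAt 0
    (hasDerivAt_pi.2 fun i => (hd (G i)).hasDerivAt)

/-- Multiplication of `L²` by `H`. -/
theorem exists_mulL : ∃ B : P.H →L[ℂ] Lp ℂ 2 mu →L[ℂ] Lp ℂ 2 mu, ∀ x g, B x g =ᵐ[mu] fun θ => P.val θ x * g θ := by
  have hb : ∀ x (g : Lp ℂ 2 mu) θ, ‖P.val θ x * g θ‖ ≤ ‖x‖ * ‖g θ‖ := fun x g θ =>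
    (norm_mul_le _ _).trans (mul_le_mul_of_nonneg_right (P.norm_val x θ) (norm_nonneg _))
  have hm : ∀ x (g : Lp ℂ 2 mu), MemLp (fun θ => P.val θ x * g θ) 2 mu := fun x g =>
    (Lp.memLp g).of_le_mul ((P.cont_val x).aestronglyMeasurable.mul (Lp.aestronglyMeasurable g))
      (Eventually.of_forall (hb x g))
  have hc := fun x g => (hm x g).coeFn_toLp
  let B : P.H →ₗ[ℂ] Lp ℂ 2 mu →ₗ[ℂ] Lp ℂ 2 mu := LinearMap.mk₂ ℂ (fun x g => (hm x g).toLp _)
    (fun x y g => Lp.ext (by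
      filter_upwards [hc (x + y) g, hc x g, hc y g, Lp.coeFn_add ((hm x g).toLp _) ((hm y g).toLp _)]
        with θ a b c d
      rw [a, d, Pi.add_apply, b, c, map_add, add_mul]))
    (fun s x g => Lp.ext (by
      filter_upwards [hc (s • x) g, hc x g, Lp.coeFn_smul s ((hm x g).toLp _)] with θ a b d
      rw [a, d, Pi.smul_apply, b, map_smul, smul_mul_assoc]))
    (fun x g g' => Lp.ext (by
      filter_upwards [hc x (g + g'), hc x g, hc x g', Lp.coeFn_add ((hm x g).toLp _) ((hm x g').toLp _),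
        Lp.coeFn_add g g'] with θ a b c d e
      rw [a, d, Pi.add_apply, b, c, e, Pi.add_apply, mul_add]))
    (fun s x g => Lp.ext (by
      filter_upwards [hc x (s • g), hc x g, Lp.coeFn_smul s ((hm x g).toLp _), Lp.coeFn_smul s g]
        with θ a b d e
      rw [a, d, Pi.smul_apply, b, e, Pi.smul_apply, mul_smul_comm]))
  refine ⟨B.mkContinuous₂ 1 fun x g => ?_, hc⟩
  rw [one_mul]
  refine Lp.norm_le_mul_norm_of_ae_le_mul ?_
  filter_upwards [hc x g] with θ a
  exact (congrArg norm a).trans_le (hb x g θ)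

theorem diffContOnCl_evV (G : κ → P.A) : DiffContOnCl ℂ (fun z => P.evV z G) (ball 0 1) := by
  exact (EuclideanSpace.equiv κ ℂ).symm.differentiable.comp_diffContOnCl
    ⟨differentiableOn_pi.2 fun i => (P.ev_diff (G i)).1, continuousOn_pi.2 fun i => (P.ev_diff (G i)).2⟩

theorem continuous_valV (G : κ → P.A) : Continuous fun θ => P.valV θ G := by
  refine (EuclideanSpace.equiv κ ℂ).symm.continuous.comp (continuous_pi fun i => ?_)
  simp only [P.ev_val]
  exact P.cont_val _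

theorem valV_apply (G : κ → P.A) (θ : ℝ) (i : κ) : P.valV θ G i = P.val θ (P.ι (G i)) := by
  exact P.ev_val _ _

theorem ev_aeval {m : ℕ} (G : Fin m → P.A) (F : MvPolynomial (Fin m) ℂ) (z : ℂ) :
    P.ev z (MvPolynomial.aeval G F) = R269.ev F (P.evV z G) := by
  rw [MvPolynomial.comp_aeval_apply]
  rfl

theorem b3_int_sq (g : Lp ℂ 2 mu) : Integrable (fun θ => ‖g θ‖ ^ 2) mu :=
  (memLp_two_iff_integrable_sq_norm (Lp.aestronglyMeasurable g)).1 (Lp.memLp g)

theorem b3_norm_sq (g : Lp ℂ 2 mu) : ∫ θ, ‖g θ‖ ^ 2 ∂mu = ‖g‖ ^ 2 := by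
  rw [← real_inner_self_eq_norm_sq, L2.inner_def]
  simp only [real_inner_self_eq_norm_sq]

theorem b3_ae_mem : ∀ᵐ θ ∂mu, θ ∈ Ioc 0 (2 * Real.pi) :=
  Measure.ae_smul_measure (ae_restrict_mem measurableSet_Ioc) _

theorem integrable_dsq (G : κ → P.A) : Integrable (P.dsq G) mu := by
  exact integrable_finsetSum _ fun i _ => b3_int_sq _

theorem integral_dsq (G : κ → P.A) : ∫ θ, P.dsq G θ ∂mu = P.nsq G := by
  unfold dsq nsq
  rw [integral_finsetSum _ fun i _ => b3_int_sq _]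
  exact Finset.sum_congr rfl fun i _ => b3_norm_sq _

theorem integrable_rel {G : κ → P.A} (hG : ∀ θ, P.valV θ G ≠ 0) (V : κ' → P.A) :
    Integrable (fun θ => P.dsq V θ / ‖P.valV θ G‖ ^ 2) mu := by
  have hc : Continuous fun θ => (‖P.valV θ G‖ ^ 2)⁻¹ :=
    ((P.continuous_valV G).norm.pow 2).inv₀ fun θ => pow_ne_zero _ (norm_ne_zero_iff.2 (hG θ))
  obtain ⟨C, hC⟩ := (isCompact_Icc (a := (0 : ℝ)) (b := 2 * Real.pi)).exists_bound_of_continuousOn hc.continuousOn
  simp only [div_eq_mul_inv]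
  exact (P.integrable_dsq V).mul_bdd hc.aestronglyMeasurable
    (b3_ae_mem.mono fun θ hθ => hC θ (Ioc_subset_Icc_self hθ))

theorem rel_nonneg (G : κ → P.A) (V : κ' → P.A) : 0 ≤ P.rel G V := by
  exact integral_nonneg fun θ => div_nonneg (Finset.sum_nonneg fun i _ => sq_nonneg _) (sq_nonneg _)

theorem rel_of_unit {G : κ → P.A} (hG : ∀ θ, ‖P.valV θ G‖ = 1) (V : κ' → P.A) : P.rel G V = P.nsq V := by
  simp only [rel, hG, one_pow, div_one]
  exact P.integral_dsq V

theorem b3_val_aeval {σ : Type} (x : σ → P.H) (F : MvPolynomial σ ℂ) (θ : ℝ) :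
    P.val θ (MvPolynomial.aeval x F) = MvPolynomial.eval (fun j => P.val θ (x j)) F := by
  rw [← MvPolynomial.aeval_eq_eval, MvPolynomial.comp_aeval_apply]

/-- Chain rule for polynomials. -/
theorem der_aeval {σ : Type} [Fintype σ] [DecidableEq σ] (x : σ → P.H) (F : MvPolynomial σ ℂ) :
    P.der (MvPolynomial.aeval x F) =ᵐ[mu] fun θ =>
      ∑ i, MvPolynomial.eval (fun j => P.val θ (x j)) (MvPolynomial.pderiv i F) * P.der (x i) θ := by
  induction F using MvPolynomial.induction_on with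
  | C a =>
    rw [MvPolynomial.aeval_C, P.der_algebraMap]
    filter_upwards [Lp.coeFn_zero ℂ 2 mu] with θ h
    rw [h]; simp
  | add p q hp hq =>
    rw [map_add, map_add]
    filter_upwards [Lp.coeFn_add (P.der (MvPolynomial.aeval x p)) (P.der (MvPolynomial.aeval x q)), hp, hq]
      with θ h h1 h2
    rw [h, Pi.add_apply, h1, h2]
    simp only [map_add, add_mul, Finset.sum_add_distrib]
  | mul_X p j hp =>
    rw [map_mul, MvPolynomial.aeval_X]
    filter_upwards [P.der_mul (MvPolynomial.aeval x p) (x j), hp] with θ h h1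
    rw [h, h1, b3_val_aeval]
    simp [MvPolynomial.pderiv_X, Pi.single_apply, Finset.sum_add_distrib, add_mul, Finset.mul_sum, apply_ite,
      mul_assoc]

theorem b3_mul {x y : P.H} {B B' : ℝ} (hx : ∀ θ, ‖P.val θ x‖ ≤ B) (hy : ∀ θ, ‖P.val θ y‖ ≤ B') :
    ‖P.der (x * y)‖ ≤ B * ‖P.der y‖ + B' * ‖P.der x‖ := by
  obtain ⟨L, hL⟩ := P.exists_mulL
  have h1 : ∀ (x : P.H) (g : Lp ℂ 2 mu) (B : ℝ), (∀ θ, ‖P.val θ x‖ ≤ B) → ‖L x g‖ ≤ B * ‖g‖ :=
    fun x g B hx => Lp.norm_le_mul_norm_of_ae_le_mul ((hL x g).mono fun θ h => by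
      rw [h, norm_mul]; exact mul_le_mul_of_nonneg_right (hx θ) (norm_nonneg _))
  have h2 : P.der (x * y) = L x (P.der y) + L y (P.der x) := by
    refine Lp.ext ?_
    filter_upwards [P.der_mul x y, Lp.coeFn_add (L x (P.der y)) (L y (P.der x)), hL x (P.der y), hL y (P.der x)]
      with θ a b c d
    rw [a, b, Pi.add_apply, c, d]
  rw [h2]
  exact (norm_add_le _ _).trans (add_le_add (h1 _ _ _ hx) (h1 _ _ _ hy))

theorem b3_aeval {σ : Type} [Fintype σ] (F : MvPolynomial σ ℂ) (B : ℝ) : ∃ K : ℝ, 0 ≤ K ∧ ∀ x : σ → P.H,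
    (∀ θ i, ‖P.val θ (x i)‖ ≤ B) → (∀ θ, ‖P.val θ (MvPolynomial.aeval x F)‖ ≤ K) ∧
      ‖P.der (MvPolynomial.aeval x F)‖ ≤ K * ∑ i, ‖P.der (x i)‖ := by
  induction F using MvPolynomial.induction_on with
  | C a =>
    refine ⟨‖a‖, norm_nonneg _, fun x hx => ⟨fun θ => ?_, ?_⟩⟩
    · simp
    · rw [MvPolynomial.aeval_C, P.der_algebraMap, norm_zero]; positivity
  | add p q hp hq =>
    obtain ⟨K, hK, h⟩ := hp
    obtain ⟨K', hK', h'⟩ := hq
    refine ⟨K + K', by positivity, fun x hx => ⟨fun θ => ?_, ?_⟩⟩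
    · rw [map_add, map_add]
      exact (norm_add_le _ _).trans (add_le_add ((h x hx).1 θ) ((h' x hx).1 θ))
    · rw [map_add, map_add, add_mul]
      exact (norm_add_le _ _).trans (add_le_add (h x hx).2 (h' x hx).2)
  | mul_X p j hp =>
    obtain ⟨K, hK, h⟩ := hp
    refine ⟨K + |B| * K, by positivity, fun x hx => ⟨fun θ => ?_, ?_⟩⟩
    · rw [map_mul, map_mul, MvPolynomial.aeval_X, norm_mul]
      have h1 := mul_le_mul ((h x hx).1 θ) ((hx θ j).trans (le_abs_self B)) (norm_nonneg _) hK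
      linarith
    · rw [map_mul, MvPolynomial.aeval_X]
      have h1 := P.b3_mul (h x hx).1 fun θ => (hx θ j).trans (le_abs_self B)
      have h2 : ‖P.der (x j)‖ ≤ ∑ i, ‖P.der (x i)‖ :=
        Finset.single_le_sum (f := fun i => ‖P.der (x i)‖) (fun i _ => norm_nonneg _) (Finset.mem_univ j)
      have h3 := mul_le_mul_of_nonneg_left h2 hK
      have h4 := mul_le_mul_of_nonneg_left (h x hx).2 (abs_nonneg B)
      linarith

/-- Polynomials are tame on bounded sets. -/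
theorem norm_der_aeval_le {σ : Type} [Fintype σ] (F : MvPolynomial σ ℂ) (B : ℝ) : ∃ K : ℝ, 0 ≤ K ∧ ∀ x : σ → P.H,
    (∀ θ i, ‖P.val θ (x i)‖ ≤ B) → ‖P.der (MvPolynomial.aeval x F)‖ ^ 2 ≤ K * ∑ i, ‖P.der (x i)‖ ^ 2 := by
  obtain ⟨K, hK, h⟩ := P.b3_aeval F B
  refine ⟨K ^ 2 * Fintype.card σ, by positivity, fun x hx => ?_⟩
  have h1 := pow_le_pow_left₀ (norm_nonneg _) (h x hx).2 2
  have h2 := sq_sum_le_card_mul_sum_sq (s := Finset.univ) (f := fun i => ‖P.der (x i)‖)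
  rw [Finset.card_univ] at h2
  rw [mul_pow] at h1
  rw [mul_assoc]
  exact h1.trans (mul_le_mul_of_nonneg_left h2 (sq_nonneg _))

theorem norm_der_mul_le {x y : P.H} {B B' : ℝ} (hx : ∀ θ, ‖P.val θ x‖ ≤ B) (hy : ∀ θ, ‖P.val θ y‖ ≤ B') :
    ‖P.der (x * y)‖ ≤ B * ‖P.der y‖ + B' * ‖P.der x‖ := by
  exact P.b3_mul hx hy

theorem norm_der_star (x : P.H) : ‖P.der (star x)‖ = ‖P.der x‖ := by
  refine le_antisymm (Lp.norm_le_norm_of_ae_le ?_) (Lp.norm_le_norm_of_ae_le ?_) <;>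
    filter_upwards [P.der_star x] with θ h <;> rw [h, _root_.norm_star]

/-- Tame bound for matrix products. -/
theorem nd_mul_le {κ'' : Type} [Fintype κ''] (B : ℝ) : ∃ K : ℝ, 0 ≤ K ∧ ∀ (M : Matrix κ κ' P.H) (M' : Matrix κ' κ'' P.H),
    (∀ θ i j, ‖P.val θ (M i j)‖ ≤ B) → (∀ θ i j, ‖P.val θ (M' i j)‖ ≤ B) → P.nd (M * M') ≤ K * (P.nd M + P.nd M') := by
  refine ⟨2 * B ^ 2 * Fintype.card κ' * (Fintype.card κ + Fintype.card κ''), by positivity,
    fun M M' hM hM' => ?_⟩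
  have h1 : ∀ i k, ‖P.der ((M * M') i k)‖ ^ 2 ≤
      2 * B ^ 2 * Fintype.card κ' * (∑ j, ‖P.der (M i j)‖ ^ 2 + ∑ j, ‖P.der (M' j k)‖ ^ 2) := by
    intro i k
    have a1 : ‖P.der ((M * M') i k)‖ ≤ ∑ j, (B * ‖P.der (M' j k)‖ + B * ‖P.der (M i j)‖) := by
      rw [Matrix.mul_apply, map_sum]
      exact (norm_sum_le _ _).trans (Finset.sum_le_sum fun j _ =>
        P.b3_mul (fun θ => hM θ i j) fun θ => hM' θ j k)
    have a2 := sq_sum_le_card_mul_sum_sq (s := Finset.univ)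
      (f := fun j => B * ‖P.der (M' j k)‖ + B * ‖P.der (M i j)‖)
    have a3 : ∑ j, (B * ‖P.der (M' j k)‖ + B * ‖P.der (M i j)‖) ^ 2 ≤
        2 * B ^ 2 * (∑ j, ‖P.der (M i j)‖ ^ 2 + ∑ j, ‖P.der (M' j k)‖ ^ 2) := by
      rw [← Finset.sum_add_distrib, Finset.mul_sum]
      refine Finset.sum_le_sum fun j _ => ?_
      nlinarith [sq_nonneg (B * ‖P.der (M' j k)‖ - B * ‖P.der (M i j)‖)]
    rw [Finset.card_univ] at a2
    have a4 := mul_le_mul_of_nonneg_left a3 (Nat.cast_nonneg (α := ℝ) (Fintype.card κ'))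
    have a5 := pow_le_pow_left₀ (norm_nonneg _) a1 2
    linarith
  have h2 : P.nd (M * M') ≤ 2 * B ^ 2 * Fintype.card κ' *
      (Fintype.card κ'' * P.nd M + Fintype.card κ * P.nd M') := by
    refine (Finset.sum_le_sum fun i _ => Finset.sum_le_sum fun k _ => h1 i k).trans (le_of_eq ?_)
    simp only [← Finset.mul_sum, Finset.sum_add_distrib, Finset.sum_const, Finset.card_univ, nsmul_eq_mul, nd]
    rw [Finset.sum_comm (f := fun k j => ‖P.der (M' j k)‖ ^ 2)]
  have h3 : 0 ≤ P.nd M := Finset.sum_nonneg fun i _ => Finset.sum_nonneg fun j _ => sq_nonneg _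
  have h4 : 0 ≤ P.nd M' := Finset.sum_nonneg fun i _ => Finset.sum_nonneg fun j _ => sq_nonneg _
  refine h2.trans ?_
  rw [mul_assoc (2 * B ^ 2 * (Fintype.card κ' : ℝ))]
  refine mul_le_mul_of_nonneg_left ?_ (by positivity)
  have h5 : (0 : ℝ) ≤ Fintype.card κ := Nat.cast_nonneg _
  have h6 : (0 : ℝ) ≤ Fintype.card κ'' := Nat.cast_nonneg _
  nlinarith [mul_nonneg h5 h3, mul_nonneg h6 h4]

theorem nd_conjTranspose (M : Matrix κ κ' P.H) : P.nd Mᴴ = P.nd M := by
  simp only [nd, conjTranspose_apply, P.norm_der_star]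
  exact Finset.sum_comm

variable {N n : ℕ} {X : Geo N n}

theorem JA_map (G : Fin (N + 1) → P.A) (z : ℂ) : (P.JA X G).map (P.ev z) = X.J (P.evV z G) := by
  ext j i
  exact P.ev_aeval G _ z

theorem FrameA.JA_mul {P : HA} {G : Fin (N + 1) → P.A} {U} (h : P.FrameA X G U) : P.JA X G * U = 0 := by
  ext j a
  refine P.ext_ev fun z hz => ?_
  have h1 := congrFun (congrFun (h z hz).1 j) a
  rw [← P.JA_map] at h1
  simpa only [Matrix.mul_apply, Matrix.map_apply, map_sum, map_mul, Matrix.zero_apply, map_zero] using h1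

theorem evV_mem_T {G V : Fin (N + 1) → P.A} (h : P.JA X G *ᵥ V = 0) (z : ℂ) : P.evV z V ∈ X.T (P.evV z G) := by
  rw [Geo.mem_T, ← P.JA_map]
  funext j
  have h1 := congrArg (P.ev z) (congrFun h j)
  simpa only [mulVec, dotProduct, map_sum, map_mul, Pi.zero_apply, map_zero, Matrix.map_apply, evV] using h1

theorem Rep.inY {P : HA} {d : X.Disc} {G} (h : P.Rep d G) : P.InY X G := by
  intro z hz
  rw [← h z hz]
  exact d.memY z hz

theorem Rep.unique {P : HA} {d : X.Disc} {G G'} (h : P.Rep d G) (h' : P.Rep d G') : G = G' := by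
  funext i
  refine P.ext_ev fun z hz => ?_
  exact congrArg (fun v : Cn (N + 1) => v i) ((h z hz).symm.trans (h' z hz))

theorem Rep.avg {P : HA} {d : X.Disc} {G} (h : P.Rep d G) (f : Cn (N + 1) → ℝ) :
    d.avg f = ∫ θ, f (P.valV θ G) ∂mu := by
  rw [Geo.Disc.avg, circleAverage_eq_mu]
  refine integral_congr_ae (Eventually.of_forall fun θ => ?_)
  exact congrArg f (h _ (sphere_subset_closedBall (circleMap_mem_sphere 0 zero_le_one θ)))

/-- The disc with the Plücker lift `∑ b_f dv f`. -/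
theorem exists_disc {G : Fin (N + 1) → P.A} (hG : P.InY X G) {b : X.Fi → P.A}
    (hb : ∀ z ∈ closedBall (0 : ℂ) 1, ∑ f, P.ev z (b f) • X.dv f (P.evV z G) ≠ 0) :
    ∃ d : X.Disc, (∀ z, d.G z = P.evV z G) ∧ ∀ z, d.p z = ∑ f, P.ev z (b f) • X.dv f (P.evV z G) := by
  have h1 := P.diffContOnCl_evV G
  have h2 : ∀ f, DiffContOnCl ℂ (fun z => P.ev z (b f) • X.dv f (P.evV z G)) (ball 0 1) := fun f =>
    (P.ev_diff (b f)).smul (Differentiable.comp_diffContOnCl (f := X.dv f)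
      (fun y => (X.analyticAt_dv f y).differentiableAt) h1)
  refine ⟨⟨fun z => P.evV z G, fun z => ∑ f, P.ev z (b f) • X.dv f (P.evV z G), h1,
    ⟨DifferentiableOn.fun_sum fun f _ => (h2 f).1, continuousOn_finsetSum _ fun f _ => (h2 f).2⟩, hG,
    fun z _ => Submodule.sum_mem _ fun f _ => Submodule.smul_mem _ _ (Submodule.subset_span ⟨f, rfl⟩), hb⟩,
    fun _ => rfl, fun _ => rfl⟩

end HA

end Crest.Agent.R269
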