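import Crest.Agent.R269.C.C1.P

/-!
# Row 269, block C1: the `H¹` algebras exist (statement FROZEN; recipe in Blueprint.lean, C1)
-/

set_option autoImplicit false
set_option linter.unusedSectionVars false
set_option linter.unusedVariables false

noncomputable section

namespace Crest.Agent.R269

open Set Metric Filter Topology MeasureTheory Matrix
open Crest.AlgGeometry.ProjEmb
open scoped InnerProductSpace ContDiff

open C1 in
theorem exists_HA : Nonempty HA := ⟨{
  H := H
  A := SA
  ι := SA.val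
  norm_ι := fun _ => rfl
  val := val
  der := JJ.toContinuousLinearMap.comp dd
  cont_val := fun x => (fn x).continuous.comp (AddCircle.continuous_mk' _)
  norm_val := fun x θ => ((fn x).norm_coe_le_norm _).trans (le_add_of_nonneg_right (norm_nonneg _))
  norm_der := fun x => (JJ.norm_map _).le.trans (le_add_of_nonneg_left (norm_nonneg _))
  norm_le := fun x B h => by
    have h1 : ‖fn x‖ ≤ B := (ContinuousMap.norm_le _ ((norm_nonneg _).trans (h 0))).2 fun t => by
      obtain ⟨θ, rfl⟩ := QuotientAddGroup.mk_surjective t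
      exact h θ
    have h2 : ‖JJ (dd x)‖ = ‖dd x‖ := JJ.norm_map _
    change ‖x‖ ≤ B + ‖JJ (dd x)‖
    rw [h2, C1.norm_def]; linarith
  val_inj := fun x h => fn_inj (by
    ext t
    obtain ⟨θ, rfl⟩ := QuotientAddGroup.mk_surjective t
    exact h θ)
  periodic := fun x θ => by rw [val_apply, val_apply, AddCircle.coe_add_period]
  der_mul := fun x y => by
    filter_upwards [coe_JJ (dd (x * y)), coe_JJ (dd x), coe_JJ (dd y), ae_mu (coe_mulL (fn x) (dd y)),
      ae_mu (coe_mulL (fn y) (dd x)), ae_mu (Lp.coeFn_add (mulL (fn x) (dd y)) (mulL (fn y) (dd x)))]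
      with θ h1 h2 h3 h4 h5 h6
    change JJ (dd (x * y)) θ = fn x θ * JJ (dd y) θ + fn y θ * JJ (dd x) θ
    rw [h1, h2, h3, dd_mul, h6, Pi.add_apply, h4, h5]
  val_star := fun _ _ => rfl
  der_star := fun x => by
    filter_upwards [coe_JJ (dd (star x)), coe_JJ (dd x), ae_mu (Lp.coeFn_star (dd x))] with θ h1 h2 h3
    change JJ (dd (star x)) θ = star (JJ (dd x) θ)
    rw [h1, h2, dd_star, h3, Pi.star_apply]
  norm_star := norm_star_H
  osc := fun x θ θ' => by
    have h2 : ‖JJ (dd x)‖ = ‖dd x‖ := JJ.norm_map _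
    change ‖fn x θ - fn x θ'‖ ≤ 2 * Real.pi * ‖JJ (dd x)‖
    have := norm_sub_le_norm_sub_add_norm_sub (fn x θ) (cf 0 x) (fn x θ')
    rw [norm_sub_rev (cf 0 x)] at this
    rw [h2]
    nlinarith [norm_sub_cf_zero x θ, norm_sub_cf_zero x θ', Real.pi_gt_three, norm_nonneg (dd x)]
  unitH := unitH
  ev := C1.ev
  ev_diff := ev_diff
  ev_val := ev_val
  holder := fun a θ r hr => (holder a θ hr).trans_eq (congrArg _ (JJ.norm_map _).symm)
  of_analytic := of_analytic
  zz := zz
  ev_zz := fun z hz => ev_zz (mem_closedBall_zero_iff.1 hz)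
  der_zz := by
    filter_upwards [coe_JJ (dd (E 1)), ae_mu (Lp.coeFn_smul (Complex.I * (1 : ℤ)) (ee 1)),
      ae_mu (coe_toL (fourier 1))] with θ h1 h2 h3
    change JJ (dd (E 1)) θ = _
    rw [h1, dd_E, h2, Pi.smul_apply, ee, h3, fourier_coe]
    simp
  proj := proj
  proj_add := proj_add
  dil := fun r => dilA r
  ev_dil := fun a r hr z hz => ev_dilA a (by rw [Complex.norm_real, Real.norm_of_nonneg hr.1]; exact hr.2)
    (mem_closedBall_zero_iff.1 hz)
  cont_dil := cont_dil
  bezout := bezout
  cpt := cpt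
  orth := orth
  pos := pos }⟩

end Crest.Agent.R269
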