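import Crest.Agent.R269.C.Frame

/-!
# Row 269, block C6: holomorphic deformations of discs (statements FROZEN; recipe in Blueprint.lean, C6)
-/

set_option autoImplicit false
set_option linter.unusedSectionVars false
set_option linter.unusedVariables false

noncomputable section

namespace Crest.Agent.R269

open Set Metric Filter Topology MeasureTheory Matrix
open Crest.AlgGeometry.ProjEmb
open scoped InnerProductSpace ContDiff

section dfm

variable {B B' : Type} [NormedCommRing B] [NormedAlgebra ℂ B] [NormedCommRing B'] [NormedAlgebra ℂ B'] {m k : ℕ}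

theorem dfm_line (F : MvPolynomial (Fin m) ℂ) (G v : Fin m → B) :
    HasDerivAt (fun t : ℂ => MvPolynomial.aeval (G + t • v) F)
      (∑ i, MvPolynomial.aeval G (MvPolynomial.pderiv i F) * v i) 0 := by
  induction F using MvPolynomial.induction_on with
  | C a => simpa using hasDerivAt_const (0 : ℂ) (algebraMap ℂ B a)
  | add p q hp hq =>
    simp only [map_add, add_mul, Finset.sum_add_distrib]
    exact hp.add hq
  | mul_X p i hp =>
    have h1 : HasDerivAt (fun t : ℂ => (G + t • v) i) (v i) 0 := by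
      have := ((hasDerivAt_id (0 : ℂ)).smul_const (v i)).const_add (G i)
      simpa using this
    have h2 := hp.fun_mul h1
    simp only [map_mul, MvPolynomial.aeval_X]
    refine h2.congr_deriv (Eq.symm ?_)
    simp only [Derivation.leibniz, MvPolynomial.pderiv_X, smul_eq_mul, map_add, map_mul, MvPolynomial.aeval_X,
      zero_smul, add_zero, add_mul, Finset.sum_add_distrib, Finset.sum_mul]
    rw [add_comm]
    congr 1
    · exact Finset.sum_congr rfl fun j _ => by ring
    · rw [Finset.sum_eq_single i]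
      · simp
      · intro j _ hj
        simp [Pi.single_eq_of_ne hj.symm]
      · simp

/-- The map `Λ(H) = Π (H - G) + Q F(H)`. -/
def dfmL (F : Fin k → MvPolynomial (Fin m) ℂ) (G : Fin m → B) (Pr : Matrix (Fin m) (Fin m) B)
    (Q : Matrix (Fin m) (Fin k) B) (H : Fin m → B) : Fin m → B :=
  Pr *ᵥ (H - G) + Q *ᵥ fun j => MvPolynomial.aeval H (F j)

theorem dfmL_analytic (F : Fin k → MvPolynomial (Fin m) ℂ) (G : Fin m → B) (Pr : Matrix (Fin m) (Fin m) B)
    (Q : Matrix (Fin m) (Fin k) B) (x : Fin m → B) : AnalyticAt ℂ (dfmL F G Pr Q) x := by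
  have hp : ∀ i, AnalyticAt ℂ (fun H : Fin m → B => H i) x := fun i =>
    (ContinuousLinearMap.proj (R := ℂ) (φ := fun _ : Fin m => B) i).analyticAt x
  refine AnalyticAt.pi fun i => ?_
  simp only [dfmL, Pi.add_apply, mulVec, dotProduct, Pi.sub_apply]
  refine AnalyticAt.add (Finset.analyticAt_fun_sum _ fun l _ => ?_) (Finset.analyticAt_fun_sum _ fun l _ => ?_)
  · exact analyticAt_const.mul ((hp l).sub analyticAt_const)
  · exact analyticAt_const.mul (AnalyticAt.aeval_mvPolynomial hp (F l))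

theorem dfmL_fderiv {F : Fin k → MvPolynomial (Fin m) ℂ} {G : Fin m → B} {Pr : Matrix (Fin m) (Fin m) B}
    {Q : Matrix (Fin m) (Fin k) B}
    (h : Pr + Q * (Matrix.of fun j i => MvPolynomial.aeval G (MvPolynomial.pderiv i (F j))) = 1) :
    HasFDerivAt (dfmL F G Pr Q) (ContinuousLinearMap.id ℂ (Fin m → B)) G := by
  have hd := (dfmL_analytic F G Pr Q G).differentiableAt.hasFDerivAt
  refine hd.congr_fderiv (ContinuousLinearMap.ext fun v => ?_)
  have hl : HasDerivAt (fun t : ℂ => G + t • v) v 0 := by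
    simpa using ((hasDerivAt_id (0 : ℂ)).smul_const v).const_add G
  have h1 : HasDerivAt (fun t : ℂ => dfmL F G Pr Q (G + t • v)) (fderiv ℂ (dfmL F G Pr Q) G v) 0 := by
    have hd' : HasFDerivAt (dfmL F G Pr Q) (fderiv ℂ (dfmL F G Pr Q) G) (G + (0 : ℂ) • v) := by simpa using hd
    exact hd'.comp_hasDerivAt (0 : ℂ) hl
  have h2 : HasDerivAt (fun t : ℂ => dfmL F G Pr Q (G + t • v))
      (Pr *ᵥ v + Q *ᵥ fun j => ∑ i, MvPolynomial.aeval G (MvPolynomial.pderiv i (F j)) * v i) 0 := by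
    rw [hasDerivAt_pi]
    intro i
    simp only [dfmL, Pi.add_apply, mulVec, dotProduct, add_sub_cancel_left]
    refine HasDerivAt.add (HasDerivAt.fun_sum fun l _ => ?_) (HasDerivAt.fun_sum fun l _ => ?_)
    · have := ((hasDerivAt_id (0 : ℂ)).smul_const (v l)).const_mul (Pr i l)
      simpa using this
    · exact (dfm_line (F l) G v).const_mul (Q i l)
  rw [h1.unique h2]
  have h3 : (fun j => ∑ i, MvPolynomial.aeval G (MvPolynomial.pderiv i (F j)) * v i) =
      (Matrix.of fun j i => MvPolynomial.aeval G (MvPolynomial.pderiv i (F j))) *ᵥ v := rfl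
  rw [h3, mulVec_mulVec, ← add_mulVec, h, one_mulVec]
  rfl

theorem dfmL_map (φ : B →ₐ[ℂ] B') (F : Fin k → MvPolynomial (Fin m) ℂ) (G : Fin m → B) (Pr : Matrix (Fin m) (Fin m) B)
    (Q : Matrix (Fin m) (Fin k) B) (H : Fin m → B) :
    (fun i => φ (dfmL F G Pr Q H i)) = dfmL F (fun i => φ (G i)) (Pr.map φ) (Q.map φ) (fun i => φ (H i)) := by
  ext i
  simp only [dfmL, Pi.add_apply, mulVec, dotProduct, Pi.sub_apply, map_add, map_sum, map_mul, map_sub, Matrix.map_apply]
  congr 1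
  refine Finset.sum_congr rfl fun j _ => ?_
  congr 1
  exact MvPolynomial.comp_aeval_apply H φ (F j)

theorem dfm_inv {E : Type} [NormedAddCommGroup E] [NormedSpace ℂ E] [CompleteSpace E] {Λ : E → E} {G : E}
    (ha : AnalyticAt ℂ Λ G) (hd : HasFDerivAt Λ (ContinuousLinearMap.id ℂ E) G) :
    ∃ Ψ : E → E, AnalyticAt ℂ Ψ (Λ G) ∧ Ψ (Λ G) = G ∧ HasFDerivAt Ψ (ContinuousLinearMap.id ℂ E) (Λ G) ∧
      (∀ᶠ y in 𝓝 (Λ G), Λ (Ψ y) = y) ∧ ∀ᶠ x in 𝓝 G, Ψ (Λ x) = x := by
  have hc : ContDiffAt ℂ ω Λ G := ha.contDiffAt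
  have hd' : HasFDerivAt Λ ((ContinuousLinearEquiv.refl ℂ E : E ≃L[ℂ] E) : E →L[ℂ] E) G := hd
  have hn : (ω : WithTop ℕ∞) ≠ 0 := by simp
  have hs := hc.hasStrictFDerivAt' hd' hn
  refine ⟨hc.localInverse hd' hn, (hc.to_localInverse hd' hn).analyticAt, hc.localInverse_apply_image hd' hn,
    hs.to_localInverse.hasFDerivAt, hs.eventually_right_inverse, hs.eventually_left_inverse⟩

end dfm

namespace HA

variable (P : HA) {N n : ℕ} {X : Geo N n}

theorem deform {G V : Fin (N + 1) → P.A} (hG : P.InY X G) (hV : P.JA X G *ᵥ V = 0) :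
    ∃ H : ℂ → Fin (N + 1) → P.A, AnalyticAt ℂ H 0 ∧ H 0 = G ∧ HasDerivAt H V 0 ∧ (∀ᶠ t in 𝓝 0, P.InY X (H t)) ∧
      ∀ lam : ℂ, P.evV 0 V = lam • P.evV 0 G → ∀ᶠ t in 𝓝 0, P.evV 0 (H t) = (1 + t * lam) • P.evV 0 G := by
  obtain ⟨Pr, Q, hPQ, hJP⟩ := P.exists_PQ hG
  have hF0 : (fun j => MvPolynomial.aeval G (X.F j)) = 0 := funext fun j => P.ext_ev fun z hz => by
    rw [P.ev_aeval, Pi.zero_apply, map_zero]; exact (hG z hz).2 j
  have hΛ0 : dfmL X.F G Pr Q G = 0 := by
    rw [dfmL, hF0]; simp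
  obtain ⟨Ψ, hΨa, hΨ0, hΨd, hΨr, -⟩ := dfm_inv (dfmL_analytic X.F G Pr Q G) (dfmL_fderiv hPQ)
  rw [hΛ0] at hΨa hΨ0 hΨd hΨr
  have hl : HasDerivAt (fun t : ℂ => t • V) V 0 := by simpa using (hasDerivAt_id (0 : ℂ)).smul_const V
  have hla : AnalyticAt ℂ (fun t : ℂ => t • V) 0 := analyticAt_id.smul analyticAt_const
  have hlt : Tendsto (fun t : ℂ => t • V) (𝓝 0) (𝓝 0) := by simpa using hl.continuousAt.tendsto
  obtain ⟨H, hH⟩ : ∃ H : ℂ → Fin (N + 1) → P.A, H = fun t => Ψ (t • V) := ⟨_, rfl⟩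
  have hHa : AnalyticAt ℂ H 0 := by
    rw [hH]; exact hΨa.comp_of_eq hla (by simp)
  have hH0 : H 0 = G := by rw [hH]; simpa using hΨ0
  have hHd : HasDerivAt H V 0 := by
    rw [hH]; exact hΨd.comp_hasDerivAt_of_eq (0 : ℂ) hl (by simp)
  have hHr : ∀ᶠ t in 𝓝 (0 : ℂ), dfmL X.F G Pr Q (H t) = t • V := by
    rw [hH]; exact hlt.eventually hΨr
  have hHt : Tendsto H (𝓝 0) (𝓝 G) := hH0 ▸ hHa.continuousAt.tendsto
  refine ⟨H, hHa, hH0, hHd, ?_, ?_⟩
  · have hJ : ∀ᶠ t in 𝓝 (0 : ℂ), P.JA X G *ᵥ (Q *ᵥ fun j => MvPolynomial.aeval (H t) (X.F j)) = 0 := by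
      filter_upwards [hHr] with t ht
      have := congrArg (fun w => P.JA X G *ᵥ w) ht
      simp only [dfmL] at this
      rwa [mulVec_add, mulVec_mulVec, hJP, zero_mulVec, zero_add, mulVec_smul, hV, smul_zero] at this
    have hJQ : P.JA X G * Q * P.JA X G = P.JA X G := by
      have := congrArg (fun M => P.JA X G * M) hPQ
      rwa [Matrix.mul_add, hJP, zero_add, Matrix.mul_one, ← Matrix.mul_assoc] at this
    -- near `t = 0`, pointwise in `z`
    have hz0 : ∀ z ∈ closedBall (0 : ℂ) 1, ∀ᶠ t in 𝓝 (0 : ℂ), P.evV z (H t) ∈ X.Y := by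
      intro z hz
      have h1 : X.J (P.evV z G) * Q.map (P.ev z) * X.J (P.evV z G) = X.J (P.evV z G) := by
        rw [← P.JA_map]
        have := congrArg (fun M => M.map (P.ev z : P.A →+* ℂ)) hJQ
        simp only [Matrix.map_mul] at this
        exact this
      obtain ⟨L, hL⟩ := P.exists_evL (κ := Fin (N + 1)) hz
      have h2 : Tendsto (fun t => P.evV z (H t)) (𝓝 0) (𝓝 (P.evV z G)) := by
        simp only [← hL]
        exact (L.continuous.tendsto G).comp hHt
      filter_upwards [h2.eventually (X.zero_of_Q (hG z hz) h1), hJ] with t ht ht'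
      refine ht ?_
      rw [← P.JA_map]
      ext j
      have := congrArg (fun w => P.ev z (w j)) ht'
      simp only [mulVec, dotProduct, map_sum, map_mul, P.ev_aeval, Pi.zero_apply, map_zero] at this
      simpa only [mulVec, dotProduct, Matrix.map_apply, Pi.zero_apply] using this
    obtain ⟨r, hr, hA⟩ := hHa.exists_ball_analyticOnNhd
    have hz1 : ∀ z ∈ closedBall (0 : ℂ) 1, ∀ j, ∀ t ∈ ball (0 : ℂ) r, R269.ev (X.F j) (P.evV z (H t)) = 0 := by
      intro z hz j
      obtain ⟨L, hL⟩ := P.exists_evL (κ := Fin (N + 1)) hz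
      have h1 : AnalyticOnNhd ℂ (fun t => R269.ev (X.F j) (P.evV z (H t))) (ball 0 r) := by
        intro t ht
        simp only [← hL]
        exact (analyticAt_ev (X.F j) _).comp ((L.analyticAt _).comp (hA t ht))
      exact h1.eqOn_zero_of_preconnected_of_eventuallyEq_zero (convex_ball _ _).isPreconnected (mem_ball_self hr)
        ((hz0 z hz).mono fun t ht => ht.2 j)
    obtain ⟨a, ha⟩ := P.bezout G fun z hz => by
      by_contra hc
      push Not at hc
      exact (hG z hz).1 (by ext i; exact hc i)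
    have h3 : Tendsto (fun t => ∑ i, a i * H t i) (𝓝 0) (𝓝 1) := by
      rw [← ha]
      exact tendsto_finsetSum _ fun i _ => ((continuous_apply i).tendsto G |>.comp hHt).const_mul (a i)
    filter_upwards [h3.eventually (ball_mem_nhds (1 : P.A) one_pos), ball_mem_nhds (0 : ℂ) hr] with t ht ht' z hz
    refine ⟨fun h0 => ?_, fun j => hz1 z hz j t ht'⟩
    have h4 : ∀ i, P.ev z (H t i) = 0 := fun i => by
      have := congrArg (fun w : Cn (N + 1) => w i) h0
      exact this
    have h5 := P.norm_ev (∑ i, a i * H t i - 1) hz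
    rw [dist_eq_norm] at ht
    simp only [map_sub, map_sum, map_mul, h4, mul_zero, Finset.sum_const_zero, map_one, zero_sub, norm_neg,
      norm_one] at h5
    linarith
  · intro lam hlam
    have h00 : (0 : ℂ) ∈ closedBall (0 : ℂ) 1 := mem_closedBall_self zero_le_one
    have hy := hG 0 h00
    have hPQ0 : Pr.map (P.ev 0) + Q.map (P.ev 0) * X.J (P.evV 0 G) = 1 := by
      rw [← P.JA_map]
      have := congrArg (fun M => M.map (P.ev 0 : P.A →+* ℂ)) hPQ
      rw [Matrix.map_add _ (map_add _), Matrix.map_mul, Matrix.map_one _ (map_zero _) (map_one _)] at this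
      exact this
    obtain ⟨Ψ₀, -, -, -, -, hΨ₀⟩ := dfm_inv (dfmL_analytic X.F (P.evV 0 G).ofLp (Pr.map (P.ev 0)) (Q.map (P.ev 0)) _)
      (dfmL_fderiv (F := X.F) (G := (P.evV 0 G).ofLp) hPQ0)
    obtain ⟨L, hL⟩ := P.exists_evL (κ := Fin (N + 1)) h00
    have h1 : Tendsto (fun t => (P.evV 0 (H t)).ofLp) (𝓝 0) (𝓝 (P.evV 0 G).ofLp) := by
      simp only [← hL]
      exact ((PiLp.continuous_ofLp 2 _).tendsto _).comp ((L.continuous.tendsto G).comp hHt)
    have h2 : Tendsto (fun t : ℂ => (1 + t * lam) • (P.evV 0 G).ofLp) (𝓝 0) (𝓝 (P.evV 0 G).ofLp) := by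
      have : Continuous fun t : ℂ => (1 + t * lam) • (P.evV 0 G).ofLp := by fun_prop
      simpa using this.tendsto 0
    have hPr : Pr.map (P.ev 0) *ᵥ (P.evV 0 G).ofLp = (P.evV 0 G).ofLp := by
      have := congrArg (fun M => M *ᵥ (P.evV 0 G).ofLp) hPQ0
      simp only at this
      rwa [add_mulVec, ← mulVec_mulVec, X.mem_T.1 (X.self_mem_T hy), mulVec_zero, add_zero, one_mulVec] at this
    filter_upwards [h1.eventually hΨ₀, h2.eventually hΨ₀, hHr] with t e1 e2 e3
    have e4 : dfmL X.F (P.evV 0 G).ofLp (Pr.map (P.ev 0)) (Q.map (P.ev 0)) (P.evV 0 (H t)).ofLp =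
        (t * lam) • (P.evV 0 G).ofLp := by
      have := dfmL_map (P.ev 0) X.F G Pr Q (H t)
      rw [e3] at this
      refine this.symm.trans ?_
      ext i
      have h6 : P.ev 0 (V i) = lam * P.ev 0 (G i) := congrArg (fun w : Cn (N + 1) => w i) hlam
      rw [Pi.smul_apply, map_smul, h6, smul_eq_mul, ← mul_assoc]
      rfl
    have e5 : dfmL X.F (P.evV 0 G).ofLp (Pr.map (P.ev 0)) (Q.map (P.ev 0)) ((1 + t * lam) • (P.evV 0 G).ofLp) =
        (t * lam) • (P.evV 0 G).ofLp := by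
      have h7 : (fun j => MvPolynomial.aeval ((1 + t * lam) • (P.evV 0 G).ofLp) (X.F j)) = 0 := by
        ext j
        have := ev_smul (X.hom j) (P.evV 0 G) (1 + t * lam)
        rw [hy.2 j, mul_zero] at this
        exact this
      rw [dfmL, h7, mulVec_zero, add_zero, add_smul, one_smul, add_sub_cancel_left, mulVec_smul, hPr]
    have e6 : (P.evV 0 (H t)).ofLp = (1 + t * lam) • (P.evV 0 G).ofLp := by
      rw [← e1, ← e2, e4, e5]
    ext i
    exact congrFun e6 i

end HA

end Crest.Agent.R269
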