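import Crest.Agent.R269.B.Hyp
import Crest.Agent.R269.A.ThB

/-!
# Row 269, block C: the `H¹` algebras as an abstract package, definitions.  FROZEN (owner helper69)
-/

set_option autoImplicit false
set_option linter.unusedSectionVars false
set_option linter.unusedVariables false

noncomputable section

namespace Crest.Agent.R269

open Set Metric Filter Topology MeasureTheory Matrix
open Crest.AlgGeometry.ProjEmb
open scoped InnerProductSpace ContDiff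

/-- Normalised arc length in the angle `θ`. -/
def mu : Measure ℝ := ENNReal.ofReal (2 * Real.pi)⁻¹ • volume.restrict (Ioc 0 (2 * Real.pi))

/-- `H` = `H¹` functions on the circle (`val θ` value at `e^{iθ}`, `der` derivative in `θ`), `A` = those with
nonnegative frequencies (`ev z` value at a point of the closed disc). -/
structure HA where
  H : Type
  [i1 : NormedCommRing H]
  [i2 : NormedAlgebra ℂ H]
  [i3 : CompleteSpace H]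
  [i4 : StarRing H]
  A : Type
  [j1 : NormedCommRing A]
  [j2 : NormedAlgebra ℂ A]
  [j3 : CompleteSpace A]
  ι : A →ₐ[ℂ] H
  norm_ι : ∀ a, ‖ι a‖ = ‖a‖
  val : ℝ → H →ₐ[ℂ] ℂ
  der : H →L[ℂ] Lp ℂ 2 mu
  cont_val : ∀ x, Continuous fun θ => val θ x
  norm_val : ∀ x θ, ‖val θ x‖ ≤ ‖x‖
  norm_der : ∀ x, ‖der x‖ ≤ ‖x‖
  norm_le : ∀ x (B : ℝ), (∀ θ, ‖val θ x‖ ≤ B) → ‖x‖ ≤ B + ‖der x‖
  val_inj : ∀ x, (∀ θ, val θ x = 0) → x = 0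
  periodic : ∀ x θ, val (θ + 2 * Real.pi) x = val θ x
  der_mul : ∀ x y, der (x * y) =ᵐ[mu] fun θ => val θ x * der y θ + val θ y * der x θ
  val_star : ∀ x θ, val θ (star x) = star (val θ x)
  der_star : ∀ x, der (star x) =ᵐ[mu] fun θ => star (der x θ)
  norm_star : ∀ x : H, ‖star x‖ = ‖x‖
  osc : ∀ x θ θ', ‖val θ x - val θ' x‖ ≤ 2 * Real.pi * ‖der x‖
  unitH : ∀ x, (∀ θ, val θ x ≠ 0) → IsUnit x
  ev : ℂ → A →ₐ[ℂ] ℂ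
  ev_diff : ∀ a, DiffContOnCl ℂ (fun z => ev z a) (ball 0 1)
  ev_val : ∀ a θ, ev (circleMap 0 1 θ) a = val θ (ι a)
  holder : ∀ a θ, ∀ r ∈ Icc (0 : ℝ) 1, ‖ev (circleMap 0 r θ) a - val θ (ι a)‖ ≤ 2 * √(1 - r) * ‖der (ι a)‖
  of_analytic : ∀ f : ℂ → ℂ, AnalyticOnNhd ℂ f (closedBall 0 1) → ∃ a, ∀ z ∈ closedBall (0 : ℂ) 1, ev z a = f z
  zz : A
  ev_zz : ∀ z ∈ closedBall (0 : ℂ) 1, ev z zz = z
  der_zz : der (ι zz) =ᵐ[mu] fun θ => Complex.I * circleMap 0 1 θ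
  proj : H →L[ℂ] A
  proj_add : ∀ x, star x = x → ι (proj x) + star (ι (proj x)) = x
  dil : ℝ → A →ₐ[ℂ] A
  ev_dil : ∀ a, ∀ r ∈ Icc (0 : ℝ) 1, ∀ z ∈ closedBall (0 : ℂ) 1, ev z (dil r a) = ev (r * z) a
  cont_dil : ∀ a, ContinuousOn (fun r => dil r a) (Icc 0 1)
  bezout : ∀ {κ : Type} [Fintype κ] (f : κ → A), (∀ z ∈ closedBall (0 : ℂ) 1, ∃ i, ev z (f i) ≠ 0) →
    ∃ a : κ → A, ∑ i, a i * f i = 1
  cpt : ∀ (𝒰 : Ultrafilter ℕ) (a : ℕ → A) (B : ℝ), (∀ k, ‖a k‖ ≤ B) → ∃ b : A,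
    TendstoUniformlyOn (fun k z => ev z (a k)) (fun z => ev z b) 𝒰 (closedBall 0 1) ∧
      ∀ h : Lp ℂ 2 mu, Tendsto (fun k => ⟪h, der (ι (a k))⟫_ℂ) 𝒰 (𝓝 ⟪h, der (ι b)⟫_ℂ)
  orth : ∀ a b c : A, ∫ θ, der (ι a) θ * der (ι b) θ * val θ (ι c) ∂mu = 0
  pos : ∀ {κ : Type} [Fintype κ] (U : κ → A), (∀ θ, ∑ i, ‖val θ (ι (U i))‖ ^ 2 = 1) →
    ∀ᵐ θ ∂mu, 0 ≤ (∑ i, star (val θ (ι (U i))) * (-Complex.I * der (ι (U i)) θ)).re

attribute [instance] HA.i1 HA.i2 HA.i3 HA.i4 HA.j1 HA.j2 HA.j3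

/-- Four point average. -/
def av4 (ψ : ℂ → ℝ) (r : ℝ) : ℝ := (ψ r + ψ (Complex.I * r) + ψ (-r) + ψ (-(Complex.I * r))) / 4

/-- Upper second variation. -/
def Up (ψ : ℂ → ℝ) (a : ℝ) : Prop := ∀ ε > 0, ∀ᶠ r in 𝓝[>] (0 : ℝ), av4 ψ r - ψ 0 ≤ (a + ε) * r ^ 2

/-- Lower second variation. -/
def Lo (ψ : ℂ → ℝ) (a : ℝ) : Prop := ∀ ε > 0, ∀ᶠ r in 𝓝[>] (0 : ℝ), (a - ε) * r ^ 2 ≤ av4 ψ r - ψ 0

namespace HA

variable (P : HA) {κ κ' : Type} [Fintype κ] [Fintype κ']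

/-- Value of a vector of `A` at a point of the closed disc. -/
def evV (z : ℂ) (G : κ → P.A) : EuclideanSpace ℂ κ := WithLp.toLp 2 fun i => P.ev z (G i)

/-- Boundary value. -/
def valV (θ : ℝ) (G : κ → P.A) : EuclideanSpace ℂ κ := P.evV (circleMap 0 1 θ) G

/-- `‖G_θ‖²` pointwise. -/
def dsq (G : κ → P.A) (θ : ℝ) : ℝ := ∑ i, ‖P.der (P.ι (G i)) θ‖ ^ 2

/-- `∫ ‖G_θ‖²`. -/
def nsq (G : κ → P.A) : ℝ := ∑ i, ‖P.der (P.ι (G i))‖ ^ 2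

/-- `∫ ‖M_θ‖²` for a matrix over `H`. -/
def nd (M : Matrix κ κ' P.H) : ℝ := ∑ i, ∑ j, ‖P.der (M i j)‖ ^ 2

/-- `∫ ‖V_θ‖² / ‖G‖²`. -/
def rel (G : κ → P.A) (V : κ' → P.A) : ℝ := ∫ θ, P.dsq V θ / ‖P.valV θ G‖ ^ 2 ∂mu

def reg (G : κ → P.A) : ℝ := P.rel G G

variable {N n : ℕ} (X : Geo N n)

def InY (G : Fin (N + 1) → P.A) : Prop := ∀ z ∈ closedBall (0 : ℂ) 1, P.evV z G ∈ X.Y

/-- The Jacobian matrix along `G`. -/
def JA (G : Fin (N + 1) → P.A) : Matrix (Fin X.k) (Fin (N + 1)) P.A :=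
  fun j i => MvPolynomial.aeval G (MvPolynomial.pderiv i (X.F j))

/-- A holomorphic frame of `T` along `G`. -/
def FrameA (G : Fin (N + 1) → P.A) (U : Matrix (Fin (N + 1)) (Fin (n + 1)) P.A) : Prop :=
  ∀ z ∈ closedBall (0 : ℂ) 1, X.IsFrame (P.evV z G) (U.map (P.ev z))

variable {X}

def Rep (d : X.Disc) (G : Fin (N + 1) → P.A) : Prop := ∀ z ∈ closedBall (0 : ℂ) 1, d.G z = P.evV z G

/-- `(d, G)` maximises `L - τ reg`. -/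
structure IsMax (D : X.Dat) (τ : ℝ) (d : X.Disc) (G : Fin (N + 1) → P.A) : Prop where
  rep : P.Rep d G
  mem : d.G 0 ∈ D.C
  max : ∀ d' G', P.Rep d' G' → d'.G 0 ∈ D.C → D.L d' - τ * P.reg G' ≤ D.L d - τ * P.reg G

end HA

end Crest.Agent.R269
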