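import Crest.Agent.R269.C.FactA

/-!
# Row 269, block C2: factorisation of positive matrix functions (statements FROZEN; recipe in Blueprint.lean, C2)
-/

set_option autoImplicit false
set_option linter.unusedSectionVars false
set_option linter.unusedVariables false

noncomputable section

namespace Crest.Agent.R269

open Set Metric Filter Topology MeasureTheory Matrix
open Crest.AlgGeometry.ProjEmb
open scoped InnerProductSpace ContDiff

namespace HA

variable (P : HA) {κ : Type} [Fintype κ]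

/-- Factorisation with a tame bound. -/
theorem fact (d : ℕ) {c : ℝ} (hc : 0 < c) (C : ℝ) : ∃ K : ℝ, 0 ≤ K ∧ ∀ γ : Matrix (Fin d) (Fin d) P.H, γᴴ = γ →
    (∀ θ v, c * ‖v‖ ^ 2 ≤ qf (γ.map (P.val θ)) v ∧ qf (γ.map (P.val θ)) v ≤ C * ‖v‖ ^ 2) →
    ∃ D E : Matrix (Fin d) (Fin d) P.A, D * E = 1 ∧ (D.map P.ι)ᴴ * D.map P.ι = γ ∧ P.nd (E.map P.ι) ≤ K * P.nd γ := by
  refine ⟨(d / c) ^ 3 / 2, by positivity, fun γ hγ h => ?_⟩
  obtain ⟨D, E, h1, h2⟩ := P.fact_exists hc hγ fun θ v => (h θ v).1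
  refine ⟨D, E, h1, h2, ?_⟩
  have := (P.tame hc h1 fun θ v => by rw [h2]; exact (h θ v).1).2
  rwa [h2] at this

lemma facto_val {o o' : P.A} (h : o * o' = 1) (θ : ℝ) :
    P.val θ (P.ι o) ≠ 0 ∧ P.val θ (P.ι o') = (P.val θ (P.ι o))⁻¹ := by
  have e : P.val θ (P.ι o) * P.val θ (P.ι o') = 1 := by rw [← map_mul, ← map_mul, h, map_one, map_one]
  exact ⟨left_ne_zero_of_mul_eq_one e, eq_inv_of_mul_eq_one_right e⟩

lemma facto_Z {o o' : P.A} (h : o * o' = 1) :
    ∃ Z : Lp ℂ 2 mu, Z =ᵐ[mu] fun θ => P.der (P.ι o) θ / P.val θ (P.ι o) := by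
  obtain ⟨B, hB⟩ := P.exists_mulL
  refine ⟨B (P.ι o') (P.der (P.ι o)), (hB (P.ι o') (P.der (P.ι o))).mono fun θ e => ?_⟩
  simp only [e, (P.facto_val h θ).2, div_eq_inv_mul]

lemma facto_int {o o' : P.A} (h : o * o' = 1) :
    Integrable (fun θ => ‖P.der (P.ι o) θ‖ ^ 2 / ‖P.val θ (P.ι o)‖ ^ 2) mu := by
  obtain ⟨Z, hZ⟩ := P.facto_Z h
  refine ((memLp_two_iff_integrable_sq_norm (Lp.aestronglyMeasurable Z)).1 (Lp.memLp Z)).congr
    (hZ.mono fun θ e => ?_)
  simp only [e, norm_div, div_pow]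

lemma facto_der (y : P.H) : P.der (star y * y) =ᵐ[mu] fun θ =>
    star (P.val θ y) * P.der y θ + P.val θ y * star (P.der y θ) := by
  filter_upwards [P.der_mul (star y) y, P.der_star y] with θ a b
  rw [a, b, P.val_star]

/-- Outer functions (`fact` with `d = 1`).  With `Z = o_θ / o`: `Z + conj Z = x_θ / x` and `∫ Z² = 0` (`orth`). -/
theorem outer {x : P.H} (hx : star x = x) (hpos : ∀ θ, 0 < (P.val θ x).re) : ∃ o o' : P.A, o * o' = 1 ∧
    star (P.ι o) * P.ι o = x ∧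
    2 * ∫ θ, ‖P.der (P.ι o) θ‖ ^ 2 / ‖P.val θ (P.ι o)‖ ^ 2 ∂mu = ∫ θ, ‖P.der x θ‖ ^ 2 / ‖P.val θ x‖ ^ 2 ∂mu := by
  have hr : ∀ θ, (P.val θ x).im = 0 := fun θ => by
    have := P.val_star x θ
    rw [hx] at this
    exact Complex.conj_eq_iff_im.1 this.symm
  obtain ⟨c, hc, hc'⟩ : ∃ c : ℝ, 0 < c ∧ ∀ θ, c ≤ (P.val θ x).re := by
    have hp : Function.Periodic (fun θ => (P.val θ x).re) (2 * Real.pi) := fun θ => by simp only [P.periodic]
    obtain ⟨_, ⟨θ₀, rfl⟩, h⟩ := (hp.compact_of_continuous (by positivity)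
      (Complex.continuous_re.comp (P.cont_val x))).exists_isLeast (range_nonempty _)
    exact ⟨_, hpos θ₀, fun θ => h ⟨θ, rfl⟩⟩
  obtain ⟨K, -, hK⟩ := P.fact 1 hc ‖x‖
  obtain ⟨D, E, h1, h2, -⟩ := hK (Matrix.of fun _ _ => x) (by ext i j; simp [hx]) (fun θ v => by
    have e : qf ((Matrix.of fun _ _ => x : Matrix (Fin 1) (Fin 1) P.H).map (P.val θ)) v =
        (P.val θ x).re * ‖v‖ ^ 2 := by
      simp [qf, dotProduct, mulVec, EuclideanSpace.norm_sq_eq, Complex.sq_norm, Complex.normSq_apply, hr θ]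
      ring
    rw [e]
    exact ⟨mul_le_mul_of_nonneg_right (hc' θ) (by positivity),
      mul_le_mul_of_nonneg_right ((Complex.re_le_norm _).trans (P.norm_val x θ)) (by positivity)⟩)
  have e1 : D 0 0 * E 0 0 = 1 := by simpa [Matrix.mul_apply] using congrFun (congrFun h1 0) 0
  have e2 : star (P.ι (D 0 0)) * P.ι (D 0 0) = x := by simpa [Matrix.mul_apply] using congrFun (congrFun h2 0) 0
  refine ⟨D 0 0, E 0 0, e1, e2, ?_⟩
  generalize D 0 0 = o at e1 e2
  generalize E 0 0 = o' at e1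
  obtain ⟨Z, hZ⟩ := P.facto_Z e1
  have i1 := P.facto_int e1
  have i2 : Integrable (fun θ => Z θ * Z θ) mu := (Lp.memLp Z).integrable_mul (Lp.memLp Z)
  have i3 : ∫ θ, Z θ * Z θ ∂mu = 0 := by
    rw [← P.orth o o (o' * o')]
    refine integral_congr_ae (hZ.mono fun θ e => ?_)
    simp only [e, map_mul, (P.facto_val e1 θ).2]
    ring
  have i4 : ∫ θ, (Z θ * Z θ).re ∂mu = 0 := by
    have := integral_re i2
    rw [i3] at this
    simpa using this
  have i5 : ∫ θ, ‖P.der x θ‖ ^ 2 / ‖P.val θ x‖ ^ 2 ∂mu =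
      ∫ θ, (2 * (‖P.der (P.ι o) θ‖ ^ 2 / ‖P.val θ (P.ι o)‖ ^ 2) + 2 * (Z θ * Z θ).re) ∂mu := by
    subst e2
    refine integral_congr_ae ?_
    filter_upwards [P.facto_der (P.ι o), hZ] with θ a b
    have h0 := (P.facto_val e1 θ).1
    have h0' : star (P.val θ (P.ι o)) ≠ 0 := star_ne_zero.2 h0
    have e3 : P.der (star (P.ι o) * P.ι o) θ / P.val θ (star (P.ι o) * P.ι o) = Z θ + star (Z θ) := by
      rw [a, b, map_mul, P.val_star, star_div₀]
      field_simp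
    rw [← div_pow, ← norm_div, e3, ← div_pow, ← norm_div, ← b]
    simp only [Complex.sq_norm, Complex.normSq_apply, Complex.add_re, Complex.add_im, Complex.mul_re,
      Complex.star_def, Complex.conj_re, Complex.conj_im]
    ring
  have i6 : Integrable (fun θ => (Z θ * Z θ).re) mu := i2.re
  rw [i5, integral_add (i1.const_mul 2) (i6.const_mul 2), integral_const_mul, integral_const_mul, i4]
  ring

/-- `outer` for `x = ∑ star (G i) * G i`; `|x_θ| ≤ 2 ‖G‖ ‖G_θ‖`; `‖(o' G)_θ‖ ≤ ‖G_θ‖/‖G‖ + |o_θ / o|`. -/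
theorem outerV {G : κ → P.A} (hG : ∀ θ, P.valV θ G ≠ 0) : ∃ o o' : P.A, o * o' = 1 ∧
    (∀ θ, ‖P.val θ (P.ι o)‖ = ‖P.valV θ G‖) ∧ (∀ θ, ‖P.valV θ (o' • G)‖ = 1) ∧
    ∫ θ, ‖P.der (P.ι o) θ‖ ^ 2 / ‖P.val θ (P.ι o)‖ ^ 2 ∂mu ≤ 2 * P.reg G ∧ P.nsq (o' • G) ≤ 6 * P.reg G := by
  set x : P.H := ∑ i, star (P.ι (G i)) * P.ι (G i) with hx
  have hn : ∀ θ, ‖P.valV θ G‖ ^ 2 = ∑ i, ‖P.val θ (P.ι (G i))‖ ^ 2 := fun θ => by
    simp only [EuclideanSpace.norm_sq_eq, P.valV_apply]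
  have hv : ∀ θ, P.val θ x = (‖P.valV θ G‖ ^ 2 : ℝ) := fun θ => by
    rw [hn, hx, map_sum, Complex.ofReal_sum]
    refine Finset.sum_congr rfl fun i _ => ?_
    rw [map_mul, P.val_star, Complex.star_def, Complex.conj_mul', Complex.ofReal_pow]
  have hp : ∀ θ, 0 < ‖P.valV θ G‖ := fun θ => norm_pos_iff.2 (hG θ)
  obtain ⟨o, o', h1, h2, h3⟩ := P.outer (x := x) (by simp only [hx, star_sum, star_mul, star_star])
    (fun θ => by rw [hv, Complex.ofReal_re]; exact pow_pos (hp θ) 2)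
  have a1 : ∀ θ, ‖P.val θ (P.ι o)‖ = ‖P.valV θ G‖ := fun θ => by
    have := hv θ
    rw [← h2, map_mul, P.val_star, Complex.star_def, Complex.conj_mul', ← Complex.ofReal_pow,
      Complex.ofReal_inj] at this
    exact (pow_left_inj₀ (norm_nonneg _) (norm_nonneg _) two_ne_zero).1 this
  have iG := P.integrable_rel hG G
  have a3 : ∫ θ, ‖P.der (P.ι o) θ‖ ^ 2 / ‖P.val θ (P.ι o)‖ ^ 2 ∂mu ≤ 2 * P.reg G := by
    have : ∫ θ, ‖P.der x θ‖ ^ 2 / ‖P.val θ x‖ ^ 2 ∂mu ≤ ∫ θ, 4 * (P.dsq G θ / ‖P.valV θ G‖ ^ 2) ∂mu := by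
      refine integral_mono_of_nonneg (Eventually.of_forall fun θ => by positivity) (iG.const_mul 4) ?_
      have b1 := Lp.coeFn_fun_finsetSum Finset.univ fun i => P.der (star (P.ι (G i)) * P.ι (G i))
      rw [← map_sum, ← hx] at b1
      filter_upwards [b1, ae_all_iff.2 fun i => P.facto_der (P.ι (G i))] with θ b c
      have d1 : ‖P.der x θ‖ ≤ 2 * ∑ i, ‖P.val θ (P.ι (G i))‖ * ‖P.der (P.ι (G i)) θ‖ := by
        rw [b, Finset.mul_sum]
        refine (norm_sum_le _ _).trans (Finset.sum_le_sum fun i _ => ?_)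
        rw [c i]
        refine (norm_add_le _ _).trans (le_of_eq ?_)
        simp only [norm_mul, _root_.norm_star]
        ring
      have d2 := Finset.sum_mul_sq_le_sq_mul_sq Finset.univ (fun i => ‖P.val θ (P.ι (G i))‖)
        (fun i => ‖P.der (P.ι (G i)) θ‖)
      have d3 := pow_le_pow_left₀ (norm_nonneg _) d1 2
      have := hp θ
      rw [← hn] at d2
      rw [hv, Complex.norm_real, Real.norm_of_nonneg (by positivity), div_le_iff₀ (by positivity)]
      calc _ ≤ 4 * (‖P.valV θ G‖ ^ 2 * P.dsq G θ) := by rw [mul_pow] at d3; unfold dsq; linarith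
        _ = _ := by field_simp
    rw [integral_const_mul] at this
    unfold reg rel
    linarith
  refine ⟨o, o', h1, a1, fun θ => ?_, a3, ?_⟩
  · have : P.valV θ (o' • G) = P.val θ (P.ι o') • P.valV θ G := by
      ext i; simp [P.valV_apply]
    rw [this, norm_smul, (P.facto_val h1 θ).2, norm_inv, a1, inv_mul_cancel₀ (hp θ).ne']
  · have i1 := P.facto_int h1
    have : ∫ θ, P.dsq (o' • G) θ ∂mu ≤ ∫ θ, (2 * (P.dsq G θ / ‖P.valV θ G‖ ^ 2) +
        2 * (‖P.der (P.ι o) θ‖ ^ 2 / ‖P.val θ (P.ι o)‖ ^ 2)) ∂mu := by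
      refine integral_mono_ae (P.integrable_dsq _) ((iG.const_mul 2).add (i1.const_mul 2)) ?_
      have b1 := P.der_mul (P.ι o) (P.ι o')
      rw [← map_mul, h1, map_one, P.der_one] at b1
      filter_upwards [b1, Lp.coeFn_zero ℂ 2 mu, ae_all_iff.2 fun i => P.der_mul (P.ι o') (P.ι (G i))] with θ b c d
      obtain ⟨h0, hw⟩ := P.facto_val h1 θ
      have e1 : P.der (P.ι o') θ = -(P.der (P.ι o) θ / P.val θ (P.ι o) ^ 2) := by
        rw [c, hw, Pi.zero_apply] at b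
        field_simp at b ⊢
        linear_combination -b
      have n0 := norm_pos_iff.2 h0
      calc P.dsq (o' • G) θ ≤ ∑ i, (2 * (‖P.der (P.ι (G i)) θ‖ ^ 2 / ‖P.val θ (P.ι o)‖ ^ 2) +
            2 * (‖P.val θ (P.ι (G i))‖ ^ 2 * (‖P.der (P.ι o) θ‖ ^ 2 / ‖P.val θ (P.ι o)‖ ^ 4))) := by
            refine Finset.sum_le_sum fun i _ => ?_
            rw [Pi.smul_apply, smul_eq_mul, map_mul, d i, e1, hw]
            refine (pow_le_pow_left₀ (norm_nonneg _) (norm_add_le _ _) 2).trans (add_sq_le.trans (le_of_eq ?_))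
            simp only [norm_mul, norm_inv, norm_neg, norm_div, norm_pow]
            field_simp
        _ = _ := by
            rw [Finset.sum_add_distrib, ← Finset.mul_sum, ← Finset.mul_sum, ← Finset.sum_div, ← Finset.sum_mul, ← hn,
              ← a1, dsq]
            field_simp
    rw [P.integral_dsq, integral_add (iG.const_mul 2) (i1.const_mul 2), integral_const_mul, integral_const_mul] at this
    unfold reg rel at *
    linarith

end HA

end Crest.Agent.R269
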