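import Crest.Agent.R269.C.Base

/-!
# Row 269, block C2: auxiliary lemmas for `HA.fact` (Frobenius norm, tame bound, factorisation near `1`)
-/

set_option autoImplicit false
set_option linter.unusedSectionVars false
set_option linter.unusedVariables false

noncomputable section

namespace Crest.Agent.R269

open Set Metric Filter Topology MeasureTheory Matrix
open scoped InnerProductSpace ContDiff

section fro

variable {l m n : Type} [Fintype l] [Fintype m] [Fintype n]

/-- Squared Frobenius norm. -/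
def fro (A : Matrix m n ℂ) : ℝ := ∑ i, ∑ j, ‖A i j‖ ^ 2

theorem fro_nonneg (A : Matrix m n ℂ) : 0 ≤ fro A := by unfold fro; positivity

theorem fro_entry (A : Matrix m n ℂ) (i : m) (j : n) : ‖A i j‖ ^ 2 ≤ fro A :=
  (Finset.single_le_sum (f := fun j => ‖A i j‖ ^ 2) (fun _ _ => by positivity) (Finset.mem_univ j)).trans
    (Finset.single_le_sum (f := fun i => ∑ j, ‖A i j‖ ^ 2) (fun _ _ => by positivity) (Finset.mem_univ i))

theorem fro_mul_le (A : Matrix l m ℂ) (B : Matrix m n ℂ) : fro (A * B) ≤ fro A * fro B := by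
  have h : ∀ i j, ‖(A * B) i j‖ ^ 2 ≤ (∑ k, ‖A i k‖ ^ 2) * ∑ k, ‖B k j‖ ^ 2 := fun i j => by
    refine le_trans ?_ (Finset.sum_mul_sq_le_sq_mul_sq Finset.univ (fun k => ‖A i k‖) fun k => ‖B k j‖)
    refine pow_le_pow_left₀ (norm_nonneg _) ?_ 2
    rw [Matrix.mul_apply]
    exact (norm_sum_le _ _).trans (Finset.sum_le_sum fun k _ => norm_mul_le _ _)
  unfold fro
  rw [Finset.sum_comm (f := fun i j => ‖B i j‖ ^ 2), Finset.sum_mul_sum]
  exact Finset.sum_le_sum fun i _ => Finset.sum_le_sum fun j _ => h i j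

theorem fro_conjTranspose (A : Matrix m n ℂ) : fro Aᴴ = fro A := by
  unfold fro
  rw [Finset.sum_comm]
  simp

theorem fro_neg (A : Matrix m n ℂ) : fro (-A) = fro A := by simp [fro]

theorem fro_add_conj (Y : Matrix n n ℂ) : fro (Y + Yᴴ) = 2 * fro Y + 2 * (trace (Y * Y)).re := by
  have h : ∀ a b : ℂ, ‖a + star b‖ ^ 2 = ‖a‖ ^ 2 + ‖b‖ ^ 2 + 2 * (a * b).re := fun a b => by
    simp only [Complex.sq_norm, Complex.normSq_apply, Complex.add_re, Complex.add_im, Complex.star_def,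
      Complex.conj_re, Complex.conj_im, Complex.mul_re]
    ring
  have h2 : ∑ i, ∑ j, ‖Y j i‖ ^ 2 = fro Y := Finset.sum_comm
  simp only [fro, Matrix.add_apply, Matrix.conjTranspose_apply, h, Finset.sum_add_distrib, trace, diag_apply,
    Matrix.mul_apply, Complex.re_sum, Finset.mul_sum] at h2 ⊢
  rw [h2]
  simp only [two_mul, Finset.sum_add_distrib]

theorem fro_key [DecidableEq n] {D E G' E' : Matrix n n ℂ} (hDE : D * E = 1)
    (h : E'ᴴ * (Dᴴ * D * E) + Eᴴ * (G' * E + Dᴴ * D * E') = 0) {β : ℝ} (hβ : fro E ≤ β) :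
    fro E' ≤ β ^ 3 / 2 * fro G' - β * (trace (D * E' * (D * E'))).re := by
  have hED : E * D = 1 := mul_eq_one_comm.1 hDE
  have hDE' : Eᴴ * Dᴴ = 1 := by rw [← conjTranspose_mul, hDE, conjTranspose_one]
  have h1 : D * E' + (D * E')ᴴ = -(Eᴴ * G' * E) := by
    rw [Matrix.mul_assoc Dᴴ, hDE, Matrix.mul_one, Matrix.mul_add, Matrix.mul_assoc Dᴴ, ← Matrix.mul_assoc Eᴴ Dᴴ,
      hDE', Matrix.one_mul, ← conjTranspose_mul, ← Matrix.mul_assoc] at h
    rw [eq_neg_iff_add_eq_zero, ← h]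
    abel
  have h2 := fro_add_conj (D * E')
  rw [h1, fro_neg] at h2
  have β0 : 0 ≤ β := (fro_nonneg E).trans hβ
  have h3 : fro (Eᴴ * G' * E) ≤ β * fro G' * β := by
    refine (fro_mul_le _ _).trans (mul_le_mul ((fro_mul_le _ _).trans ?_) hβ (fro_nonneg _)
      (mul_nonneg β0 (fro_nonneg _)))
    rw [fro_conjTranspose]
    exact mul_le_mul_of_nonneg_right hβ (fro_nonneg _)
  have h4 : fro E' ≤ β * fro (D * E') := by
    conv_lhs => rw [← Matrix.one_mul E', ← hED, Matrix.mul_assoc]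
    exact (fro_mul_le _ _).trans (mul_le_mul_of_nonneg_right hβ (fro_nonneg _))
  have h5 : fro (D * E') ≤ β ^ 2 / 2 * fro G' - (trace (D * E' * (D * E'))).re := by nlinarith
  nlinarith [mul_le_mul_of_nonneg_left h5 β0]

theorem fro_inv_le {d : ℕ} {D E : Matrix (Fin d) (Fin d) ℂ} (hDE : D * E = 1) {c : ℝ} (hc : 0 < c)
    (h : ∀ v, c * ‖v‖ ^ 2 ≤ qf (Dᴴ * D) v) : fro E ≤ d / c := by
  have h1 : ∀ j, ∑ i, ‖E i j‖ ^ 2 ≤ 1 / c := fun j => by
    have h2 := h (WithLp.toLp 2 fun i => E i j)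
    have h3 : Eᴴ * (Dᴴ * D * E) = 1 := by
      rw [Matrix.mul_assoc Dᴴ, hDE, Matrix.mul_one, ← conjTranspose_mul, hDE, conjTranspose_one]
    have h4 : qf (Dᴴ * D) (WithLp.toLp 2 fun i => E i j) = ((Eᴴ * (Dᴴ * D * E)) j j).re := rfl
    rw [h4, h3, EuclideanSpace.norm_sq_eq] at h2
    rw [le_div_iff₀ hc, mul_comm]
    simpa using h2
  unfold fro
  rw [Finset.sum_comm]
  refine (Finset.sum_le_sum fun j _ => h1 j).trans (le_of_eq ?_)
  simp [div_eq_mul_inv]

end fro

theorem fa_int_sq (g : Lp ℂ 2 mu) : Integrable (fun θ => ‖g θ‖ ^ 2) mu :=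
  (memLp_two_iff_integrable_sq_norm (Lp.aestronglyMeasurable g)).1 (Lp.memLp g)

theorem fa_integral_sq (g : Lp ℂ 2 mu) : ∫ θ, ‖g θ‖ ^ 2 ∂mu = ‖g‖ ^ 2 := by
  rw [← inner_self_eq_norm_sq (𝕜 := ℂ) g, L2.inner_def, ← integral_re (L2.integrable_inner g g)]
  exact integral_congr_ae (ae_of_all _ fun θ => (inner_self_eq_norm_sq (𝕜 := ℂ) (g θ)).symm)

namespace HA

variable (P : HA) {l m n : Type} [Fintype l] [Fintype m] [Fintype n]

/-- Pointwise derivative of a matrix. -/
def dM (M : Matrix m n P.H) (θ : ℝ) : Matrix m n ℂ := Matrix.of fun i j => P.der (M i j) θ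

theorem dM_mul (M : Matrix l m P.H) (N : Matrix m n P.H) :
    ∀ᵐ θ ∂mu, P.dM (M * N) θ = P.dM M θ * N.map (P.val θ) + M.map (P.val θ) * P.dM N θ := by
  have h : ∀ i j, ∀ᵐ θ ∂mu, P.dM (M * N) θ i j =
      (P.dM M θ * N.map (P.val θ) + M.map (P.val θ) * P.dM N θ) i j := fun i j => by
    have h1 := Lp.coeFn_finsetSum Finset.univ fun k => P.der (M i k * N k j)
    filter_upwards [h1, ae_all_iff.2 fun k => P.der_mul (M i k) (N k j)] with θ h1 h2
    simp only [dM, Matrix.of_apply, Matrix.mul_apply, Matrix.add_apply, Matrix.map_apply, map_sum]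
    rw [h1, Finset.sum_apply, ← Finset.sum_add_distrib]
    exact Finset.sum_congr rfl fun k _ => by rw [h2 k]; ring
  filter_upwards [ae_all_iff.2 fun i => ae_all_iff.2 (h i)] with θ hθ
  exact Matrix.ext hθ

theorem dM_conjTranspose (M : Matrix m n P.H) : ∀ᵐ θ ∂mu, P.dM Mᴴ θ = (P.dM M θ)ᴴ := by
  filter_upwards [ae_all_iff.2 fun i => ae_all_iff.2 fun j => P.der_star (M i j)] with θ hθ
  ext i j
  exact hθ j i

theorem dM_one [DecidableEq n] : ∀ᵐ θ ∂mu, P.dM (1 : Matrix n n P.H) θ = 0 := by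
  filter_upwards [Lp.coeFn_zero ℂ 2 mu] with θ hθ
  ext i j
  have : P.der ((1 : Matrix n n P.H) i j) = 0 := by
    rw [Matrix.one_apply]
    split_ifs
    · exact P.der_one
    · exact map_zero _
  simp only [dM, Matrix.of_apply, this]
  exact hθ

theorem val_conjTranspose (M : Matrix m n P.H) (θ : ℝ) : Mᴴ.map (P.val θ) = (M.map (P.val θ))ᴴ := by
  ext i j
  exact P.val_star _ _

theorem integrable_dM (M : Matrix m n P.H) : Integrable (fun θ => fro (P.dM M θ)) mu :=
  integrable_finsetSum _ fun i _ => integrable_finsetSum _ fun j _ => fa_int_sq _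

theorem integral_dM (M : Matrix m n P.H) : ∫ θ, fro (P.dM M θ) ∂mu = P.nd M := by
  simp only [fro, nd, dM, Matrix.of_apply]
  rw [integral_finsetSum _ fun i _ => integrable_finsetSum _ fun j _ => fa_int_sq _]
  refine Finset.sum_congr rfl fun i _ => ?_
  rw [integral_finsetSum _ fun j _ => fa_int_sq _]
  exact Finset.sum_congr rfl fun j _ => fa_integral_sq _

theorem integrable_dd (x y z : P.H) : Integrable (fun θ => P.der x θ * P.der y θ * P.val θ z) mu :=
  ((Lp.memLp (P.der x)).integrable_mul (Lp.memLp (P.der y))).mul_bdd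
    (P.cont_val z).aestronglyMeasurable (ae_of_all _ fun θ => P.norm_val z θ)

theorem trace_orth (D E : Matrix n n P.A) :
    Integrable (fun θ => trace ((D.map P.ι).map (P.val θ) * P.dM (E.map P.ι) θ *
      ((D.map P.ι).map (P.val θ) * P.dM (E.map P.ι) θ))) mu ∧
    ∫ θ, trace ((D.map P.ι).map (P.val θ) * P.dM (E.map P.ι) θ *
      ((D.map P.ι).map (P.val θ) * P.dM (E.map P.ι) θ)) ∂mu = 0 := by
  have e : (fun θ => trace ((D.map P.ι).map (P.val θ) * P.dM (E.map P.ι) θ *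
      ((D.map P.ι).map (P.val θ) * P.dM (E.map P.ι) θ))) = fun θ => ∑ p : n × n × n × n,
        P.der (P.ι (E p.2.2.1 p.2.1)) θ * P.der (P.ι (E p.2.2.2 p.1)) θ *
          P.val θ (P.ι (D p.1 p.2.2.1 * D p.2.1 p.2.2.2)) := by
    funext θ
    simp only [trace, diag_apply, Matrix.mul_apply, Finset.sum_mul_sum, Fintype.sum_prod_type, dM,
      Matrix.of_apply, Matrix.map_apply, map_mul]
    refine Finset.sum_congr rfl fun i _ => Finset.sum_congr rfl fun j _ => Finset.sum_congr rfl fun k _ =>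
      Finset.sum_congr rfl fun k' _ => by ring
  rw [e]
  refine ⟨integrable_finsetSum _ fun p _ => P.integrable_dd _ _ _, ?_⟩
  rw [integral_finsetSum _ fun p _ => P.integrable_dd _ _ _]
  exact Finset.sum_eq_zero fun p _ => P.orth _ _ _

/-- The tame bound. -/
theorem tame {d : ℕ} {c : ℝ} (hc : 0 < c) {D E : Matrix (Fin d) (Fin d) P.A} (hDE : D * E = 1)
    (h : ∀ θ v, c * ‖v‖ ^ 2 ≤ qf (((D.map P.ι)ᴴ * D.map P.ι).map (P.val θ)) v) :
    (∀ θ, fro ((E.map P.ι).map (P.val θ)) ≤ d / c) ∧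
      P.nd (E.map P.ι) ≤ (d / c) ^ 3 / 2 * P.nd ((D.map P.ι)ᴴ * D.map P.ι) := by
  set D' := D.map P.ι with hD'
  set E' := E.map P.ι with hE'
  have h1 : D' * E' = 1 := by
    rw [hD', hE', ← Matrix.map_mul, hDE, Matrix.map_one _ (map_zero _) (map_one _)]
  have h2 : ∀ θ, D'.map (P.val θ) * E'.map (P.val θ) = 1 := fun θ => by
    rw [← Matrix.map_mul, h1, Matrix.map_one _ (map_zero _) (map_one _)]
  have h3 : ∀ θ, (D'ᴴ * D').map (P.val θ) = (D'.map (P.val θ))ᴴ * D'.map (P.val θ) := fun θ => by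
    rw [Matrix.map_mul, val_conjTranspose]
  have h4 : ∀ θ, fro (E'.map (P.val θ)) ≤ d / c := fun θ =>
    fro_inv_le (h2 θ) hc fun v => by rw [← h3]; exact h θ v
  have h5 : E'ᴴ * (D'ᴴ * D' * E') = 1 := by
    rw [Matrix.mul_assoc D'ᴴ, h1, Matrix.mul_one, ← conjTranspose_mul, h1, conjTranspose_one]
  refine ⟨h4, ?_⟩
  obtain ⟨i1, i2⟩ := P.trace_orth D E
  have i3 := (P.integrable_dM (D'ᴴ * D')).const_mul ((d / c) ^ 3 / 2)
  have i4 := i1.re.const_mul (d / c)
  have key := integral_mono_ae (P.integrable_dM E') (i3.sub i4) (by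
    filter_upwards [P.dM_mul E'ᴴ (D'ᴴ * D' * E'), P.dM_mul (D'ᴴ * D') E', P.dM_conjTranspose E',
      P.dM_one (n := Fin d)] with θ a1 a2 a3 a4
    rw [h5, a4, a2, a3, val_conjTranspose, Matrix.map_mul, h3] at a1
    exact fro_key (h2 θ) a1.symm (h4 θ))
  simp only [Pi.sub_apply] at key
  rw [integral_sub i3 i4, integral_const_mul, integral_const_mul, integral_re i1, i2, integral_dM,
    integral_dM] at key
  simpa using key

theorem proj_add' (x : P.H) : P.ι (P.proj x) + star (P.ι (P.proj (star x))) = x := by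
  have ha := P.proj_add (x + star x) (by rw [star_add, star_star, add_comm])
  have hb := P.proj_add (Complex.I • (x - star x)) (by
    rw [star_smul, star_sub, star_star, Complex.star_def, Complex.conj_I, neg_smul, ← smul_neg, neg_sub])
  simp only [map_add, map_smul, map_sub, star_add, star_smul, star_sub, Complex.star_def, Complex.conj_I,
    neg_smul, ← smul_neg, ← smul_add] at ha hb
  have hb' := smul_right_injective _ Complex.I_ne_zero hb
  refine smul_right_injective _ (two_ne_zero (α := ℂ)) ?_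
  simp only [two_smul]
  linear_combination ha + hb'

/-- Factorisation near the identity (inverse function theorem). -/
theorem near_one (d : ℕ) : ∃ δ : ℝ, 0 < δ ∧ ∀ S : Matrix (Fin d) (Fin d) P.H, Sᴴ = S → (∀ i j, ‖S i j‖ ≤ δ) →
    ∃ D E : Matrix (Fin d) (Fin d) P.A, D * E = 1 ∧ (D.map P.ι)ᴴ * D.map P.ι = 1 + S := by
  let ιL : P.A →L[ℝ] P.H :=
    (P.ι.toLinearMap.mkContinuous 1 fun a => by simp [P.norm_ι]).restrictScalars ℝ
  let q : (Fin d → Fin d → P.A) → Fin d → Fin d → P.A :=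
    fun X i j => P.proj (∑ k, star (P.ι (X k i)) * P.ι (X k j))
  have hι : ∀ i j, HasStrictFDerivAt (fun X : Fin d → Fin d → P.A => P.ι (X i j))
      (ιL.comp ((ContinuousLinearMap.proj j).comp
        (ContinuousLinearMap.proj (R := ℝ) (φ := fun _ : Fin d => Fin d → P.A) i))) 0 := fun i j =>
    (ιL.comp ((ContinuousLinearMap.proj j).comp
        (ContinuousLinearMap.proj (R := ℝ) (φ := fun _ : Fin d => Fin d → P.A) i))).hasStrictFDerivAt
  have hq : HasStrictFDerivAt q (0 : (Fin d → Fin d → P.A) →L[ℝ] Fin d → Fin d → P.A) 0 := by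
    refine hasStrictFDerivAt_pi'' fun i => hasStrictFDerivAt_pi'' fun j => ?_
    have h1 := (P.proj.restrictScalars ℝ).hasStrictFDerivAt.comp (0 : Fin d → Fin d → P.A)
      (HasStrictFDerivAt.fun_sum (u := Finset.univ) fun k _ =>
        (((starL' ℝ : P.H ≃L[ℝ] P.H) : P.H →L[ℝ] P.H).hasStrictFDerivAt.comp 0 (hι k i)).fun_mul (hι k j))
    refine h1.congr_fderiv ?_
    ext X
    simp
  have hf : HasStrictFDerivAt (fun X => X + q X)
      ((ContinuousLinearEquiv.refl ℝ (Fin d → Fin d → P.A) : _ ≃L[ℝ] _) : _ →L[ℝ] _) 0 := by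
    simpa using (hasStrictFDerivAt_id (0 : Fin d → Fin d → P.A)).fun_add hq
  have h0 : (fun X => X + q X) 0 = 0 := by
    funext i j
    simp [q]
  have hu : ∀ᶠ X : Fin d → Fin d → P.A in 𝓝 0, IsUnit (1 + Matrix.of X).det := by
    have hc : Continuous fun X : Fin d → Fin d → P.A => (1 + Matrix.of X).det :=
      (continuous_const.add (continuous_id : Continuous fun X : Matrix (Fin d) (Fin d) P.A => X)).matrix_det
    refine hc.continuousAt.eventually (Units.isOpen.mem_nhds ?_)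
    have : Matrix.of (0 : Fin d → Fin d → P.A) = 0 := rfl
    simp [this]
  have h1 : ∀ᶠ Y in 𝓝 (0 : Fin d → Fin d → P.A), ∃ X, IsUnit (1 + Matrix.of X).det ∧ X + q X = Y := by
    rw [← h0, ← hf.map_nhds_eq_of_equiv]
    exact hu.mono fun X hX => ⟨X, hX, rfl⟩
  have hp : Tendsto (fun (S : Fin d → Fin d → P.H) i j => P.proj (S i j)) (𝓝 0) (𝓝 0) := by
    refine Continuous.tendsto' (by fun_prop) _ _ ?_
    funext i j
    simp
  obtain ⟨δ, hδ, h2⟩ := Metric.nhds_basis_closedBall.eventually_iff.1 (hp.eventually h1)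
  refine ⟨δ, hδ, fun S hS hn => ?_⟩
  obtain ⟨X, hX, e⟩ := h2 (x := fun i j => S i j) (mem_closedBall_zero_iff.2
    ((pi_norm_le_iff_of_nonneg hδ.le).2 fun i => (pi_norm_le_iff_of_nonneg hδ.le).2 fun j => hn i j))
  refine ⟨1 + Matrix.of X, (1 + Matrix.of X)⁻¹, Matrix.mul_nonsing_inv _ hX, ?_⟩
  set X' := (Matrix.of X).map P.ι with hX'
  have e1 : ∀ i j, X i j = P.proj ((S - X'ᴴ * X') i j) := fun i j => by
    have := congrFun (congrFun e i) j
    rw [Matrix.sub_apply, map_sub, ← this]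
    exact (add_sub_cancel_right _ _).symm
  have hW : (S - X'ᴴ * X')ᴴ = S - X'ᴴ * X' := by
    rw [conjTranspose_sub, hS, conjTranspose_mul, conjTranspose_conjTranspose]
  have e2 : X' + X'ᴴ = S - X'ᴴ * X' := by
    ext i j
    have h3 : (S - X'ᴴ * X') j i = star ((S - X'ᴴ * X') i j) := by
      conv_lhs => rw [← hW]
      rfl
    rw [← P.proj_add' ((S - X'ᴴ * X') i j), ← h3, ← e1, ← e1]
    rfl
  have e3 : (1 + Matrix.of X).map P.ι = 1 + X' := by
    rw [Matrix.map_add _ (map_add P.ι), Matrix.map_one _ (map_zero _) (map_one _)]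
  rw [e3, conjTranspose_add, conjTranspose_one, Matrix.add_mul, Matrix.one_mul, Matrix.mul_add, Matrix.mul_one,
    add_assoc, ← add_assoc X', e2, sub_add_cancel]

theorem nd_entry (M : Matrix m n P.H) (i : m) (j : n) : ‖P.der (M i j)‖ ^ 2 ≤ P.nd M :=
  (Finset.single_le_sum (f := fun j => ‖P.der (M i j)‖ ^ 2) (fun _ _ => by positivity) (Finset.mem_univ j)).trans
    (Finset.single_le_sum (f := fun i => ∑ j, ‖P.der (M i j)‖ ^ 2) (fun _ _ => by positivity) (Finset.mem_univ i))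

theorem norm_conj_entry (E M : Matrix n n P.H) {B : ℝ} (hE : ∀ i j, ‖E i j‖ ≤ B) (i j : n) :
    ‖(Eᴴ * M * E) i j‖ ≤ B ^ 2 * ∑ k, ∑ k', ‖M k k'‖ := by
  have B0 : 0 ≤ B := (norm_nonneg _).trans (hE i j)
  simp only [Matrix.mul_apply, Finset.sum_mul, Finset.mul_sum, conjTranspose_apply]
  rw [Finset.sum_comm]
  refine (norm_sum_le _ _).trans (Finset.sum_le_sum fun k _ => (norm_sum_le _ _).trans
    (Finset.sum_le_sum fun k' _ => ?_))
  refine (norm_mul_le _ _).trans ((mul_le_mul ((norm_mul_le _ _).trans (mul_le_mul_of_nonneg_right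
    ((P.norm_star _).trans_le (hE k i)) (norm_nonneg _))) (hE k' j) (norm_nonneg _) (by positivity)).trans
      (le_of_eq (by ring)))

/-- The continuity method. -/
theorem fact_exists {d : ℕ} {c : ℝ} (hc : 0 < c) {γ : Matrix (Fin d) (Fin d) P.H} (hγ : γᴴ = γ)
    (h : ∀ θ v, c * ‖v‖ ^ 2 ≤ qf (γ.map (P.val θ)) v) :
    ∃ D E : Matrix (Fin d) (Fin d) P.A, D * E = 1 ∧ (D.map P.ι)ᴴ * D.map P.ι = γ := by
  obtain ⟨δ, hδ, hnear⟩ := P.near_one d
  have hc' : 0 < min c 1 := lt_min hc one_pos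
  let g : ℝ → Matrix (Fin d) (Fin d) P.H := fun t => 1 + (t : ℂ) • (γ - 1)
  have gq : ∀ t ∈ Icc (0 : ℝ) 1, ∀ θ v, min c 1 * ‖v‖ ^ 2 ≤ qf ((g t).map (P.val θ)) v := fun t ht θ v => by
    have e1 : (g t).map (P.val θ) = 1 + (t : ℂ) • (γ.map (P.val θ) - 1) := by
      ext i j
      simp only [g, Matrix.map_apply, Matrix.add_apply, Matrix.smul_apply, Matrix.sub_apply, map_add, map_smul,
        map_sub, Matrix.one_apply, apply_ite (P.val θ), map_one, map_zero]
    have e2 : (star v.ofLp ⬝ᵥ v.ofLp).re = ‖v‖ ^ 2 := by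
      rw [EuclideanSpace.norm_sq_eq]
      simp [dotProduct, Complex.sq_norm, Complex.normSq_apply]
    have e3 : qf ((g t).map (P.val θ)) v = ‖v‖ ^ 2 + t * (qf (γ.map (P.val θ)) v - ‖v‖ ^ 2) := by
      rw [e1, qf, qf, add_mulVec, smul_mulVec, sub_mulVec, one_mulVec, dotProduct_add, dotProduct_smul,
        dotProduct_sub, Complex.add_re, smul_eq_mul, Complex.re_ofReal_mul, Complex.sub_re, e2]
    have h1 := h θ v
    have h2 : min c 1 * ‖v‖ ^ 2 ≤ c * ‖v‖ ^ 2 := by gcongr; exact min_le_left _ _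
    have h3 : min c 1 * ‖v‖ ^ 2 ≤ 1 * ‖v‖ ^ 2 := by gcongr; exact min_le_right _ _
    rw [e3]
    nlinarith [ht.1, ht.2]
  have gn : ∀ t ∈ Icc (0 : ℝ) 1, P.nd (g t) ≤ P.nd γ := fun t ht => by
    refine Finset.sum_le_sum fun i _ => Finset.sum_le_sum fun j _ => pow_le_pow_left₀ (norm_nonneg _) ?_ 2
    have e1 : P.der ((1 : Matrix (Fin d) (Fin d) P.H) i j) = 0 := by
      rw [Matrix.one_apply]
      split_ifs
      · exact P.der_one
      · exact map_zero _
    simp only [g, Matrix.add_apply, Matrix.smul_apply, Matrix.sub_apply, map_add, map_smul, map_sub, e1, zero_add,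
      sub_zero, norm_smul, Complex.norm_real, Real.norm_of_nonneg ht.1]
    exact mul_le_of_le_one_left (norm_nonneg _) ht.2
  set B : ℝ := √(d / min c 1) + √((d / min c 1) ^ 3 / 2 * P.nd γ) with hB
  set M : ℝ := B ^ 2 * ∑ k, ∑ k', ‖(γ - 1) k k'‖ with hM
  obtain ⟨N, hN⟩ := exists_nat_ge (M / δ)
  have hN0 : (0 : ℝ) < N + 1 := by positivity
  have key : ∀ k : ℕ, k ≤ N + 1 → ∃ D E : Matrix (Fin d) (Fin d) P.A, D * E = 1 ∧
      (D.map P.ι)ᴴ * D.map P.ι = g (k / (N + 1)) := by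
    intro k
    induction k with
    | zero =>
      intro _
      exact ⟨1, 1, Matrix.mul_one _, by simp [g, Matrix.map_one _ (map_zero P.ι) (map_one P.ι)]⟩
    | succ k ih =>
      intro hk
      obtain ⟨D, E, hDE, hD⟩ := ih (by omega)
      have ht : (k : ℝ) / (N + 1) ∈ Icc (0 : ℝ) 1 :=
        ⟨by positivity, (div_le_one hN0).2 (by exact_mod_cast (by omega : k ≤ N + 1))⟩
      obtain ⟨t1, t2⟩ := P.tame hc' hDE (by rw [hD]; exact gq _ ht)
      rw [hD] at t2
      have hE : ∀ i j, ‖E.map P.ι i j‖ ≤ B := fun i j => by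
        refine (P.norm_le _ _ fun θ => Real.le_sqrt_of_sq_le ((fro_entry _ i j).trans (t1 θ))).trans ?_
        refine add_le_add le_rfl (Real.le_sqrt_of_sq_le ((P.nd_entry _ i j).trans (t2.trans ?_)))
        exact mul_le_mul_of_nonneg_left (gn _ ht) (by positivity)
      set D' := D.map P.ι with hD'
      set E' := E.map P.ι with hE'
      have h1 : E' * D' = 1 := by
        rw [hD', hE', ← Matrix.map_mul, mul_eq_one_comm.1 hDE, Matrix.map_one _ (map_zero _) (map_one _)]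
      have h2 : D'ᴴ * E'ᴴ = 1 := by rw [← conjTranspose_mul, h1, conjTranspose_one]
      obtain ⟨D₁, E₁, a1, a2⟩ := hnear (((1 / (N + 1) : ℝ) : ℂ) • (E'ᴴ * (γ - 1) * E')) (by
        rw [conjTranspose_smul, conjTranspose_mul, conjTranspose_mul, conjTranspose_conjTranspose,
          conjTranspose_sub, hγ, conjTranspose_one, Complex.star_def, Complex.conj_ofReal, Matrix.mul_assoc])
        fun i j => by
          rw [Matrix.smul_apply, norm_smul, Complex.norm_real, Real.norm_of_nonneg (by positivity), one_div,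
            inv_mul_le_iff₀ hN0]
          refine (P.norm_conj_entry _ _ hE i j).trans ?_
          rw [div_le_iff₀ hδ] at hN
          nlinarith
      refine ⟨D₁ * D, E * E₁, by rw [Matrix.mul_assoc, ← Matrix.mul_assoc D, hDE, Matrix.one_mul, a1], ?_⟩
      rw [Matrix.map_mul, conjTranspose_mul, ← hD', Matrix.mul_assoc, ← Matrix.mul_assoc _ _ D', a2,
        Matrix.add_mul, Matrix.one_mul, Matrix.mul_add, hD, Matrix.smul_mul, Matrix.mul_smul, Matrix.mul_assoc,
        h1, Matrix.mul_one, ← Matrix.mul_assoc, h2, Matrix.one_mul]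
      simp only [g]
      rw [add_assoc, ← add_smul]
      congr 2
      push_cast
      ring
  obtain ⟨D, E, h1, h2⟩ := key (N + 1) le_rfl
  refine ⟨D, E, h1, h2.trans ?_⟩
  have : ((N + 1 : ℕ) : ℝ) / (N + 1) = 1 := by push_cast; exact div_self hN0.ne'
  rw [this]
  simp [g]

end HA

end Crest.Agent.R269
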