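import Crest.Agent.R269.C.Fact

/-!
# Row 269, block C3: projectors, frames, Plücker lifts (statements FROZEN; recipe in Blueprint.lean, C3)
-/

set_option autoImplicit false
set_option linter.unusedSectionVars false
set_option linter.unusedVariables false

noncomputable section

namespace Crest.Agent.R269

open Set Metric Filter Topology MeasureTheory Matrix
open Crest.AlgGeometry.ProjEmb
open scoped InnerProductSpace ContDiff

namespace HA

variable (P : HA) {N n : ℕ} {X : Geo N n}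

theorem frame1_bez {G : Fin (N + 1) → P.A} (hG : P.InY X G)
    (δ : X.Fi × (Fin (n + 1) → Fin (N + 1)) → MvPolynomial (Fin (N + 1)) ℂ)
    (hδ : ∀ i y, R269.ev (δ i) y = X.dl i.1 (sel i.2) y) :
    ∃ a : X.Fi × (Fin (n + 1) → Fin (N + 1)) → P.A, ∑ i, a i * MvPolynomial.aeval G (δ i) = 1 := by
  refine P.bezout _ fun z hz => ?_
  obtain ⟨f, hf⟩ := X.exists_dv_ne (hG z hz)
  by_contra h
  push Not at h
  refine hf ?_
  ext β
  have := h (f, β)
  rwa [P.ev_aeval, hδ] at this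

/-- `bezout` for the `δ_{fβ}(G)`, `exists_proj_poly`. -/
theorem exists_PQ {G : Fin (N + 1) → P.A} (hG : P.InY X G) :
    ∃ (Pr : Matrix (Fin (N + 1)) (Fin (N + 1)) P.A) (Q : Matrix (Fin (N + 1)) (Fin X.k) P.A),
      Pr + Q * P.JA X G = 1 ∧ P.JA X G * Pr = 0 := by
  choose Pm Qm δ h1 h2 h3 using fun i : X.Fi × (Fin (n + 1) → Fin (N + 1)) =>
    X.exists_proj_poly i.1 (sel i.2)
  obtain ⟨a, ha⟩ := P.frame1_bez hG δ h1
  refine ⟨∑ i, a i • (Pm i).map (MvPolynomial.aeval G), ∑ i, a i • (Qm i).map (MvPolynomial.aeval G),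
    ?_, ?_⟩
  · have e : ∀ i, (Pm i).map (MvPolynomial.aeval G) + (Qm i).map (MvPolynomial.aeval G) * P.JA X G =
        MvPolynomial.aeval G (δ i) • (1 : Matrix _ _ P.A) := fun i => by
      ext r s
      have := congrArg (MvPolynomial.aeval G) (congrFun (congrFun (h2 i) r) s)
      simp only [Matrix.add_apply, Matrix.mul_apply, map_add, map_sum, map_mul, Matrix.of_apply,
        Matrix.smul_apply, smul_eq_mul] at this
      simp only [Matrix.add_apply, Matrix.mul_apply, Matrix.map_apply, Matrix.smul_apply, smul_eq_mul,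
        JA]
      rw [this, Matrix.one_apply, Matrix.one_apply]
      split_ifs <;> simp
    rw [Matrix.sum_mul, ← Finset.sum_add_distrib]
    simp only [Matrix.smul_mul, ← smul_add, e, smul_smul]
    rw [← Finset.sum_smul, ha, one_smul]
  · have e : ∀ i, P.JA X G * (Pm i).map (MvPolynomial.aeval G) = 0 := fun i => by
      ext r s
      refine P.ext_ev fun z hz => ?_
      have := congrFun (congrFun (h3 i _ (hG z hz)) r) s
      rw [← P.JA_map] at this
      simp only [Matrix.mul_apply, Matrix.map_apply, Matrix.zero_apply] at this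
      simp only [Matrix.mul_apply, Matrix.map_apply, Matrix.zero_apply, map_sum, map_mul, map_zero,
        P.ev_aeval]
      exact this
    rw [Matrix.mul_sum]
    simp only [Matrix.mul_smul, e, smul_zero, Finset.sum_const_zero]

/-- idempotents along a continuous path are similar -/
theorem fr2_path {R : Type} [NormedCommRing R] [CompleteSpace R] {m : ℕ} {T : Type} [TopologicalSpace T]
    [PreconnectedSpace T] (Q : T → Matrix (Fin m) (Fin m) R) (hc : Continuous Q)
    (hQ : ∀ r, Q r * Q r = Q r) (r s : T) :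
    ∃ S S' : Matrix (Fin m) (Fin m) R, S * S' = 1 ∧ Q r * S = S * Q s := by
  refine PreconnectedSpace.induction₂'
    (fun r s => ∃ S S' : Matrix (Fin m) (Fin m) R, S * S' = 1 ∧ Q r * S = S * Q s) (fun x => ?_)
    ⟨?_⟩ r s
  · have h1 : Continuous fun y => (Q y * Q x + (1 - Q y) * (1 - Q x)).det :=
      ((hc.matrix_mul continuous_const).add
        ((continuous_const.sub hc).matrix_mul continuous_const)).matrix_det
    have h2 : IsUnit (Q x * Q x + (1 - Q x) * (1 - Q x)).det := by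
      have : Q x * Q x + (1 - Q x) * (1 - Q x) = 1 := by
        rw [sub_mul, mul_sub, mul_sub, hQ]
        simp
      rw [this, det_one]
      exact isUnit_one
    filter_upwards [h1.continuousAt.eventually_mem (Units.isOpen.mem_nhds h2)] with y hy
    obtain ⟨u, hu⟩ := (isUnit_iff_isUnit_det _).2 hy
    have h3 : Q y * (u : Matrix (Fin m) (Fin m) R) = u * Q x := by
      rw [hu, mul_add, add_mul, ← mul_assoc, ← mul_assoc, mul_assoc (Q y) (Q x), mul_assoc (1 - Q y),
        mul_sub (Q y), sub_mul 1 (Q x), hQ, hQ]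
      simp
    refine ⟨⟨(u⁻¹ : (Matrix (Fin m) (Fin m) R)ˣ), u, u.inv_mul, ?_⟩, u,
      (u⁻¹ : (Matrix (Fin m) (Fin m) R)ˣ), u.mul_inv, h3⟩
    rw [Units.mul_inv_eq_iff_eq_mul, mul_assoc, h3, Units.inv_mul_cancel_left]
  · rintro a b c ⟨S, S', h1, h2⟩ ⟨U, U', h3, h4⟩
    refine ⟨S * U, U' * S', ?_, ?_⟩
    · rw [mul_assoc, ← mul_assoc U, h3, one_mul, h1]
    · rw [← mul_assoc, h2, mul_assoc, h4, mul_assoc]

/-- An idempotent matrix over `A` is similar to a constant one (chain of intertwiners along the dilations; compactness of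
`[0,1]`, or: the set of `r` for which `Π_r` is similar to `Π_0` is open and closed). -/
theorem idem_similar {m : ℕ} {Pr : Matrix (Fin m) (Fin m) P.A} (h : Pr * Pr = Pr) :
    ∃ S S' : Matrix (Fin m) (Fin m) P.A, S * S' = 1 ∧ Pr * S = S * (Pr.map (P.ev 0)).map (algebraMap ℂ P.A) := by
  have : PreconnectedSpace (Icc (0 : ℝ) 1) := Subtype.preconnectedSpace isPreconnected_Icc
  obtain ⟨S, S', h1, h2⟩ := fr2_path (fun r : Icc (0 : ℝ) 1 => Pr.map (P.dil r))
    (continuous_matrix fun i j => (P.cont_dil (Pr i j)).domRestrict)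
    (fun r => by rw [← Matrix.map_mul (f := P.dil r), h]) ⟨1, by simp⟩ ⟨0, by simp⟩
  refine ⟨S, S', h1, ?_⟩
  have e1 : Pr.map (P.dil 1) = Pr := by
    ext i j
    exact P.dil_one _
  have e0 : Pr.map (P.dil 0) = (Pr.map (P.ev 0)).map (algebraMap ℂ P.A) := by
    ext i j
    exact P.dil_zero _
  rw [← e0]
  conv_lhs => rw [← e1]
  exact h2

theorem exists_frameA {G : Fin (N + 1) → P.A} (hG : P.InY X G) : ∃ U, P.FrameA X G U := by
  obtain ⟨Pr, Q, h1, h2⟩ := P.exists_PQ hG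
  have h3 : Pr * Pr = Pr := by
    conv_rhs => rw [← Matrix.one_mul Pr, ← h1, Matrix.add_mul, Matrix.mul_assoc, h2, Matrix.mul_zero,
      add_zero]
  obtain ⟨S, S', hS, hS'⟩ := P.idem_similar h3
  obtain ⟨U₀, hU, hU'⟩ := X.exists_frame (hG 0 (mem_closedBall_self zero_le_one))
  have hm : ∀ (z : ℂ) {a b c : Type} [Fintype b] (M : Matrix a b P.A) (M' : Matrix b c P.A),
      (M * M').map (P.ev z) = M.map (P.ev z) * M'.map (P.ev z) := fun z _ _ _ _ M M' =>
    Matrix.map_mul (f := (P.ev z : P.A →+* ℂ))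
  have hc : ∀ (z : ℂ) {a b : Type} (M : Matrix a b ℂ),
      (M.map (algebraMap ℂ P.A)).map (P.ev z) = M := fun z _ _ M => by
    ext i j; simp
  have h4 : Pr.map (P.ev 0) * U₀ = U₀ := by
    have e : Pr.map (P.ev 0) + Q.map (P.ev 0) * X.J (P.evV 0 G) = 1 := by
      rw [← P.JA_map, ← hm, ← Matrix.map_add _ (map_add _), h1,
        Matrix.map_one _ (map_zero _) (map_one _)]
    conv_rhs => rw [← Matrix.one_mul U₀, ← e, Matrix.add_mul, Matrix.mul_assoc, hU, Matrix.mul_zero,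
      add_zero]
  refine ⟨S * U₀.map (algebraMap ℂ P.A), fun z hz => ⟨?_, ?_⟩⟩
  · have e1 := congrArg (fun M => M.map (P.ev z)) hS'
    have e2 := congrArg (fun M => M.map (P.ev z)) h2
    simp only [hm, hc, P.JA_map] at e1 e2
    rw [hm, hc, ← h4, ← Matrix.mul_assoc (S.map _), ← e1, ← Matrix.mul_assoc, ← Matrix.mul_assoc, e2,
      Matrix.map_zero _ (map_zero _), Matrix.zero_mul, Matrix.zero_mul]
  · have e1 := congrArg (fun M => M.map (P.ev z)) (mul_eq_one_comm.1 hS)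
    simp only [hm, Matrix.map_one _ (map_zero (P.ev z)) (map_one _)] at e1
    intro v w h
    rw [hm, hc] at h
    have e2 := congrArg (fun u => S'.map (P.ev z) *ᵥ u) h
    simp only [Matrix.mulVec_mulVec, ← Matrix.mul_assoc, e1, Matrix.one_mul] at e2
    exact hU' e2

theorem fr2_qf {k d : ℕ} (B : Matrix (Fin k) (Fin d) ℂ) (v : Cn d) :
    qf (Bᴴ * B) v = ‖(WithLp.toLp 2 (B *ᵥ v.ofLp) : Cn k)‖ ^ 2 := by
  rw [qf, ← mulVec_mulVec, dotProduct_mulVec, ← star_mulVec, EuclideanSpace.norm_sq_eq, dotProduct,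
    Complex.re_sum]
  refine Finset.sum_congr rfl fun i _ => ?_
  rw [Pi.star_apply, Complex.star_def, Complex.conj_mul']
  norm_cast

theorem fr2_bounds {k d : ℕ} {K : Set ℂ} (hK : IsCompact K) {B : ℂ → Matrix (Fin k) (Fin d) ℂ}
    (hB : ContinuousOn B K) (hi : ∀ z ∈ K, Function.Injective (B z).mulVec) :
    ∃ c C : ℝ, 0 < c ∧ ∀ z ∈ K, ∀ v : Cn d,
      c * ‖v‖ ^ 2 ≤ qf ((B z)ᴴ * B z) v ∧ qf ((B z)ᴴ * B z) v ≤ C * ‖v‖ ^ 2 := by
  let g : ℂ × Cn d → ℝ := fun p => ‖(WithLp.toLp 2 (B p.1 *ᵥ p.2.ofLp) : Cn k)‖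
  have hcpt : IsCompact (K ×ˢ sphere (0 : Cn d) 1) := hK.prod (isCompact_sphere 0 1)
  have hg : ContinuousOn g (K ×ˢ sphere (0 : Cn d) 1) := by
    have h1 : Continuous fun p : Matrix (Fin k) (Fin d) ℂ × Cn d =>
        ‖(WithLp.toLp 2 (p.1 *ᵥ p.2.ofLp) : Cn k)‖ :=
      ((PiLp.continuous_toLp 2 _).comp (continuous_fst.matrix_mulVec
        ((PiLp.continuous_ofLp 2 _).comp continuous_snd))).norm
    have h2 : ContinuousOn (fun p : ℂ × Cn d => (B p.1, p.2)) (K ×ˢ sphere (0 : Cn d) 1) :=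
      (hB.comp continuousOn_fst fun p hp => hp.1).prodMk continuousOn_snd
    exact (h1.comp_continuousOn h2).congr fun p _ => rfl
  have hpos : ∀ p ∈ K ×ˢ sphere (0 : Cn d) 1, 0 < g p := by
    rintro ⟨z, v⟩ ⟨hz, hv⟩
    refine norm_pos_iff.2 fun h0 => ?_
    have h1 : B z *ᵥ v.ofLp = B z *ᵥ 0 := by
      rw [mulVec_zero]
      exact congrArg WithLp.ofLp h0
    have h2 : v = 0 := by
      ext i
      exact congrFun (hi z hz h1) i
    rw [h2] at hv
    simp at hv
  obtain ⟨c, hc, hc'⟩ := hcpt.exists_forall_le' hg hpos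
  obtain ⟨C, hC⟩ := hcpt.bddAbove_image hg
  refine ⟨c ^ 2, C ^ 2, by positivity, fun z hz v => ?_⟩
  rw [fr2_qf]
  by_cases hv : v = 0
  · subst hv
    simp
  have hn : 0 < ‖v‖ := norm_pos_iff.2 hv
  have hw : (z, ((‖v‖⁻¹ : ℝ) : ℂ) • v) ∈ K ×ˢ sphere (0 : Cn d) 1 := by
    refine ⟨hz, ?_⟩
    simp [norm_smul, hn.ne']
  have he : ‖(WithLp.toLp 2 (B z *ᵥ v.ofLp) : Cn k)‖ = g (z, ((‖v‖⁻¹ : ℝ) : ℂ) • v) * ‖v‖ := by
    simp only [g, WithLp.ofLp_smul, mulVec_smul, WithLp.toLp_smul, norm_smul, Complex.norm_real,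
      norm_inv, norm_norm]
    field_simp
  have h1 := hc' _ hw
  have h2 := hC ⟨_, hw, rfl⟩
  rw [he, mul_pow]
  constructor
  · gcongr
  · have := (hpos _ hw).le
    gcongr

/-- `fact` for `U₀ᴴ U₀` (positive definite on the circle, compactness). -/
theorem exists_onframe {G : Fin (N + 1) → P.A} (hG : P.InY X G) :
    ∃ U, P.FrameA X G U ∧ (U.map P.ι)ᴴ * U.map P.ι = 1 := by
  obtain ⟨U, hU⟩ := P.exists_frameA hG
  obtain ⟨c, C, hc, hb⟩ := fr2_bounds (isCompact_closedBall (0 : ℂ) 1) (B := fun z => U.map (P.ev z))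
    (continuousOn_pi.2 fun i => continuousOn_pi.2 fun j => by
      have h := (P.ev_diff (U i j)).continuousOn
      rw [closure_ball _ one_ne_zero] at h
      exact h)
    (fun z hz => (hU z hz).2)
  obtain ⟨K, -, hK⟩ := P.fact (n + 1) hc C
  obtain ⟨D, E, hDE, hD, -⟩ := hK ((U.map P.ι)ᴴ * U.map P.ι)
    (by rw [conjTranspose_mul, conjTranspose_conjTranspose]) (fun θ v => by
      have e : ((U.map P.ι)ᴴ * U.map P.ι).map (P.val θ) =
          (U.map (P.ev (circleMap 0 1 θ)))ᴴ * U.map (P.ev (circleMap 0 1 θ)) := by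
        ext i j
        simp only [map_apply, mul_apply, conjTranspose_apply, map_sum, map_mul, P.val_star, P.ev_val]
      rw [e]
      exact hb _ (circleMap_mem_closedBall 0 zero_le_one θ) v)
  refine ⟨U * E, fun z hz => ?_, ?_⟩
  · rw [Matrix.map_mul (f := P.ev z)]
    refine ⟨by rw [← Matrix.mul_assoc, (hU z hz).1, Matrix.zero_mul], fun a b hab => ?_⟩
    rw [← mulVec_mulVec, ← mulVec_mulVec] at hab
    have h1 := congrArg (D.map (P.ev z)).mulVec ((hU z hz).2 hab)
    rwa [mulVec_mulVec, mulVec_mulVec, ← Matrix.map_mul (f := P.ev z), hDE,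
      Matrix.map_one _ (map_zero _) (map_one _), one_mulVec, one_mulVec] at h1
  · have h1 : D.map P.ι * E.map P.ι = 1 := by
      rw [← Matrix.map_mul (f := P.ι), hDE, Matrix.map_one _ (map_zero _) (map_one _)]
    rw [Matrix.map_mul (f := P.ι), conjTranspose_mul, Matrix.mul_assoc,
      ← Matrix.mul_assoc (U.map P.ι)ᴴ, ← hD, Matrix.mul_assoc, h1, Matrix.mul_one,
      ← conjTranspose_mul, h1, conjTranspose_one]

/-- `b_f = ∑_β a_{fβ} p_β`, `p = plU U` (`exists_mu`). -/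
theorem exists_lift {G : Fin (N + 1) → P.A} (hG : P.InY X G) :
    ∃ b : X.Fi → P.A, ∀ z ∈ closedBall (0 : ℂ) 1, ∑ f, P.ev z (b f) • X.dv f (P.evV z G) ≠ 0 := by
  choose δ _ hδ using fun i : X.Fi × (Fin (n + 1) → Fin (N + 1)) => X.exists_dl_poly i.1 (sel i.2)
  obtain ⟨a, ha⟩ := P.frame1_bez hG δ hδ
  obtain ⟨U, hU⟩ := P.exists_frameA hG
  obtain ⟨p, e1⟩ : ∃ p : (Fin (n + 1) → Fin (N + 1)) → P.A, ∀ z β,
      P.ev z (p β) = (sel β * U.map (P.ev z)).det := by
    refine ⟨fun β => ((sel β).map (algebraMap ℂ P.A) * U).det, fun z β => ?_⟩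
    rw [AlgHom.map_det, AlgHom.mapMatrix_apply]
    congr 1
    ext i j
    rw [Matrix.map_apply, Matrix.mul_apply, Matrix.mul_apply, map_sum]
    simp
  refine ⟨fun f => ∑ β, a (f, β) * p β, fun z hz => ?_⟩
  obtain ⟨μ, -, hμ⟩ := X.exists_mu (hG z hz) (hU z hz)
  have e2 : ∀ f, X.dv f (P.evV z G) = μ f • plU (U.map (P.ev z)) := fun f => by
    ext β
    exact hμ f (sel β)
  have e3 := congrArg (P.ev z) ha
  simp only [map_sum, map_mul, P.ev_aeval, hδ, hμ, map_one, Fintype.sum_prod_type] at e3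
  simp only [map_sum, map_mul, e1, e2, smul_smul]
  rw [← Finset.sum_smul]
  have e4 : ∑ f, (∑ β, P.ev z (a (f, β)) * (sel β * U.map (P.ev z)).det) * μ f = 1 := by
    rw [← e3]
    refine Finset.sum_congr rfl fun f _ => ?_
    rw [Finset.sum_mul]
    exact Finset.sum_congr rfl fun β _ => by ring
  rw [e4, one_smul]
  exact X.plU_ne (hU z hz)

theorem exists_rep {G : Fin (N + 1) → P.A} (hG : P.InY X G) : ∃ d : X.Disc, P.Rep d G := by
  obtain ⟨b, hb⟩ := P.exists_lift hG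
  obtain ⟨d, hd, -⟩ := P.exists_disc hG hb
  exact ⟨d, fun z _ => hd z⟩

theorem TB_eq_plU (U : Matrix (Fin (N + 1)) (Fin (n + 1)) P.A) (z : ℂ) :
    plU (U.map (P.ev z)) = P.evV z fun β => ((sel β).map (algebraMap ℂ P.A) * U).det := by
  ext β
  have : ((sel β).map (algebraMap ℂ P.A)).map (P.ev z) = sel β := by
    ext a i
    simp
  simp only [plU, evV, AlgHom.map_det, AlgHom.mapMatrix_apply, Matrix.map_mul, this]

/-- `TB_congr` with the lift `plU U`, `norm_plU_sq`. -/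
theorem TB_eq {d : X.Disc} {G} (h : P.Rep d G) {U} (hU : P.FrameA X G U) :
    d.TB = ∫ θ, Real.log (gram (U.map (P.ev (circleMap 0 1 θ)))) ∂mu - Real.log (gram (U.map (P.ev 0))) := by
  have hY : ∀ z ∈ closedBall (0 : ℂ) 1, P.evV z G ∈ X.Y := h.inY
  have hne : ∀ z ∈ closedBall (0 : ℂ) 1, plU (U.map (P.ev z)) ≠ 0 := fun z hz => Geo.plU_ne _ (hU z hz)
  let q : (Fin (n + 1) → Fin (N + 1)) → P.A := fun β => ((sel β).map (algebraMap ℂ P.A) * U).det
  have hq : ∀ z, P.evV z q = plU (U.map (P.ev z)) := fun z => (P.TB_eq_plU U z).symm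
  let d' : X.Disc :=
    { G := d.G, p := fun z => P.evV z q, hG := d.hG, hp := P.diffContOnCl_evV q, memY := d.memY
      memP := fun z hz => by
        rw [hq, h z hz, X.pl_eq (hY z hz) (hU z hz)]
        exact Submodule.mem_span_singleton_self _
      neP := fun z hz => by rw [hq]; exact hne z hz }
  have hf : ((n + 1).factorial : ℝ) ≠ 0 := by positivity
  have e : ∀ z ∈ closedBall (0 : ℂ) 1, Real.log (gram (U.map (P.ev z))) =
      Real.log (‖P.evV z q‖ ^ 2) - Real.log (n + 1).factorial := fun z hz => by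
    rw [hq, norm_plU_sq, Real.log_mul hf (gram_pos (hU z hz).2).ne']
    ring
  have hm : ∀ θ, circleMap 0 1 θ ∈ closedBall (0 : ℂ) 1 := fun θ => circleMap_mem_closedBall 0 zero_le_one θ
  have hi : Integrable (fun θ => Real.log (‖P.evV (circleMap 0 1 θ) q‖ ^ 2)) mu :=
    integrable_mu (((P.continuous_valV q).norm.pow 2).log fun θ =>
      pow_ne_zero 2 (norm_ne_zero_iff.2 (by rw [valV, hq]; exact hne _ (hm θ))))
  rw [d.TB_congr d' fun _ _ => rfl, Geo.Disc.TB, circleAverage_eq_mu, e 0 (mem_closedBall_self zero_le_one)]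
  simp only [e _ (hm _)]
  rw [integral_sub hi (integrable_const _), integral_const, probReal_univ, one_smul]
  ring

theorem const_disc {y : Cn (N + 1)} (hy : y ∈ X.Y) :
    ∃ (d : X.Disc) (G : Fin (N + 1) → P.A), P.Rep d G ∧ (∀ z, d.G z = y) ∧ d.TB = 0 ∧ P.reg G = 0 := by
  obtain ⟨f, hf⟩ := X.exists_dv_ne hy
  refine ⟨⟨fun _ => y, fun _ => X.dv f y, diffContOnCl_const, diffContOnCl_const, fun _ _ => hy,
    fun _ _ => Submodule.subset_span ⟨f, rfl⟩, fun _ _ => hf⟩, fun i => algebraMap ℂ P.A (y i), fun z _ => ?_,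
    fun _ => rfl, ?_, ?_⟩
  · ext i
    simp [evV]
  · simp [Geo.Disc.TB, Real.circleAverage_const]
  · refine integral_eq_zero_of_ae ?_
    filter_upwards [Lp.coeFn_zero ℂ 2 mu] with θ hθ
    simp only [dsq, AlgHom.commutes, P.der_algebraMap, hθ]
    simp

theorem approx_disc_avg {f : ℂ → ℝ} (hf : ContinuousOn f (closedBall 0 1)) {ε : ℝ} (hε : 0 < ε) :
    ∀ᶠ r : ℝ in 𝓝[<] 1, |Real.circleAverage (fun z => f (r * z)) 0 1 - Real.circleAverage f 0 1| ≤ ε := by
  have h : ContinuousOn (Real.circleAverage f 0) (Icc 0 1) :=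
    Real.ContinuousOn.circleAverage (hf.mono fun z hz => by simpa using hz.2) fun r hr => hr.1
  have h1 : Tendsto (Real.circleAverage f 0) (𝓝[<] 1) (𝓝 (Real.circleAverage f 0 1)) :=
    (h 1 ⟨zero_le_one, le_rfl⟩).mono_of_mem_nhdsWithin (Icc_mem_nhdsLT zero_lt_one)
  filter_upwards [h1 (closedBall_mem_nhds _ hε)] with r hr
  rw [mem_preimage, mem_closedBall, Real.dist_eq, Real.circleAverage_eq_circleAverage_zero_one] at hr
  simpa using hr

/-- Dilate (`G (r z)`, `p (r z)`, uniform convergence on the circle), `of_analytic`, normalise by `outerV` (`avg_log_eq`, `pl_smul`). -/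
theorem approx_disc (d : X.Disc) {ε : ℝ} (hε : 0 < ε) : ∃ (d' : X.Disc) (G : Fin (N + 1) → P.A), P.Rep d' G ∧
    |d'.TB - d.TB| ≤ ε ∧ |d'.TH - d.TH| ≤ ε ∧ ∀ z ∈ sphere (0 : ℂ) 1, ‖d'.G z‖ = 1 := by
  have c1 : ContinuousOn (fun z => Real.log (‖d.p z‖ ^ 2)) (closedBall 0 1) :=
    ((d.hp.continuousOn_ball.norm).pow 2).log fun z hz => pow_ne_zero 2 (norm_ne_zero_iff.2 (d.neP z hz))
  have c2 : ContinuousOn (fun z => Real.log (‖d.G z‖ ^ 2)) (closedBall 0 1) :=
    ((d.hG.continuousOn_ball.norm).pow 2).log fun z hz => pow_ne_zero 2 (norm_ne_zero_iff.2 (d.memY z hz).1)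
  obtain ⟨r, ⟨h1, h2⟩, hr0, hr1⟩ := (((approx_disc_avg c1 hε).and (approx_disc_avg c2 hε)).and
    (Ioo_mem_nhdsLT (zero_lt_one' ℝ))).exists
  have hb : ∀ z ∈ closedBall (0 : ℂ) 1, (r : ℂ) * z ∈ ball (0 : ℂ) 1 := fun z hz => by
    rw [mem_closedBall_zero_iff] at hz
    rw [mem_ball_zero_iff, norm_mul, Complex.norm_real, Real.norm_of_nonneg hr0.le]
    nlinarith [norm_nonneg z]
  have hb' : ∀ z ∈ closedBall (0 : ℂ) 1, (r : ℂ) * z ∈ closedBall (0 : ℂ) 1 := fun z hz =>
    ball_subset_closedBall (hb z hz)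
  have an : ∀ {V : Type} [NormedAddCommGroup V] [NormedSpace ℂ V] [CompleteSpace V] {f : ℂ → V},
      DiffContOnCl ℂ f (ball 0 1) → AnalyticOnNhd ℂ (fun z => f (r * z)) (closedBall 0 1) := fun hf z hz =>
    (hf.differentiableOn.analyticOnNhd isOpen_ball _ (hb z hz)).comp (analyticAt_const.mul analyticAt_id)
  choose G0 hG0 using fun i => P.of_analytic (fun z => d.G (r * z) i) fun z hz =>
    (alg1_coord i _).comp (an d.hG z hz)
  have eG : ∀ z ∈ closedBall (0 : ℂ) 1, P.evV z G0 = d.G (r * z) := fun z hz => by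
    ext i
    exact hG0 i z hz
  have hm : ∀ θ, circleMap 0 1 θ ∈ closedBall (0 : ℂ) 1 := fun θ => circleMap_mem_closedBall 0 zero_le_one θ
  obtain ⟨o, o', hoo, -, hn, -⟩ := P.outerV (G := G0) fun θ => by
    rw [valV, eG _ (hm θ)]
    exact (d.memY _ (hb' _ (hm θ))).1
  have ne : ∀ z, P.ev z o' ≠ 0 := fun z =>
    right_ne_zero_of_mul_eq_one (a := P.ev z o) (by rw [← map_mul, hoo, map_one])
  have eS : ∀ z ∈ closedBall (0 : ℂ) 1, P.evV z (o' • G0) = P.ev z o' • d.G (r * z) := fun z hz => by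
    rw [← eG z hz]
    ext i
    simp [evV]
  have hs : ∀ z ∈ sphere (0 : ℂ) 1, ‖P.evV z (o' • G0)‖ = 1 := fun z hz => by
    obtain ⟨θ, rfl⟩ : z ∈ range (circleMap 0 1) := by rwa [range_circleMap, abs_one]
    exact hn θ
  have hp := an d.hp
  refine ⟨⟨fun z => P.evV z (o' • G0), fun z => d.p (r * z), P.diffContOnCl_evV _,
    ⟨(hp.mono ball_subset_closedBall).differentiableOn, (closure_ball (0 : ℂ) one_ne_zero).symm ▸ hp.continuousOn⟩,
    fun z hz => eS z hz ▸ X.smul_mem_Y (d.memY _ (hb' z hz)) (ne z),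
    fun z hz => by rw [eS z hz, X.pl_smul _ (ne z)]; exact d.memP _ (hb' z hz), fun z hz => d.neP _ (hb' z hz)⟩,
    o' • G0, fun _ _ => rfl, ?_, ?_, hs⟩
  · simpa only [Geo.Disc.TB, mul_zero, sub_sub_sub_cancel_right] using h1
  · have e1 := avg_log_eq (P.ev_diff o') fun z _ => ne z
    have e2 : ∀ z ∈ closedBall (0 : ℂ) 1, Real.log (‖P.evV z (o' • G0)‖ ^ 2) =
        Real.log (‖P.ev z o'‖ ^ 2) + Real.log (‖d.G (r * z)‖ ^ 2) := fun z hz => by
      rw [eS z hz, norm_smul, mul_pow, Real.log_mul (pow_ne_zero 2 (norm_ne_zero_iff.2 (ne z)))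
        (pow_ne_zero 2 (norm_ne_zero_iff.2 (d.memY _ (hb' z hz)).1))]
    have e3 : Real.circleAverage (fun z => Real.log (‖P.ev z o'‖ ^ 2)) 0 1 =
        -Real.circleAverage (fun z => Real.log (‖d.G (r * z)‖ ^ 2)) 0 1 := by
      rw [circleAverage_eq_mu, circleAverage_eq_mu, ← integral_neg]
      refine integral_congr_ae (.of_forall fun θ => ?_)
      have := e2 _ (hm θ)
      rw [hs _ (circleMap_mem_sphere 0 zero_le_one θ), one_pow, Real.log_one] at this
      simp only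
      linarith
    have e4 : Real.circleAverage (fun z => Real.log (‖P.evV z (o' • G0)‖ ^ 2)) 0 1 = 0 := by
      simp only [circleAverage_eq_mu, hs _ (circleMap_mem_sphere 0 zero_le_one _), one_pow, Real.log_one,
        integral_zero]
    simp only [Geo.Disc.TH, Geo.Disc.avg, Geo.Disc.s0, e4, e2 0 (mem_closedBall_self zero_le_one), ← e1, e3,
      mul_zero]
    convert h2 using 2
    ring

end HA

end Crest.Agent.R269
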