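import Crest.Agent.R269.C.Frame
import Crest.Agent.R269.C.T4.Main

/-!
# Row 269, block C4: tame estimates (statements FROZEN; recipe in Blueprint.lean, C4)
-/

set_option autoImplicit false
set_option linter.unusedSectionVars false
set_option linter.unusedVariables false

noncomputable section

namespace Crest.Agent.R269

open Set Metric Filter Topology MeasureTheory Matrix
open Crest.AlgGeometry.ProjEmb
open scoped InnerProductSpace ContDiff

namespace HA

variable (P : HA) {N n : ℕ} (X : Geo N n)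

/-- Orthonormal holomorphic frames are tame. -/
theorem tame_frame : ∃ K : ℝ, 0 ≤ K ∧ ∀ G : Fin (N + 1) → P.A, P.InY X G → (∀ θ, ‖P.valV θ G‖ = 1) →
    ∀ U, P.FrameA X G U → (U.map P.ι)ᴴ * U.map P.ι = 1 → P.nd (U.map P.ι) ≤ K * P.nsq G := by
  exact T4.tame_frame P X

variable {X}

theorem tm_holder {κ : Type} [Fintype κ] (G : κ → P.A) (θ : ℝ) {r : ℝ} (hr : r ∈ Icc (0 : ℝ) 1) :
    ‖P.evV (circleMap 0 r θ) G - P.valV θ G‖ ^ 2 ≤ 4 * (1 - r) * P.nsq G := by
  rw [EuclideanSpace.norm_sq_eq, nsq, Finset.mul_sum]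
  refine Finset.sum_le_sum fun i _ => ?_
  have h := P.holder (G i) θ r hr
  rw [PiLp.sub_apply, valV_apply]
  calc _ ≤ (2 * √(1 - r) * ‖P.der (P.ι (G i))‖) ^ 2 := by gcongr; exact h
    _ = _ := by rw [mul_pow, mul_pow, Real.sq_sqrt (by linarith [hr.2])]; ring

/-- Lower bound on the closed disc: `holder` near the circle, `Hyp.lower` inside. -/
theorem lower_of_hyp {M : ℝ} (h : X.Hyp M) : ∃ C : ℝ, 0 ≤ C ∧ ∀ G : Fin (N + 1) → P.A, P.InY X G → (∀ θ, ‖P.valV θ G‖ = 1) →
    ∀ z ∈ closedBall (0 : ℂ) 1, -(C * (1 + Real.log (1 + P.nsq G))) ≤ Real.log (‖P.evV z G‖ ^ 2) := by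
  have hM := h.nonneg
  have l4 : 0 ≤ Real.log 4 := Real.log_nonneg (by norm_num)
  have l16 : 0 ≤ Real.log 16 := Real.log_nonneg (by norm_num)
  refine ⟨Real.log 4 + 4 * M * Real.log 16 + 4 * M, by positivity, fun G hG h1 z hz => ?_⟩
  have hs : 0 ≤ P.nsq G := Finset.sum_nonneg fun _ _ => by positivity
  set s := P.nsq G with hsd
  have ls : 0 ≤ Real.log (1 + s) := Real.log_nonneg (by linarith)
  set δ : ℝ := (16 * (1 + s))⁻¹ with hδ
  have hδ0 : 0 < δ := by positivity
  have hδs : δ * (16 * (1 + s)) = 1 := inv_mul_cancel₀ (by positivity)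
  have hδ1 : δ ≤ 1 / 16 := by nlinarith
  have near : ∀ w : ℂ, 1 - δ ≤ ‖w‖ → ‖w‖ ≤ 1 → 1 / 2 ≤ ‖P.evV w G‖ := fun w hw hw1 => by
    have e : w = circleMap 0 ‖w‖ w.arg := by simp [circleMap]
    have h2 := P.tm_holder G w.arg ⟨norm_nonneg w, hw1⟩
    rw [← e, ← hsd] at h2
    have h3 : ‖P.evV w G - P.valV w.arg G‖ ≤ 1 / 2 := by
      refine (pow_le_pow_iff_left₀ (norm_nonneg _) (by norm_num) two_ne_zero).1 ?_
      nlinarith
    have h4 := norm_sub_norm_le (P.valV w.arg G) (P.evV w G)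
    rw [norm_sub_rev, h1] at h4
    linarith
  have lq : Real.log ((1 / 2 : ℝ) ^ 2) = -Real.log 4 := by
    rw [← Real.log_inv]; norm_num
  have hz1 : ‖z‖ ≤ 1 := by simpa using hz
  rcases le_total (1 - δ) ‖z‖ with hr | hr
  · have h2 : Real.log ((1 / 2 : ℝ) ^ 2) ≤ Real.log (‖P.evV z G‖ ^ 2) :=
      Real.log_le_log (by norm_num) (by gcongr; exact near z hr hz1)
    rw [lq] at h2
    refine le_trans (neg_le_neg ?_) h2
    have : 0 ≤ (Real.log 4 + 4 * M * Real.log 16 + 4 * M) * Real.log (1 + s) := by positivity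
    have : 0 ≤ 4 * M * Real.log 16 := by positivity
    nlinarith
  · have h2 := h.lower (G := fun z => P.evV z G) (P.diffContOnCl_evV G).differentiableOn
      (fun w hw => hG w (ball_subset_closedBall hw)) (r := 1 - δ) (m := 1 / 2) (by linarith) (by linarith) (by norm_num)
      (fun w hw => by
        have : ‖w‖ = 1 - δ := by simpa using hw
        exact near w this.ge (by linarith)) z (by simpa using hr)
    have h3 : Real.log δ ≤ Real.log (1 - (1 - δ) ^ 2) := Real.log_le_log hδ0 (by nlinarith)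
    rw [hδ, Real.log_inv, Real.log_mul (by norm_num) (by positivity), ← hδ] at h3
    rw [lq] at h2
    refine le_trans ?_ h2
    have := mul_le_mul_of_nonneg_left h3 (show 0 ≤ 4 * M by positivity)
    have : 0 ≤ (Real.log 4 + 4 * M * Real.log 16) * Real.log (1 + s) := by positivity
    nlinarith

/-- `outerV`, `avg_log_eq`, `lower_of_hyp`. -/
theorem TH_le {M : ℝ} (h : X.Hyp M) : ∃ C : ℝ, 0 ≤ C ∧ ∀ (d : X.Disc) G, P.Rep d G →
    d.TH ≤ C * (1 + Real.log (1 + P.reg G)) := by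
  obtain ⟨C, hC, H⟩ := P.lower_of_hyp h
  have l6 : 0 ≤ Real.log 6 := Real.log_nonneg (by norm_num)
  refine ⟨C * (1 + Real.log 6), by positivity, fun d G hd => ?_⟩
  have hY := hd.inY
  obtain ⟨o, o', hoo, ho, h1, -, h6⟩ := P.outerV (G := G) fun θ =>
    (hY _ (sphere_subset_closedBall (by simp))).1
  have hev : ∀ z, P.ev z o * P.ev z o' = 1 := fun z => by rw [← map_mul, hoo, map_one]
  have hsm : ∀ z, P.evV z (o' • G) = P.ev z o' • P.evV z G := fun z => by
    ext i
    simp [evV]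
  have hY' : P.InY X (o' • G) := fun z hz => by
    rw [hsm]
    exact X.smul_mem_Y (hY z hz) (right_ne_zero_of_mul_eq_one (hev z))
  have h0 : (0 : ℂ) ∈ closedBall (0 : ℂ) 1 := by simp
  have h2 := H _ hY' h1 0 h0
  have h3 : d.avg (fun y => Real.log (‖y‖ ^ 2)) = Real.log (‖P.ev 0 o‖ ^ 2) := by
    rw [hd.avg, ← avg_log_eq (P.ev_diff o) fun z _ => left_ne_zero_of_mul_eq_one (hev z), circleAverage_eq_mu]
    simp only [P.ev_val, ho]
  have h4 : d.s0 = Real.log (‖P.ev 0 o‖ ^ 2) + Real.log (‖P.evV 0 (o' • G)‖ ^ 2) := by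
    rw [← Real.log_mul (pow_ne_zero _ (norm_ne_zero_iff.2 (left_ne_zero_of_mul_eq_one (hev 0))))
      (pow_ne_zero _ (norm_ne_zero_iff.2 (hY' 0 h0).1)), ← mul_pow, ← norm_smul, hsm, smul_smul, hev, one_smul,
      Geo.Disc.s0, hd 0 h0]
  have hr : 0 ≤ P.reg G := P.rel_nonneg G G
  have hs : 0 ≤ P.nsq (o' • G) := Finset.sum_nonneg fun _ _ => by positivity
  have h5 : Real.log (1 + P.nsq (o' • G)) ≤ Real.log 6 + Real.log (1 + P.reg G) := by
    rw [← Real.log_mul (by norm_num) (by positivity)]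
    exact Real.log_le_log (by positivity) (by linarith)
  have lr : 0 ≤ Real.log (1 + P.reg G) := Real.log_nonneg (by linarith)
  have h7 := mul_le_mul_of_nonneg_left h5 hC
  have h8 : 0 ≤ C * (Real.log 6 * Real.log (1 + P.reg G)) := by positivity
  rw [Geo.Disc.TH, h3, h4]
  nlinarith

end HA

end Crest.Agent.R269
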